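import Vale.Agent.P114.Words
import Mathlib.Algebra.MvPolynomial.Eval
import Mathlib.Algebra.MvPolynomial.CommRing
import Mathlib.LinearAlgebra.Matrix.Determinant.Basic
import Mathlib.Data.Finsupp.Fintype
import Mathlib.GroupTheory.Perm.Basic
import Mathlib.Analysis.SpecialFunctions.Exp
import Mathlib.Topology.Sequences
import Mathlib.Topology.Compactness.Compact
import Mathlib.Topology.Instances.Int
import Mathlib.Topology.Metrizable.Basic

/-! # P114, several parameters: formal differences, minors and their weighted size -/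

namespace Vale.Agent.P114.Mv

noncomputable section

open scoped Classical
open Finset MvPolynomial Filter

/-- Integer polynomials in `s` variables. -/
abbrev MP (s : ℕ) : Type := MvPolynomial (Fin s) ℤ

variable {s k : ℕ} {ι : Type}

/-- The total degree of an exponent. -/
def tdeg (ν : Fin s →₀ ℕ) : ℕ := ∑ j, ν j

/-- The formal slope `± X ^ a`. -/
def mslope (σ : ι → Bool) (a : ι → Fin s → ℕ) (i : ι) : MP s :=
  monomial (Finsupp.equivFunOnFinite.symm (a i)) (if σ i then 1 else -1)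

/-- Evaluation at a real point. -/
def ev (θ : Fin s → ℝ) : MP s →+* ℝ := (aeval θ).toRingHom

/-- Differences of formal translation vectors of two words with equal formal slopes. -/
def Dif (r : ι → MP s) (c : ι → Fin k → MP s) (n : ℕ) : Set (Fin k → MP s) :=
  {d | ∃ v w : Fin n → ι, slope r v = slope r w ∧ d = trans r c v - trans r c w}

/-- Determinants with rows taken from the level `n` differences and the unit vectors. -/
def Minr (r : ι → MP s) (c : ι → Fin k → MP s) (n : ℕ) : Set (MP s) :=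
  {P | ∃ B : Matrix (Fin k) (Fin k) (MP s),
    (∀ i, B i ∈ Dif r c n ∨ ∃ j, B i = Pi.single j 1) ∧ P = B.det}

/-- The minors with a nonzero coefficient of degree below `l` are exponentially separated. -/
def GoodPt (r : ι → MP s) (c : ι → Fin k → MP s) (θ : Fin s → ℝ) : Prop :=
  ∀ l : ℕ, ∃ J : ℝ, 0 ≤ J ∧ ∀ n : ℕ, ∀ P ∈ Minr r c n, (∃ ν, tdeg ν < l ∧ coeff ν P ≠ 0) →
    Real.exp (-(J * ((n : ℝ) + 1))) ≤ |ev θ P|

/-- The weighted size of a polynomial. -/
def wnorm (R : ℝ) (P : MP s) : ℝ := P.support.sum fun ν => |((coeff ν P : ℤ) : ℝ)| * R ^ tdeg ν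

theorem wnorm_eq_sum {R : ℝ} {P : MP s} {S : Finset (Fin s →₀ ℕ)} (h : P.support ⊆ S) :
    wnorm R P = ∑ ν ∈ S, |((coeff ν P : ℤ) : ℝ)| * R ^ tdeg ν :=
  sum_subset h fun ν _ hν => by simp [notMem_support_iff.1 hν]

theorem wnorm_nonneg {R : ℝ} (hR : 0 ≤ R) (P : MP s) : 0 ≤ wnorm R P :=
  sum_nonneg fun ν _ => mul_nonneg (abs_nonneg _) (pow_nonneg hR _)

theorem wnorm_zero (R : ℝ) : wnorm R (0 : MP s) = 0 := by simp [wnorm]

theorem wnorm_monomial_le {R : ℝ} (hR : 0 ≤ R) (ν : Fin s →₀ ℕ) (c : ℤ) :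
    wnorm R (monomial ν c) ≤ |(c : ℝ)| * R ^ tdeg ν := by
  rw [wnorm_eq_sum (S := {ν}) support_monomial_subset, sum_singleton, coeff_monomial, if_pos rfl]

theorem wnorm_one {R : ℝ} (hR : 0 ≤ R) : wnorm R (1 : MP s) ≤ 1 := by
  have h := wnorm_monomial_le (s := s) hR 0 1
  simpa [tdeg] using h

theorem wnorm_add_le {R : ℝ} (hR : 0 ≤ R) (P Q : MP s) :
    wnorm R (P + Q) ≤ wnorm R P + wnorm R Q := by
  rw [wnorm_eq_sum (S := P.support ∪ Q.support) support_add,
    wnorm_eq_sum (P := P) (S := P.support ∪ Q.support) subset_union_left,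
    wnorm_eq_sum (P := Q) (S := P.support ∪ Q.support) subset_union_right, ← sum_add_distrib]
  refine sum_le_sum fun ν _ => ?_
  rw [← add_mul, coeff_add, Int.cast_add]
  exact mul_le_mul_of_nonneg_right (abs_add_le _ _) (pow_nonneg hR _)

theorem wnorm_neg (R : ℝ) (P : MP s) : wnorm R (-P) = wnorm R P := by
  rw [wnorm, wnorm, support_neg]
  exact sum_congr rfl fun ν _ => by simp

theorem wnorm_sum_le {R : ℝ} (hR : 0 ≤ R) {β : Type*} (S : Finset β) (f : β → MP s) :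
    wnorm R (∑ i ∈ S, f i) ≤ ∑ i ∈ S, wnorm R (f i) := by
  induction S using Finset.induction_on with
  | empty => simp [wnorm_zero]
  | insert i S hi ih =>
    rw [sum_insert hi, sum_insert hi]
    exact (wnorm_add_le hR _ _).trans (by linarith)

theorem wnorm_mul_le {R : ℝ} (hR : 0 ≤ R) (P Q : MP s) :
    wnorm R (P * Q) ≤ wnorm R P * wnorm R Q := by
  conv_lhs => rw [as_sum P, as_sum Q, sum_mul_sum]
  refine (wnorm_sum_le hR _ _).trans ((sum_le_sum fun ν _ => wnorm_sum_le hR _ _).trans ?_)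
  rw [wnorm, wnorm, sum_mul_sum]
  refine sum_le_sum fun ν _ => sum_le_sum fun μ _ => ?_
  rw [monomial_mul]
  refine (wnorm_monomial_le hR _ _).trans (le_of_eq ?_)
  rw [Int.cast_mul, abs_mul, show tdeg (ν + μ) = tdeg ν + tdeg μ by simp [tdeg, sum_add_distrib],
    pow_add]
  ring

theorem wnorm_prod_le {R : ℝ} (hR : 0 ≤ R) {β : Type*} (S : Finset β) (f : β → MP s) :
    wnorm R (∏ i ∈ S, f i) ≤ ∏ i ∈ S, wnorm R (f i) := by
  induction S using Finset.induction_on with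
  | empty => simpa using wnorm_one hR
  | insert i S hi ih =>
    rw [prod_insert hi, prod_insert hi]
    exact (wnorm_mul_le hR _ _).trans (mul_le_mul_of_nonneg_left ih (wnorm_nonneg hR _))

theorem wnorm_det_le {R : ℝ} (hR : 0 ≤ R) (M : Matrix (Fin k) (Fin k) (MP s)) {b : ℝ}
    (h : ∀ i j, wnorm R (M i j) ≤ b) : wnorm R M.det ≤ k.factorial * b ^ k := by
  rw [Matrix.det_apply]
  refine (wnorm_sum_le hR _ _).trans ((sum_le_sum (g := fun _ => b ^ k) fun σ _ => ?_).trans ?_)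
  · have hp : wnorm R (∏ i, M (σ i) i) ≤ b ^ k :=
      (wnorm_prod_le hR _ _).trans
        ((prod_le_prod (fun i _ => wnorm_nonneg hR _) fun i _ => h _ _).trans (by simp))
    rcases Int.units_eq_one_or (Equiv.Perm.sign σ) with hs | hs <;> rw [hs]
    · simpa using hp
    · simpa [wnorm_neg] using hp
  · simp [Fintype.card_perm]

theorem abs_coeff_mul_le {R : ℝ} (hR : 0 ≤ R) (P : MP s) (ν : Fin s →₀ ℕ) :
    |((coeff ν P : ℤ) : ℝ)| * R ^ tdeg ν ≤ wnorm R P := by
  by_cases h : ν ∈ P.support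
  · exact single_le_sum (f := fun μ => |((coeff μ P : ℤ) : ℝ)| * R ^ tdeg μ)
      (fun μ _ => mul_nonneg (abs_nonneg _) (pow_nonneg hR _)) h
  · simpa [notMem_support_iff.1 h] using wnorm_nonneg hR P

theorem ev_eq_sum (θ : Fin s → ℝ) (P : MP s) :
    ev θ P = ∑ ν ∈ P.support, ((coeff ν P : ℤ) : ℝ) * ∏ j, θ j ^ ν j := by
  simp [ev, aeval_def, eval₂_eq']

theorem abs_prod_pow_le {θ : Fin s → ℝ} {b : ℝ} (hθ : ∀ j, |θ j| ≤ b) (ν : Fin s →₀ ℕ) :
    |∏ j, θ j ^ ν j| ≤ b ^ tdeg ν := by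
  rw [abs_prod, tdeg, ← prod_pow_eq_pow_sum]
  refine prod_le_prod (fun j _ => abs_nonneg _) fun j _ => ?_
  rw [abs_pow]
  exact pow_le_pow_left₀ (abs_nonneg _) (hθ j) _

/-- Without coefficients of degree below `l` the value is small. -/
theorem abs_ev_le {θ : Fin s → ℝ} {b R : ℝ} (hb : 0 ≤ b) (hbR : b ≤ R) (hR : 0 < R)
    (hθ : ∀ j, |θ j| ≤ b) (P : MP s) (l : ℕ) (hl : ∀ ν, tdeg ν < l → coeff ν P = 0) :
    |ev θ P| ≤ (b / R) ^ l * wnorm R P := by
  rw [ev_eq_sum, wnorm, mul_sum]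
  refine (abs_sum_le_sum_abs _ _).trans (sum_le_sum fun ν hν => ?_)
  have hl' : l ≤ tdeg ν := by
    by_contra h
    exact mem_support_iff.1 hν (hl ν (by omega))
  rw [abs_mul]
  refine (mul_le_mul_of_nonneg_left (abs_prod_pow_le hθ ν) (abs_nonneg _)).trans ?_
  rw [← mul_assoc, mul_comm ((b / R) ^ l), mul_assoc]
  refine mul_le_mul_of_nonneg_left ?_ (abs_nonneg _)
  obtain ⟨e, he⟩ := Nat.exists_eq_add_of_le hl'
  rw [he, pow_add, pow_add, ← mul_assoc, ← mul_pow, div_mul_cancel₀ _ hR.ne']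
  exact mul_le_mul_of_nonneg_left (pow_le_pow_left₀ hb hbR e) (pow_nonneg hb _)

theorem slope_mslope (σ : ι → Bool) (a : ι → Fin s → ℕ) {n : ℕ} (w : Fin n → ι) :
    slope (mslope σ a) w = monomial (∑ i, Finsupp.equivFunOnFinite.symm (a (w i)))
      (∏ i, if σ (w i) then 1 else -1) := by
  simp only [slope, mslope, monomial_sum_prod]

theorem mslope_ne_zero (σ : ι → Bool) (a : ι → Fin s → ℕ) (i : ι) : mslope σ a i ≠ 0 := by
  simp only [mslope, ne_eq, monomial_eq_zero]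
  split_ifs <;> simp

theorem wnorm_mslope_le {R : ℝ} (hR : 0 ≤ R) (hR1 : R ≤ 1) (σ : ι → Bool) {a : ι → Fin s → ℕ}
    (ha : ∀ i, a i ≠ 0) (i : ι) : wnorm R (mslope σ a i) ≤ R := by
  refine (wnorm_monomial_le hR _ _).trans ?_
  have h1 : |(((if σ i then 1 else -1 : ℤ)) : ℝ)| = 1 := by split_ifs <;> simp
  rw [h1, one_mul]
  refine (pow_le_pow_of_le_one hR hR1 ?_).trans (le_of_eq (pow_one R))
  obtain ⟨j, hj⟩ := Function.ne_iff.1 (ha i)
  refine le_trans (Nat.one_le_iff_ne_zero.2 hj) (le_trans (le_of_eq ?_)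
    (single_le_sum (fun _ _ => Nat.zero_le _) (mem_univ j)))
  simp

variable [Fintype ι]

/-- A bound for the weighted size of all formal translations. -/
def transB (R : ℝ) (c : ι → Fin k → MP s) : ℝ := (∑ i, ∑ b, wnorm R (c i b)) / (1 - R)

theorem wnorm_trans_le {R : ℝ} (hR : 0 ≤ R) (hR1 : R < 1) (σ : ι → Bool) {a : ι → Fin s → ℕ}
    (ha : ∀ i, a i ≠ 0) (c : ι → Fin k → MP s) :
    ∀ {n : ℕ} (w : Fin n → ι) (b : Fin k), wnorm R (trans (mslope σ a) c w b) ≤ transB R c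
  | 0, w, b => by
    simp only [trans, Pi.zero_apply, wnorm_zero]
    exact div_nonneg (sum_nonneg fun i _ => sum_nonneg fun b _ => wnorm_nonneg hR _) (by linarith)
  | n + 1, w, b => by
    simp only [trans, Pi.add_apply, Pi.smul_apply, smul_eq_mul]
    refine (wnorm_add_le hR _ _).trans ?_
    have hB : wnorm R (c (w 0) b) ≤ transB R c * (1 - R) := by
      rw [transB, div_mul_cancel₀ _ (by linarith : 1 - R ≠ 0)]
      exact le_trans (single_le_sum (fun b _ => wnorm_nonneg hR _) (mem_univ b))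
        (single_le_sum (f := fun i => ∑ b, wnorm R (c i b))
          (fun i _ => sum_nonneg fun b _ => wnorm_nonneg hR _) (mem_univ (w 0)))
    have h2 := (wnorm_mul_le hR (mslope σ a (w 0)) (trans (mslope σ a) c (Fin.tail w) b)).trans
      (mul_le_mul (wnorm_mslope_le hR hR1.le σ ha _) (wnorm_trans_le hR hR1 σ ha c (Fin.tail w) b)
        (wnorm_nonneg hR _) hR)
    linarith

/-- A bound for the weighted size of all minors. -/
def minrB (R : ℝ) (c : ι → Fin k → MP s) : ℝ := k.factorial * (2 * transB R c + 1) ^ k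

theorem wnorm_row_le {R : ℝ} (hR : 0 ≤ R) (hR1 : R < 1) (σ : ι → Bool) {a : ι → Fin s → ℕ}
    (ha : ∀ i, a i ≠ 0) (c : ι → Fin k → MP s) {n : ℕ} {d : Fin k → MP s}
    (hd : d ∈ Dif (mslope σ a) c n ∨ ∃ j, d = Pi.single j 1) (b : Fin k) :
    wnorm R (d b) ≤ 2 * transB R c + 1 := by
  have hT : 0 ≤ transB R c :=
    div_nonneg (sum_nonneg fun i _ => sum_nonneg fun b _ => wnorm_nonneg hR _) (by linarith)
  rcases hd with ⟨v, w, -, rfl⟩ | ⟨j, rfl⟩
  · rw [Pi.sub_apply, sub_eq_add_neg]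
    refine (wnorm_add_le hR _ _).trans ?_
    rw [wnorm_neg]
    linarith [wnorm_trans_le hR hR1 σ ha c v b, wnorm_trans_le hR hR1 σ ha c w b]
  · rw [Pi.single_apply]
    split_ifs
    · linarith [wnorm_one (s := s) hR]
    · rw [wnorm_zero]; linarith

theorem wnorm_minr_le {R : ℝ} (hR : 0 ≤ R) (hR1 : R < 1) (σ : ι → Bool) {a : ι → Fin s → ℕ}
    (ha : ∀ i, a i ≠ 0) (c : ι → Fin k → MP s) {n : ℕ} {P : MP s}
    (hP : P ∈ Minr (mslope σ a) c n) : wnorm R P ≤ minrB R c := by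
  obtain ⟨B, hB, rfl⟩ := hP
  exact wnorm_det_le hR B fun i j => wnorm_row_le hR hR1 σ ha c (hB i) j

/-- There are at most exponentially many minors of each level. -/
theorem minr_count (r : ι → MP s) (c : ι → Fin k → MP s) (n : ℕ) :
    ∃ S : Finset (MP s), Minr r c n ⊆ ↑S ∧
      (S.card : ℝ) ≤ (((Fintype.card ι : ℝ) ^ n) ^ 2 + k) ^ k := by
  let row : ((Fin n → ι) × (Fin n → ι)) ⊕ Fin k → Fin k → MP s :=
    Sum.elim (fun vw => trans r c vw.1 - trans r c vw.2) (fun j => Pi.single j 1)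
  let f : (Fin k → ((Fin n → ι) × (Fin n → ι)) ⊕ Fin k) → MP s :=
    fun q => (Matrix.of fun i => row (q i)).det
  refine ⟨univ.image f, ?_, le_trans (Nat.cast_le.2 card_image_le) (le_of_eq ?_)⟩
  · rintro P ⟨B, hB, rfl⟩
    have hrow : ∀ i, ∃ o, row o = B i := fun i => by
      rcases hB i with ⟨v, w, -, h⟩ | ⟨j, h⟩
      · exact ⟨Sum.inl (v, w), h.symm⟩
      · exact ⟨Sum.inr j, h.symm⟩
    choose q hq using hrow
    simp only [coe_image, Set.mem_image, coe_univ, Set.mem_univ, true_and]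
    exact ⟨q, congrArg Matrix.det (funext fun i => hq i)⟩
  · simp [sq]

/-- Bounded integer sequences have a subsequence which is eventually constant at every index. -/
theorem exists_stable_subseq {κ : Type} [Countable κ] (f : ℕ → κ → ℤ) (B : κ → ℝ)
    (h : ∀ m i, |(f m i : ℝ)| ≤ B i) :
    ∃ φ : ℕ → ℕ, StrictMono φ ∧ ∃ g : κ → ℤ, ∀ i, ∀ᶠ m in atTop, f (φ m) i = g i := by
  have hK : IsCompact (Set.univ.pi fun i => (↑(Finset.Icc ⌈-B i⌉ ⌊B i⌋) : Set ℤ)) :=
    isCompact_univ_pi fun i => (Finset.finite_toSet _).isCompact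
  have hmem : ∀ m, f m ∈ Set.univ.pi fun i => (↑(Finset.Icc ⌈-B i⌉ ⌊B i⌋) : Set ℤ) := fun m i _ => by
    obtain ⟨h1, h2⟩ := abs_le.1 (h m i)
    exact Finset.mem_coe.2 (Finset.mem_Icc.2 ⟨Int.ceil_le.2 h1, Int.le_floor.2 h2⟩)
  obtain ⟨g, -, φ, hφ, hlim⟩ := hK.tendsto_subseq hmem
  refine ⟨φ, hφ, g, fun i => ?_⟩
  have := (tendsto_pi_nhds.1 hlim i)
  rw [nhds_discrete, tendsto_pure] at this
  exact this

end

end Vale.Agent.P114.Mv
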