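import Vale.Agent.P114.Mv.Sublevel
import Mathlib.Topology.MetricSpace.HausdorffDimension
import Mathlib.Algebra.MvPolynomial.Variables
import Mathlib.Data.Countable.Basic
import Mathlib.Data.Finsupp.Encodable
import Mathlib.Analysis.SpecificLimits.Basic

/-! # P114, several parameters: the exceptional set has dimension at most `s - 1` -/

namespace Vale.Agent.P114.Mv

noncomputable section

open scoped Classical ENNReal NNReal
open Finset MvPolynomial Filter Topology MeasureTheory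

variable {s k : ℕ} {ι : Type}

/-- The parameters which are algebraically dependent or at which some minors of a system are not
exponentially separated. -/
def Exc (s : ℕ) : Set (Fin s → ℝ) :=
  {θ | (∀ j, θ j ∈ Set.Ioo (0 : ℝ) 1) ∧ ((∃ P : MP s, P ≠ 0 ∧ ev θ P = 0) ∨
    ∃ (N k : ℕ) (σ : Fin N → Bool) (a : Fin N → Fin s → ℕ) (c : Fin N → Fin k → MP s),
      (∀ i, a i ≠ 0) ∧ ¬ GoodPt (mslope σ a) c θ)}

instance : Countable (MP s) :=
  AddMonoidAlgebra.coeff_injective.countable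

/-- Translations of relabelled words. -/
theorem trans_comp' {α : Type} (f : ι → α) (r : α → MP s) (c : α → Fin k → MP s) :
    ∀ {n : ℕ} (w : Fin n → ι), trans (r ∘ f) (c ∘ f) w = trans r c (f ∘ w)
  | 0, _ => rfl
  | n + 1, w => by
    simp only [trans, Function.comp_apply, trans_comp' f r c (Fin.tail w)]
    rfl

/-- Outside the exceptional set there are no relations and all systems are separated. -/
theorem good_of_not_mem_exc {θ : Fin s → ℝ} (h01 : ∀ j, θ j ∈ Set.Ioo (0 : ℝ) 1) (h : θ ∉ Exc s) :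
    (∀ P : MP s, P ≠ 0 → ev θ P ≠ 0) ∧
      ∀ {ι : Type} [Fintype ι] {k : ℕ} (σ : ι → Bool) (a : ι → Fin s → ℕ) (c : ι → Fin k → MP s),
        (∀ i, a i ≠ 0) → GoodPt (mslope σ a) c θ := by
  refine ⟨fun P hP hev => h ⟨h01, Or.inl ⟨P, hP, hev⟩⟩, ?_⟩
  intro ι _ k σ a c ha
  set f := Fintype.equivFin ι
  have hG : GoodPt (mslope (σ ∘ f.symm) (a ∘ f.symm)) (c ∘ f.symm) θ := by
    by_contra hbad
    exact h ⟨h01, Or.inr ⟨_, k, σ ∘ f.symm, a ∘ f.symm, c ∘ f.symm, fun i => ha _, hbad⟩⟩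
  intro l
  obtain ⟨J, hJ, hb⟩ := hG l
  refine ⟨J, hJ, fun n P hP hP0 => hb n P ?_ hP0⟩
  obtain ⟨B, hB, rfl⟩ := hP
  refine ⟨B, fun a' => ?_, rfl⟩
  rcases hB a' with ⟨v, w, hs, hd⟩ | h'
  · have e0 : mslope (σ ∘ f.symm) (a ∘ f.symm) = mslope σ a ∘ f.symm := rfl
    have e1 : ∀ u : Fin n → ι, f.symm ∘ (f ∘ u) = u := fun u => funext fun i => by simp
    refine Or.inl ⟨f ∘ v, f ∘ w, ?_, ?_⟩
    · rw [e0]
      simpa [slope] using hs
    · rw [e0, trans_comp', trans_comp', e1, e1, hd]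
  · exact Or.inr h'

/-- A relation holds only on a set of dimension at most `s - 1`. -/
theorem zero_null (hs : 0 < s) {P : MP s} (hP : P ≠ 0) {b : ℝ} (hb : 0 ≤ b) (hb1 : b < 1) {d : ℝ}
    (hd : (s : ℝ) - 1 < d) :
    μH[d] {θ : Fin s → ℝ | (∀ i, 0 ≤ θ i ∧ θ i ≤ b) ∧ ev θ P = 0} = 0 := by
  obtain ⟨ν, hν⟩ : P.support.Nonempty :=
    MvPolynomial.support_nonempty.2 hP
  obtain ⟨C, γ, δ₀, hC, hγ, hδ₀, -, hcov⟩ := sublevel_cover hs hb hb1.le hb1 hd (wnorm 1 P) (tdeg ν + 1)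
  set δ : ℕ → ℝ := fun m => δ₀ * (1 / 2) ^ m
  have hδ : ∀ m, 0 < δ m := fun m => by positivity
  have hδle : ∀ m, δ m ≤ δ₀ := fun m =>
    mul_le_of_le_one_right hδ₀.le (pow_le_one₀ (by norm_num) (by norm_num))
  choose T hT1 hT2 hT3 using fun m =>
    hcov P le_rfl ⟨ν, by omega, mem_support_iff.1 hν⟩ (δ m) (hδ m) (hδle m)
  have hlim : Tendsto (fun m => ENNReal.ofReal (C * δ m ^ γ)) atTop (𝓝 0) := by
    rw [← ENNReal.ofReal_zero]
    refine (ENNReal.continuous_ofReal.tendsto 0).comp ?_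
    have h1 : Tendsto δ atTop (𝓝 0) := by
      simpa [δ] using (tendsto_pow_atTop_nhds_zero_of_lt_one (show (0 : ℝ) ≤ 1 / 2 by norm_num)
        (by norm_num)).const_mul δ₀
    have h2 := (h1.rpow_const (Or.inr hγ.le)).const_mul C
    rwa [Real.zero_rpow hγ.ne', mul_zero] at h2
  refine le_antisymm ?_ bot_le
  refine (Measure.hausdorffMeasure_le_liminf_tsum d _ _ hlim (fun m (t : {t // t ∈ T m}) => t.1)
    (Eventually.of_forall fun m t => hT2 m t.1 t.2) (Eventually.of_forall fun m θ hθ => ?_)).trans ?_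
  · obtain ⟨t, ht, hxt⟩ := Set.mem_iUnion₂.1 (hT1 m ⟨hθ.1, by rw [hθ.2, abs_zero]; exact (hδ m).le⟩)
    exact Set.mem_iUnion.2 ⟨⟨t, ht⟩, hxt⟩
  · refine (Filter.liminf_le_liminf (Eventually.of_forall fun m => ?_)).trans (le_of_eq hlim.liminf_eq)
    rw [tsum_fintype]
    exact ((T m).sum_coe_sort fun t => Metric.ediam t ^ d).trans_le (hT3 m)

/-- The unseparated parameters of one system form a set of dimension at most `s - 1`. -/
theorem bad_null [Fintype ι] (hs : 0 < s) (σ : ι → Bool) {a : ι → Fin s → ℕ} (ha : ∀ i, a i ≠ 0)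
    (c : ι → Fin k → MP s) (l : ℕ) {b : ℝ} (hb : 0 ≤ b) (hb1 : b < 1) {d : ℝ}
    (hd : (s : ℝ) - 1 < d) :
    μH[d] {θ : Fin s → ℝ | (∀ i, 0 ≤ θ i ∧ θ i ≤ b) ∧ ∀ J : ℝ, 0 ≤ J → ∃ n, ∃ P ∈ Minr (mslope σ a) c n,
      (∃ ν, tdeg ν < l ∧ coeff ν P ≠ 0) ∧ |ev θ P| < Real.exp (-(J * ((n : ℝ) + 1)))} = 0 := by
  set R := (1 + b) / 2
  have hR0 : 0 ≤ R := by positivity
  have hR1 : R < 1 := by simp only [R]; linarith
  have hbR : b < R := by simp only [R]; linarith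
  obtain ⟨C, γ, δ₀, hC, hγ, hδ₀, hδ₀1, hcov⟩ :=
    sublevel_cover hs hb hb1.le hbR hd (minrB R c) l
  choose S hS1 hS2 using fun n => minr_count (mslope σ a) c n
  set K₁ := (Fintype.card ι : ℝ) ^ 2 + k + 1
  have hK₁ : 1 ≤ K₁ := le_add_of_nonneg_left (by positivity)
  set G := k * Real.log K₁
  have hG0 : 0 ≤ G := mul_nonneg k.cast_nonneg (Real.log_nonneg hK₁)
  have hcount : ∀ n : ℕ, ((S n).card : ℝ) ≤ Real.exp (G * ((n : ℝ) + 1)) := fun n => by
    refine (hS2 n).trans ?_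
    have h1 : ((Fintype.card ι : ℝ) ^ n) ^ 2 + k ≤ K₁ ^ (n + 1) := by
      have h2 : ((Fintype.card ι : ℝ) ^ n) ^ 2 ≤ K₁ ^ n := by
        rw [← pow_mul, mul_comm, pow_mul]
        exact pow_le_pow_left₀ (sq_nonneg _) (by simp only [K₁]; linarith [k.cast_nonneg (α := ℝ)]) n
      have h3 : (k : ℝ) + 1 ≤ K₁ := by simp only [K₁]; linarith [sq_nonneg (Fintype.card ι : ℝ)]
      have h4 : (1 : ℝ) ≤ K₁ ^ n := one_le_pow₀ hK₁
      have h5 := mul_le_mul_of_nonneg_left h3 (show (0 : ℝ) ≤ K₁ ^ n by positivity)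
      have h6 := le_mul_of_one_le_left (k.cast_nonneg (α := ℝ)) h4
      calc ((Fintype.card ι : ℝ) ^ n) ^ 2 + k ≤ K₁ ^ n + K₁ ^ n * k := add_le_add h2 h6
        _ = K₁ ^ n * ((k : ℝ) + 1) := by ring
        _ ≤ K₁ ^ n * K₁ := h5
        _ = K₁ ^ (n + 1) := (pow_succ _ _).symm
    refine (pow_le_pow_left₀ (by positivity) h1 k).trans (le_of_eq ?_)
    rw [← pow_mul, ← Real.exp_log (show 0 < K₁ by linarith), ← Real.exp_nat_mul]
    simp only [G]
    push_cast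
    ring_nf
  set δ : ℕ → ℕ → ℝ := fun m n => δ₀ * Real.exp (-((G + m) / γ * ((n : ℝ) + 1)))
  have hδ : ∀ m n, 0 < δ m n := fun m n => by positivity
  have hδle : ∀ m n, δ m n ≤ δ₀ := fun m n => mul_le_of_le_one_right hδ₀.le
    (Real.exp_le_one_iff.2 (by have : 0 ≤ (G + m) / γ := by positivity
                               nlinarith [n.cast_nonneg (α := ℝ)]))
  have hδγ : ∀ m n, C * δ m n ^ γ ≤ C * Real.exp (-((G + m) * ((n : ℝ) + 1))) := fun m n => by
    refine mul_le_mul_of_nonneg_left ?_ hC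
    simp only [δ]
    rw [Real.mul_rpow hδ₀.le (Real.exp_pos _).le, ← Real.exp_mul]
    refine (mul_le_of_le_one_left (Real.exp_pos _).le (Real.rpow_le_one hδ₀.le hδ₀1 hγ.le)).trans
      (le_of_eq ?_)
    congr 1
    field_simp
  set Idx := fun n => {P // P ∈ (S n).filter fun P => P ∈ Minr (mslope σ a) c n ∧
    ∃ ν, tdeg ν < l ∧ coeff ν P ≠ 0}
  have hT : ∀ (m n : ℕ) (P : Idx n), ∃ T : Finset (Set (Fin s → ℝ)),
      {x | (∀ i, 0 ≤ x i ∧ x i ≤ b) ∧ |ev x P.1| ≤ δ m n} ⊆ ⋃ t ∈ T, t ∧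
      (∀ t ∈ T, Metric.ediam t ≤ ENNReal.ofReal (C * δ m n ^ γ)) ∧
      ∑ t ∈ T, Metric.ediam t ^ d ≤ ENNReal.ofReal (C * δ m n ^ γ) := fun m n P =>
    hcov P.1 (wnorm_minr_le hR0 hR1 σ ha c (mem_filter.1 P.2).2.1) (mem_filter.1 P.2).2.2 _
      (hδ m n) (hδle m n)
  choose T hT1 hT2 hT3 using hT
  have hlim : Tendsto (fun m : ℕ => ENNReal.ofReal (C * Real.exp (-(m : ℝ)))) atTop (𝓝 0) := by
    rw [← ENNReal.ofReal_zero]
    refine (ENNReal.continuous_ofReal.tendsto 0).comp ?_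
    rw [← mul_zero C]
    exact (Real.tendsto_exp_atBot.comp
      (tendsto_neg_atTop_atBot.comp tendsto_natCast_atTop_atTop)).const_mul C
  have hlim2 : Tendsto (fun m : ℕ => ENNReal.ofReal (2 * C * Real.exp (-(m : ℝ)))) atTop (𝓝 0) := by
    rw [← ENNReal.ofReal_zero]
    refine (ENNReal.continuous_ofReal.tendsto 0).comp ?_
    rw [← mul_zero (2 * C)]
    exact (Real.tendsto_exp_atBot.comp
      (tendsto_neg_atTop_atBot.comp tendsto_natCast_atTop_atTop)).const_mul (2 * C)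
  refine le_antisymm ?_ bot_le
  refine (Measure.hausdorffMeasure_le_liminf_tsum d _ _ hlim
    (fun m (q : Σ n, Σ P : Idx n, {t // t ∈ T m n P}) => q.2.2.1)
    (Eventually.of_forall fun m q => ?_) (Eventually.of_forall fun m θ hθ => ?_)).trans ?_
  · refine (hT2 m q.1 q.2.1 q.2.2.1 q.2.2.2).trans (ENNReal.ofReal_le_ofReal ((hδγ m q.1).trans ?_))
    refine mul_le_mul_of_nonneg_left (Real.exp_le_exp.2 ?_) hC
    nlinarith [q.1.cast_nonneg (α := ℝ), m.cast_nonneg (α := ℝ)]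
  · obtain ⟨hθb, hbad⟩ := hθ
    have hl0 : 0 ≤ -Real.log δ₀ := neg_nonneg.2 (Real.log_nonpos hδ₀.le hδ₀1)
    obtain ⟨n, P, hP, hlow, hlt⟩ := hbad ((G + m) / γ + -Real.log δ₀) (by positivity)
    set q : Idx n := ⟨P, mem_filter.2 ⟨hS1 n hP, hP, hlow⟩⟩
    have hle : |ev θ P| ≤ δ m n := by
      refine hlt.le.trans ?_
      simp only [δ]
      rw [add_mul, neg_add, Real.exp_add, mul_comm]
      refine mul_le_mul_of_nonneg_right ?_ (Real.exp_pos _).le
      calc Real.exp (-(-Real.log δ₀ * ((n : ℝ) + 1))) ≤ Real.exp (Real.log δ₀) := by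
            refine Real.exp_le_exp.2 ?_
            nlinarith [n.cast_nonneg (α := ℝ)]
        _ = δ₀ := Real.exp_log hδ₀
    obtain ⟨t, ht, hxt⟩ := Set.mem_iUnion₂.1 (hT1 m n q ⟨hθb, hle⟩)
    exact Set.mem_iUnion.2 ⟨⟨n, q, t, ht⟩, hxt⟩
  · refine (Filter.liminf_le_liminf ?_).trans (le_of_eq hlim2.liminf_eq)
    filter_upwards [eventually_ge_atTop 1] with m hm
    rw [ENNReal.tsum_sigma (fun n (x : Σ P : Idx n, {t // t ∈ T m n P}) => Metric.ediam x.2.1 ^ d)]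
    set r := Real.exp (-(m : ℝ))
    have hr : r ≤ 1 / 2 := by
      have h1 : r ≤ Real.exp (-1) := Real.exp_le_exp.2 (neg_le_neg (by exact_mod_cast hm))
      have h2 : Real.exp (-1) ≤ 1 / 2 := by
        rw [Real.exp_neg, one_div]
        exact inv_anti₀ two_pos (by linarith [Real.add_one_le_exp (1 : ℝ)])
      linarith
    have hterm : ∀ n, ∑' x : Σ P : Idx n, {t // t ∈ T m n P}, Metric.ediam x.2.1 ^ d ≤
        ENNReal.ofReal (C * r * r ^ n) := fun n => by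
      rw [ENNReal.tsum_sigma (fun P (t : {t // t ∈ T m n P}) => Metric.ediam t.1 ^ d)]
      simp only [tsum_fintype]
      refine (sum_le_card_nsmul _ _ _ fun P _ =>
        ((T m n P).sum_coe_sort fun t => Metric.ediam t ^ d).trans_le (hT3 m n P)).trans ?_
      rw [nsmul_eq_mul, card_univ, ← ENNReal.ofReal_natCast, ← ENNReal.ofReal_mul (Nat.cast_nonneg _)]
      refine ENNReal.ofReal_le_ofReal ?_
      have hc1 : (Fintype.card (Idx n) : ℝ) ≤ Real.exp (G * ((n : ℝ) + 1)) := by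
        refine le_trans ?_ (hcount n)
        simp only [Idx, Fintype.card_coe]
        exact_mod_cast card_filter_le _ _
      refine (mul_le_mul hc1 (hδγ m n) (by positivity) (Real.exp_pos _).le).trans (le_of_eq ?_)
      rw [mul_assoc C, ← pow_succ', ← Real.exp_nat_mul, mul_left_comm, ← Real.exp_add]
      congr 2
      push_cast
      ring
    refine (ENNReal.tsum_le_tsum hterm).trans ?_
    rw [← ENNReal.ofReal_tsum_of_nonneg (fun n => by positivity)
      ((summable_geometric_of_lt_one (by positivity) (by linarith)).mul_left _), tsum_mul_left,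
      tsum_geometric_of_lt_one (by positivity) (by linarith)]
    refine ENNReal.ofReal_le_ofReal ?_
    have hi : (1 - r)⁻¹ ≤ 2 := by
      rw [inv_le_comm₀ (by linarith) two_pos]; linarith
    calc C * r * (1 - r)⁻¹ ≤ C * r * 2 := mul_le_mul_of_nonneg_left hi (by positivity)
      _ = 2 * C * r := by ring

/-- The exceptional set is small. -/
theorem dimH_exc (s : ℕ) : dimH (Exc s) ≤ ((s - 1 : ℕ) : ENNReal) := by
  rcases Nat.eq_zero_or_pos s with rfl | hs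
  · refine le_of_eq_of_le (dimH_subsingleton ?_) bot_le
    exact Set.subsingleton_of_subsingleton
  set b : ℕ → ℝ := fun m => 1 - 1 / ((m : ℝ) + 2)
  have hb : ∀ m, 0 ≤ b m ∧ b m < 1 := fun m => by
    have h1 : (1 : ℝ) / ((m : ℝ) + 2) ≤ 1 / 2 :=
      one_div_le_one_div_of_le two_pos (le_add_of_nonneg_left m.cast_nonneg)
    have h2 : (0 : ℝ) < 1 / ((m : ℝ) + 2) := by positivity
    simp only [b]
    constructor <;> linarith
  have hcov : Exc s ⊆ (⋃ q : {P : MP s // P ≠ 0} × ℕ,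
        {θ : Fin s → ℝ | (∀ i, 0 ≤ θ i ∧ θ i ≤ b q.2) ∧ ev θ q.1.1 = 0}) ∪
      ⋃ q : Σ N : ℕ, Σ k : ℕ, (Fin N → Bool) × {a : Fin N → Fin s → ℕ // ∀ i, a i ≠ 0} ×
          (Fin N → Fin k → MP s) × ℕ × ℕ,
        {θ : Fin s → ℝ | (∀ i, 0 ≤ θ i ∧ θ i ≤ b q.2.2.2.2.2.2) ∧ ∀ J : ℝ, 0 ≤ J →
          ∃ n, ∃ P ∈ Minr (mslope q.2.2.1 q.2.2.2.1.1) q.2.2.2.2.1 n,
            (∃ ν, tdeg ν < q.2.2.2.2.2.1 ∧ coeff ν P ≠ 0) ∧
              |ev θ P| < Real.exp (-(J * ((n : ℝ) + 1)))} := by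
    rintro θ ⟨h01, h⟩
    obtain ⟨m, hm⟩ : ∃ m, ∀ i, θ i ≤ b m := by
      have hb' : Tendsto b atTop (𝓝 1) := by
        have h0 : Tendsto (fun m : ℕ => 1 / ((m : ℝ) + 2)) atTop (𝓝 0) := by
          simp only [one_div]
          exact tendsto_inv_atTop_zero.comp
            (tendsto_atTop_add_const_right _ 2 tendsto_natCast_atTop_atTop)
        simpa [b] using h0.const_sub 1
      exact (eventually_all.2 fun i => hb'.eventually (Ici_mem_nhds (h01 i).2)).exists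
    have hbox : ∀ i, 0 ≤ θ i ∧ θ i ≤ b m := fun i => ⟨(h01 i).1.le, hm i⟩
    rcases h with ⟨P, hP, hev⟩ | ⟨N, k, σ, a, c, ha, hbad⟩
    · exact Or.inl (Set.mem_iUnion.2 ⟨(⟨P, hP⟩, m), hbox, hev⟩)
    · simp only [GoodPt, not_forall, not_exists, not_and, not_le] at hbad
      obtain ⟨l, hl⟩ := hbad
      refine Or.inr (Set.mem_iUnion.2 ⟨⟨N, k, σ, ⟨a, ha⟩, c, l, m⟩, hbox, fun J hJ => ?_⟩)
      obtain ⟨n, P, hP, hlow, hlt⟩ := hl J hJ
      exact ⟨n, P, hP, hlow, hlt⟩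
  refine dimH_le fun d hd => ?_
  by_contra hlt
  push Not at hlt
  have hd' : (s : ℝ) - 1 < d := by
    have h2 : ((s - 1 : ℕ) : ℝ≥0) < d := by
      rw [← ENNReal.coe_natCast] at hlt
      exact_mod_cast hlt
    have h3 : (((s - 1 : ℕ) : ℝ≥0) : ℝ) < (d : ℝ) := NNReal.coe_lt_coe.2 h2
    rw [NNReal.coe_natCast, Nat.cast_sub hs, Nat.cast_one] at h3
    exact h3
  have h0 : μH[(d : ℝ)] (Exc s) = 0 := by
    refine measure_mono_null hcov (measure_union_null (measure_iUnion_null fun q => ?_)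
      (measure_iUnion_null fun q => ?_))
    · exact zero_null hs q.1.2 (hb _).1 (hb _).2 hd'
    · exact bad_null hs _ q.2.2.2.1.2 _ _ (hb _).1 (hb _).2 hd'
  rw [h0] at hd
  exact ENNReal.zero_ne_top hd

end

end Vale.Agent.P114.Mv
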