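import Vale.Agent.P114.Trans.FormalDigits
import Mathlib.RingTheory.PowerSeries.Basic
import Mathlib.RingTheory.PowerSeries.NoZeroDivisors
import Mathlib.Algebra.MvPolynomial.Funext
import Mathlib.Algebra.MvPolynomial.CommRing

/-! # P114, several variables: digit lemmas over a coefficient ring, renewal bound -/

namespace Vale.Agent.P114.Mv

noncomputable section

open scoped Classical
open Finset
open Vale.Agent.P114.Trans (pre pre_eq cent_const_le)

/-- Every finite subset maps injectively to the integers by an additive map. -/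
def Sep (A : Type) [AddCommGroup A] : Prop := ∀ S : Finset A, ∃ h : A →+ ℤ, Set.InjOn h S

theorem sep_mvPolynomial (s : ℕ) : Sep (MvPolynomial (Fin s) ℤ) := by
  intro S
  set T : Finset (MvPolynomial (Fin s) ℤ × MvPolynomial (Fin s) ℤ) :=
    (S ×ˢ S).filter fun v => v.1 ≠ v.2 with hT
  set q : MvPolynomial (Fin s) ℤ := ∏ v ∈ T, (v.1 - v.2) with hq
  have hq0 : q ≠ 0 := prod_ne_zero_iff.2 fun v hv => sub_ne_zero.2 (mem_filter.1 hv).2
  obtain ⟨x, hx⟩ : ∃ x : Fin s → ℤ, MvPolynomial.eval x q ≠ 0 := by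
    by_contra h
    push Not at h
    exact hq0 (MvPolynomial.funext fun x => by rw [h x, map_zero])
  refine ⟨(MvPolynomial.eval x).toAddMonoidHom, fun a ha b hb hab => ?_⟩
  by_contra hne
  rw [hq, map_prod, prod_ne_zero_iff] at hx
  refine hx (a, b) (mem_filter.2 ⟨mem_product.2 ⟨ha, hb⟩, hne⟩) ?_
  rw [map_sub, sub_eq_zero]
  exact hab

/-- The digit gain over any separated coefficient group. -/
theorem digits_gain_cond' (L δ : ℝ) (hL : 0 < L) (hδ : 0 < δ) :
    ∃ κ : ℝ, 0 < κ ∧ κ ≤ 1 ∧ ∀ {A : Type} [AddCommGroup A] (_hA : Sep A) {Ω Ω' γ : Type}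
      [Fintype Ω] [Fintype Ω'] (P : Ω → ℝ) (Q : Ω' → ℝ) (c : Ω → γ) (a : Ω → ℕ → A)
      (y : γ → Ω' → ℕ → A) (N : ℕ),
      0 ≤ P → ∑ v, P v = 1 → 0 ≤ Q → ∑ w, Q w = 1 →
      (∀ g, ∀ i < N, cent Q (fun w => y g w i) (fun w => pre (y g w) i) ≤ L) →
        cent (prodW P Q) (fun v => pre (a v.1) N)
            (fun v => (pre (fun i => a v.1 i + y (c v.1) v.2 i) N, c v.1)) ≤
          (1 - κ) * cent P (fun v => pre (a v) N) c + κ * δ * N := by
  obtain ⟨κ, hκ, hκ1, hd⟩ := Trans.digits_gain_cond L δ hL hδ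
  refine ⟨κ, hκ, hκ1, fun {A} _ hA {Ω Ω' γ} _ _ P Q c a y N hP hP1 hQ hQ1 hy => ?_⟩
  obtain ⟨h, hh⟩ := hA (((univ : Finset (Ω × Fin N)).image fun v => a v.1 v.2) ∪
    (((univ : Finset (Ω × Ω' × Fin N)).image fun v => y (c v.1) v.2.1 v.2.2) ∪
      ((univ : Finset (Ω × Ω' × Fin N)).image fun v => a v.1 v.2.2 + y (c v.1) v.2.1 v.2.2)))
  have ha : ∀ v v' i, i < N → h (a v i) = h (a v' i) → a v i = a v' i := fun v v' i hi e =>
    hh (by simp only [coe_union, coe_image, coe_univ, Set.image_univ, Set.mem_union]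
           exact Or.inl ⟨(v, ⟨i, hi⟩), rfl⟩)
      (by simp only [coe_union, coe_image, coe_univ, Set.image_univ, Set.mem_union]
          exact Or.inl ⟨(v', ⟨i, hi⟩), rfl⟩) e
  have hy' : ∀ v w w' i, i < N → h (y (c v) w i) = h (y (c v) w' i) →
      y (c v) w i = y (c v) w' i := fun v w w' i hi e =>
    hh (by simp only [coe_union, coe_image, coe_univ, Set.image_univ, Set.mem_union]
           exact Or.inr (Or.inl ⟨(v, w, ⟨i, hi⟩), rfl⟩))
      (by simp only [coe_union, coe_image, coe_univ, Set.image_univ, Set.mem_union]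
          exact Or.inr (Or.inl ⟨(v, w', ⟨i, hi⟩), rfl⟩)) e
  have hz : ∀ v w v' w' i, i < N → h (a v i + y (c v) w i) = h (a v' i + y (c v') w' i) →
      a v i + y (c v) w i = a v' i + y (c v') w' i := fun v w v' w' i hi e =>
    hh (by simp only [coe_union, coe_image, coe_univ, Set.image_univ, Set.mem_union]
           exact Or.inr (Or.inr ⟨(v, w, ⟨i, hi⟩), rfl⟩))
      (by simp only [coe_union, coe_image, coe_univ, Set.image_univ, Set.mem_union]
          exact Or.inr (Or.inr ⟨(v', w', ⟨i, hi⟩), rfl⟩)) e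
  set S := univ.image c with hS
  let y' : γ → Ω' → ℕ → ℤ := fun g w i => if g ∈ S then h (y g w i) else 0
  have hPQ : 0 ≤ prodW P Q := prodW_nonneg hP hQ
  have hyS : ∀ v w i, y' (c v) w i = h (y (c v) w i) := fun v w i =>
    if_pos (mem_image_of_mem c (mem_univ v))
  have hmain := hd P Q c (fun v i => h (a v i)) y' N hP hP1 hQ hQ1 fun g i hi => by
    by_cases hg : g ∈ S
    · obtain ⟨v, -, rfl⟩ := mem_image.1 hg
      simp only [hyS]
      refine le_trans (le_of_eq ?_) (hy (c v) i hi)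
      rw [cent_congr_left hQ (X' := fun w => y (c v) w i)
        fun w w' _ => ⟨hy' v w w' i hi, fun e => by rw [e]⟩]
      refine cent_congr_right Q fun w w' => ?_
      simp only [pre_eq, hyS]
      exact ⟨fun e k hk => hy' v w w' k (hk.trans hi) (e k hk), fun e k hk => by rw [e k hk]⟩
    · exact (cent_const_le hQ _ _ 0 fun w => if_neg hg).trans hL.le
  have hsum : ∀ v : Ω × Ω', ∀ i, h (a v.1 i) + y' (c v.1) v.2 i =
      h (a v.1 i + y (c v.1) v.2 i) := fun v i => by rw [map_add, hyS]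
  have e1 : ∀ {v v' : Ω}, pre (fun i => h (a v i)) N = pre (fun i => h (a v' i)) N ↔
      pre (a v) N = pre (a v') N := fun {v v'} => by
    simp only [pre_eq]
    exact ⟨fun e k hk => ha v v' k hk (e k hk), fun e k hk => by rw [e k hk]⟩
  rw [cent_congr_left hPQ (X' := fun v : Ω × Ω' => pre (a v.1) N) fun v v' _ => e1,
    cent_congr_left hP (X' := fun v => pre (a v) N) fun v v' _ => e1,
    cent_congr_right (Y' := fun v : Ω × Ω' =>
      (pre (fun i => a v.1 i + y (c v.1) v.2 i) N, c v.1)) _ fun v v' => ?_] at hmain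
  · exact hmain
  · simp only [Prod.mk.injEq, pre_eq, hsum]
    exact ⟨fun e => ⟨fun k hk => hz _ _ _ _ k hk (e.1 k hk), e.2⟩,
      fun e => ⟨fun k hk => by rw [e.1 k hk], e.2⟩⟩

variable {ι : Type} {A : Type} [CommRing A]

/-- The formal slopes `u X ^ e`. -/
def mon (u : ι → A) (e : ι → ℕ) (i : ι) : PowerSeries A :=
  PowerSeries.C (u i) * PowerSeries.X ^ e i

/-- The degree of the slope of a word. -/
def deg (e : ι → ℕ) {n : ℕ} (w : Fin n → ι) : ℕ := ∑ i, e (w i)

theorem le_deg {e : ι → ℕ} (he : ∀ i, 0 < e i) {n : ℕ} (w : Fin n → ι) : n ≤ deg e w := by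
  calc n = ∑ _i : Fin n, 1 := by simp
    _ ≤ deg e w := sum_le_sum fun i _ => he (w i)

theorem slope_mon (u : ι → A) (e : ι → ℕ) {n : ℕ} (w : Fin n → ι) :
    slope (mon u e) w = PowerSeries.C (slope u w) * PowerSeries.X ^ deg e w := by
  simp [slope, mon, deg, prod_mul_distrib, map_prod, prod_pow_eq_pow_sum]

theorem coeff_shift (u : A) (E i : ℕ) (P : PowerSeries A) :
    PowerSeries.coeff i (PowerSeries.C u * PowerSeries.X ^ E * P) =
      if E ≤ i then u * PowerSeries.coeff (i - E) P else 0 := by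
  rw [mul_assoc, PowerSeries.coeff_C_mul, PowerSeries.coeff_X_pow_mul']
  split_ifs <;> simp

theorem deg_eq_of_slope [IsDomain A] {u : ι → A} {e : ι → ℕ} (hu : ∀ i, u i ≠ 0) {n m : ℕ}
    {v : Fin n → ι} {w : Fin m → ι} (h : slope (mon u e) v = slope (mon u e) w) :
    deg e v = deg e w := by
  rw [slope_mon, slope_mon] at h
  have h' := congrArg (PowerSeries.coeff (deg e v)) h
  rw [PowerSeries.coeff_C_mul, PowerSeries.coeff_C_mul, PowerSeries.coeff_X_pow_self,
    PowerSeries.coeff_X_pow, mul_one] at h'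
  by_contra hne
  rw [if_neg hne, mul_zero] at h'
  exact prod_ne_zero_iff.2 (fun i _ => hu (v i)) h'

/-- The digits of a formal translation. -/
def dig (u : ι → A) (e : ι → ℕ) (ψ : ι → PowerSeries A) {n : ℕ} (w : Fin n → ι) (i : ℕ) : A :=
  PowerSeries.coeff i (trans (mon u e) ψ w)

theorem dig_join (u : ι → A) (e : ι → ℕ) (ψ : ι → PowerSeries A) {N k : ℕ} (v : Fin k → ι)
    (w : Fin N → ι) (i : ℕ) :
    dig u e ψ (joinEquiv ι N k (v, w)) i = dig u e ψ v i +
      PowerSeries.coeff i (slope (mon u e) v * trans (mon u e) ψ w) := by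
  rw [dig, trans_join, smul_eq_mul, map_add]
  rfl

theorem dig_join_lt (u : ι → A) (e : ι → ℕ) (ψ : ι → PowerSeries A) {N k : ℕ} (v : Fin k → ι)
    (w : Fin N → ι) {i : ℕ} (hi : i < deg e v) :
    dig u e ψ (joinEquiv ι N k (v, w)) i = dig u e ψ v i := by
  rw [dig_join, slope_mon, coeff_shift, if_neg (by omega), add_zero]

/-- A shifted and translated family has no larger digit entropy. -/
theorem shift_digit [IsDomain A] {Ω : Type} [Fintype Ω] {Q : Ω → ℝ} (hQ : 0 ≤ Q)
    (T : Ω → PowerSeries A) (c0 : PowerSeries A) (u : A) (E i : ℕ) {B : ℝ} (hB : 0 ≤ B)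
    (h : ∀ j, j + E = i → cent Q (fun w => PowerSeries.coeff j (T w))
      (fun w => pre (fun l => PowerSeries.coeff l (T w)) j) ≤ B) :
    cent Q (fun w => PowerSeries.coeff i (c0 + PowerSeries.C u * PowerSeries.X ^ E * T w))
      (fun w => pre (fun l => PowerSeries.coeff l
        (c0 + PowerSeries.C u * PowerSeries.X ^ E * T w)) i) ≤ B := by
  rcases lt_or_ge i E with hi | hi
  · refine (cent_const_le hQ _ _ (PowerSeries.coeff i c0) fun w => ?_).trans hB
    rw [map_add, coeff_shift, if_neg (by omega), add_zero]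
  · rcases eq_or_ne u 0 with rfl | hu
    · exact (cent_const_le hQ _ _ (PowerSeries.coeff i c0) fun w => by simp).trans hB
    refine le_trans (cent_mono_left hQ (X := fun w => PowerSeries.coeff (i - E) (T w))
      fun v w hX _ => ?_)
      (le_trans (cent_anti_right hQ fun v w hp => ?_) (h (i - E) (by omega)))
    · rw [map_add, map_add, coeff_shift, coeff_shift, if_pos hi, if_pos hi, hX]
    · simp only [pre_eq] at hp ⊢
      intro k hk
      have := hp (k + E) (by omega)
      rw [map_add, map_add, coeff_shift, coeff_shift, if_pos (by omega), if_pos (by omega),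
        Nat.add_sub_cancel] at this
      exact mul_left_cancel₀ hu (add_left_cancel this)

variable [Fintype ι]

/-- The entropy of digit `j` of the formal translation given the lower ones. -/
def coefEnt (p : ι → ℝ) (u : ι → A) (e : ι → ℕ) (ψ : ι → PowerSeries A) (n j : ℕ) : ℝ :=
  cent (wt (n := n) p) (fun w => dig u e ψ w j) (fun w => pre (dig u e ψ w) j)

theorem coefEnt_stable {p : ι → ℝ} (hp1 : ∑ i, p i = 1) (u : ι → A) (e : ι → ℕ)
    (he : ∀ i, 0 < e i) (ψ : ι → PowerSeries A) (N : ℕ) {k j : ℕ} (hj : j < k) :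
    coefEnt p u e ψ (N + k) j = coefEnt p u e ψ k j := by
  rw [coefEnt, ← cent_join p N k]
  have hd : ∀ (v : (Fin k → ι) × (Fin N → ι)) (i : ℕ), i ≤ j →
      dig u e ψ (joinEquiv ι N k v) i = dig u e ψ v.1 i := fun v i hi =>
    dig_join_lt u e ψ v.1 v.2 (lt_of_lt_of_le (by omega) (le_deg he v.1))
  have h1 : (fun v : (Fin k → ι) × (Fin N → ι) => dig u e ψ (joinEquiv ι N k v) j) =
      fun v => dig u e ψ v.1 j := funext fun v => hd v j le_rfl
  have h2 : (fun v : (Fin k → ι) × (Fin N → ι) => pre (dig u e ψ (joinEquiv ι N k v)) j) =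
      fun v => pre (dig u e ψ v.1) j :=
    funext fun v => pre_eq.2 fun i hi => hd v i hi.le
  rw [h1, h2]
  exact cent_prod_fst (sum_wt hp1 N) _ (fun v => dig u e ψ v j) (fun v => pre (dig u e ψ v) j)

/-- Renewal: every digit carries at most the entropy of one letter. -/
theorem coefEnt_le [IsDomain A] {p : ι → ℝ} (hp : 0 ≤ p) (hp1 : ∑ i, p i = 1) (u : ι → A)
    (e : ι → ℕ) (he : ∀ i, 0 < e i) (ψ : ι → PowerSeries A) {n j : ℕ} (hj : j < n) :
    coefEnt p u e ψ n j ≤ Real.log (Fintype.card ι) := by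
  obtain ⟨m, rfl⟩ : ∃ m, n = m + 1 := ⟨n - 1, by omega⟩
  have hp' : ∀ i, 0 ≤ p i := hp
  set W := wt (n := m + 1) p
  have hW : 0 ≤ W := wt_nonneg hp'
  have hW1 : ∑ w, W w = 1 := sum_wt hp1 _
  set T : (Fin (m + 1) → ι) → ℕ → A := fun w => dig u e ψ w
  set F : ℕ → ℝ := fun i => cent W (fun w => w 0) (fun w => pre (T w) i)
  have hF : ∀ i, F (i + 1) ≤ F i := fun i =>
    cent_anti_right hW fun v w h => pre_eq.2 fun k hk => pre_eq.1 h k (Nat.lt_succ_of_lt hk)
  have hF0 : F 0 ≤ Real.log (Fintype.card ι) := by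
    refine (cent_le_log hW _ _ (fun _ => ((Fintype.card ι : ℕ) : ℝ)) (fun _ => univ)
      (fun w => mem_univ _) (fun w => by simp)).trans (le_of_eq ?_)
    rw [← sum_mul, hW1, one_mul]
  suffices h : ∀ i, i < m + 1 → coefEnt p u e ψ (m + 1) i ≤ F 0 - F (i + 1) by
    have := h j hj
    have : 0 ≤ F (j + 1) := cent_nonneg hW _ _
    linarith
  intro i
  induction i using Nat.strong_induction_on with
  | _ i ih =>
  intro hi
  set c : (Fin (m + 1) → ι) → A := fun w => T w i
  set pr : (Fin (m + 1) → ι) → Fin i → A := fun w => pre (T w) i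
  have hc1 := cent_chain W c (fun w => w 0) pr
  have hc2 := cent_chain W (fun w => w 0) c pr
  have hc3 : cent W (fun v => (c v, v 0)) pr = cent W (fun v => (v 0, c v)) pr :=
    cent_congr_left hW fun v w _ => by simp [and_comm]
  have hc4 : cent W (fun w => w 0) (fun v => (c v, pr v)) = F (i + 1) :=
    cent_congr_right W fun v w => by
      simp only [c, pr, Prod.mk.injEq, pre_eq]
      exact ⟨fun h k hk => by
          rcases Nat.lt_succ_iff_lt_or_eq.1 hk with h' | rfl
          exacts [h.2 k h', h.1],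
        fun h => ⟨h i (Nat.lt_succ_self i), fun k hk => h k (Nat.lt_succ_of_lt hk)⟩⟩
  have hmono : ∀ a b, a ≤ b → F b ≤ F a := fun a b hab => antitone_nat_of_succ_le hF hab
  have hc5 : cent W c (fun v => (v 0, pr v)) ≤ F 0 - F i := by
    rw [← cent_cons p m c (fun v => (v 0, pr v))]
    simp only [Fin.cons_zero]
    rw [cent_congr_right (Y' := fun v : ι × (Fin m → ι) => (pr (Fin.cons v.1 v.2), v.1)) _
      fun v w => by simp [and_comm], cent_slice (fun a => hp' a) (wt_nonneg hp')]
    calc ∑ a, p a * cent (wt (n := m) p) (fun w => c (Fin.cons a w))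
          (fun w => pr (Fin.cons a w))
        ≤ ∑ a, p a * (F 0 - F i) := sum_le_sum fun a _ => mul_le_mul_of_nonneg_left ?_ (hp' a)
      _ = F 0 - F i := by rw [← sum_mul, hp1, one_mul]
    have eT : ∀ w : Fin m → ι, T (Fin.cons a w) = fun l => PowerSeries.coeff l
        (ψ a + PowerSeries.C (u a) * PowerSeries.X ^ e a * trans (mon u e) ψ w) := fun w => by
      funext l
      simp only [T, dig]
      rw [trans, Fin.cons_zero, Fin.tail_cons, smul_eq_mul]
      rfl
    simp only [c, pr, eT]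
    refine shift_digit (wt_nonneg hp') _ (ψ a) (u a) (e a) i
      (sub_nonneg.2 (hmono 0 i (Nat.zero_le i))) fun k hk => ?_
    have hea := he a
    have e1 := ih k (by omega) (by omega)
    rw [show m + 1 = (m - k) + (k + 1) by omega,
      coefEnt_stable hp1 u e he ψ (m - k) (Nat.lt_succ_self k)] at e1
    have e2 := coefEnt_stable hp1 u e he ψ (m - (k + 1)) (Nat.lt_succ_self k)
    rw [show m - (k + 1) + (k + 1) = m by omega] at e2
    rw [← e2] at e1
    refine e1.trans ?_
    have := hmono (k + 1) i (by omega)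
    linarith
  change cent W c pr ≤ _
  have hFi : cent W (fun w => w 0) pr = F i := rfl
  linarith

/-- Digits of a shifted formal translation. -/
theorem tail_digit [IsDomain A] {p : ι → ℝ} (hp : 0 ≤ p) (hp1 : ∑ i, p i = 1) (u : ι → A)
    (e : ι → ℕ) (he : ∀ i, 0 < e i) (ψ : ι → PowerSeries A) (U : A) (E : ℕ) {n i : ℕ}
    (hi : i < n) {L : ℝ} (hL0 : 0 ≤ L) (hL : Real.log (Fintype.card ι) ≤ L) :
    cent (wt (n := n) p)
      (fun w => PowerSeries.coeff i (PowerSeries.C U * PowerSeries.X ^ E * trans (mon u e) ψ w))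
      (fun w => pre (fun j => PowerSeries.coeff j
        (PowerSeries.C U * PowerSeries.X ^ E * trans (mon u e) ψ w)) i) ≤ L := by
  have := shift_digit (wt_nonneg (fun a => hp a)) (fun w : Fin n → ι => trans (mon u e) ψ w) 0 U
    E i hL0 fun k hk => (coefEnt_le hp hp1 u e he ψ (n := n) (j := k) (by omega)).trans hL
  simpa using this

end

end Vale.Agent.P114.Mv
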