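import Vale.Agent.P114.Mv.FormalSpan

/-! # P114, several variables: the formal dimension theorem -/

namespace Vale.Agent.P114.Mv

noncomputable section

open scoped Classical
open Finset Filter
open Vale.Agent.P114.Trans (pre pre_eq)

variable {ι : Type} [Fintype ι] {A : Type} [CommRing A] {k : ℕ}

omit [Fintype ι] in
theorem dig_lin (u : ι → A) (e : ι → ℕ) (cS : ι → Fin k → PowerSeries A)
    (φ : (Fin k → PowerSeries A) →ₗ[PowerSeries A] PowerSeries A) {n : ℕ} (w : Fin n → ι) (i : ℕ) :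
    dig u e (fun j => φ (cS j)) w i = PowerSeries.coeff i (φ (trans (mon u e) cS w)) := by
  rw [dig, trans_lin]

omit [Fintype ι] in
theorem dvd_of_dig (u : ι → A) (e : ι → ℕ) (cS : ι → Fin k → PowerSeries A)
    (φ : (Fin k → PowerSeries A) →ₗ[PowerSeries A] PowerSeries A) {n : ℕ} {v w : Fin n → ι} {N : ℕ}
    (h : ∀ i < N, dig u e (fun j => φ (cS j)) v i = dig u e (fun j => φ (cS j)) w i) :
    PowerSeries.X ^ N ∣ φ (trans (mon u e) cS v - trans (mon u e) cS w) :=
  PowerSeries.X_pow_dvd_iff.2 fun i hi => by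
    have := h i hi
    rw [dig_lin, dig_lin] at this
    rw [map_sub, map_sub, this, sub_self]

omit [Fintype ι] in
theorem dig_of_dvd (u : ι → A) (e : ι → ℕ) (cS : ι → Fin k → PowerSeries A)
    (φ : (Fin k → PowerSeries A) →ₗ[PowerSeries A] PowerSeries A) {n : ℕ} {v w : Fin n → ι} {N : ℕ}
    (h : PowerSeries.X ^ N ∣ φ (trans (mon u e) cS v - trans (mon u e) cS w)) :
    ∀ i < N, dig u e (fun j => φ (cS j)) v i = dig u e (fun j => φ (cS j)) w i := fun i hi => by
  have := PowerSeries.X_pow_dvd_iff.1 h i hi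
  rw [map_sub, map_sub, sub_eq_zero] at this
  rw [dig_lin, dig_lin, this]

variable [IsDomain A] {u : ι → A} {e : ι → ℕ} {cS : ι → Fin k → PowerSeries A} {p : ι → ℝ}

/-- The class modulo `L` of a formal translation. -/
def qcls (u : ι → A) (e : ι → ℕ) (cS : ι → Fin k → PowerSeries A)
    (L : Submodule (FR A) (Fin k → FR A)) (n : ℕ) (w : Fin n → ι) : (Fin k → FR A) ⧸ L :=
  Submodule.Quotient.mk (toK ∘ trans (mon u e) cS w)

omit [Fintype ι] in
theorem qcls_eq_iff {L : Submodule (FR A) (Fin k → FR A)} {n : ℕ} {v w : Fin n → ι} :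
    qcls u e cS L n v = qcls u e cS L n w ↔
      toK ∘ (trans (mon u e) cS v - trans (mon u e) cS w) ∈ L := by
  rw [qcls, qcls, Submodule.Quotient.eq, toK_sub]

theorem hent_qcls (hp : ∀ i, 0 ≤ p i) (L : Submodule (FR A) (Fin k → FR A)) (n : ℕ) :
    hent p (rK u e) (cK cS) L n = ent (wt (n := n) p) (fun w => slope (mon u e) w) +
      cent (wt (n := n) p) (qcls u e cS L n) (fun w => slope (mon u e) w) := by
  rw [hent_eq hp]
  congr 1
  · exact cent_congr_left (wt_nonneg hp) fun v w _ => slope_rK_iff v w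
  · rw [cent_congr_right (Y' := fun w => slope (mon u e) w) _ fun v w => slope_rK_iff v w]
    exact cent_congr_left (wt_nonneg hp) fun v w _ => by simp only [qcls, trans_cK]

/-- Modulo a span killed by suitable functionals the entropy rate carries both digit entropies. -/
theorem step_rate (Ls δ : ℝ) (hLs : 0 < Ls) (hLι : Real.log (Fintype.card ι) ≤ Ls) (hδ : 0 < δ) :
    ∃ κ : ℝ, 0 < κ ∧ κ ≤ 1 ∧ ∀ {A : Type} [CommRing A] [IsDomain A], Sep A →
      ∀ (p : ι → ℝ), (∀ i, 0 ≤ p i) → ∑ i, p i = 1 → ∀ (u : ι → A), (∀ i, u i ≠ 0) →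
      ∀ (e : ι → ℕ), (∀ i, 0 < e i) → ∀ {k : ℕ} (cS : ι → Fin k → PowerSeries A)
        (L L1 : Submodule (FR A) (Fin k → FR A))
        (φ0 φ1 φF : (Fin k → PowerSeries A) →ₗ[PowerSeries A] PowerSeries A) (m o W : ℕ),
        Submodule.span (FR A) (Diff (rK u e) (cK cS) m ∩ ↑L) ≤ L1 →
        (∀ x, toK ∘ x ∈ L → φ1 x = 0 ∧ φF x = 0) →
        (∀ x, PowerSeries.X ^ o ∣ φ1 x) →
        (∀ x, ∀ E, E ≤ univ.sup e * m → PowerSeries.X ^ (E + o) ∣ φ1 x →
          PowerSeries.X ^ E ∣ φ0 x) →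
        (∀ v w : Fin m → ι, slope (mon u e) v = slope (mon u e) w →
          PowerSeries.X ^ W ∣ φF (trans (mon u e) cS v - trans (mon u e) cS w) →
            toK ∘ (trans (mon u e) cS v - trans (mon u e) cS w) ∈ L) →
        (1 - κ) * Hf p u e (fun i => φ0 (cS i)) m +
            κ * (hent p (rK u e) (cK cS) L1 m - ent (wt (n := m) p) (fun w => slope (mon u e) w)) -
            κ * δ * W ≤ m * hrate p (rK u e) (cK cS) L := by
  obtain ⟨κ, hκ, hκ1, hblk⟩ := block_iter (ι := ι) Ls δ hLs hLι hδ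
  refine ⟨κ, hκ, hκ1, fun {A} _ _ hA p hp hp1 u hu e he {k} cS L L1 φ0 φ1 φF m o W
    hL1 hkill ho hE hsep => ?_⟩
  let cl : (Fin m → ι) → PowerSeries A × (ℕ → A) := fun w =>
    (slope (mon u e) w, cut (deg e w + o) (dig u e (fun i => φ1 (cS i)) w))
  have hb := hblk hA p hp hp1 u e he (fun i => φF (cS i)) m W W le_rfl cl
    (qcls u e cS L) (fun v w h => (Prod.mk.inj h).1) ?_ ?_
  rotate_left
  · intro M hM a a' v v' ha hv hX
    rw [qcls_eq_iff] at hX
    obtain ⟨h1, hF⟩ := hkill _ hX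
    refine ⟨Prod.ext ha ?_, pre_eq.2 (dig_of_dvd u e cS φF (by rw [hF]; exact dvd_zero _))⟩
    have hd := deg_eq_of_slope hu ha
    simp only [cl]
    rw [← hd, cut_eq]
    refine dig_of_dvd u e cS φ1 ?_
    have h2 : ∀ (b : Fin m → ι) (c : Fin M → ι), slope (mon u e) b = slope (mon u e) a →
        PowerSeries.X ^ (deg e a + o) ∣ φ1 (trans (mon u e) cS (joinEquiv ι M m (b, c))) -
          φ1 (trans (mon u e) cS b) := fun b c hb => by
      rw [trans_join, map_add, map_smul, add_sub_cancel_left, hb, slope_mon, smul_eq_mul, pow_add]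
      exact mul_dvd_mul (dvd_mul_left _ _) (ho _)
    have h3 := dvd_sub (h2 a v rfl) (h2 a' v' ha.symm)
    rw [map_sub] at h1 ⊢
    rw [sub_eq_zero.1 h1, sub_sub_sub_cancel_left] at h3
    exact dvd_sub_comm.1 h3
  · intro M hM a v v' hv hX
    rw [qcls_eq_iff] at hX ⊢
    rw [trans_join, trans_join, add_sub_add_left_eq_sub, ← smul_sub] at hX
    set d := trans (mon u e) cS v - trans (mon u e) cS v'
    have hs : toK (slope (mon u e) a) ≠ (0 : FR A) :=
      (map_ne_zero_iff _ toK_inj).2 (slope_mon_ne hu a)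
    have he' : toK ∘ (slope (mon u e) a • d) = toK (slope (mon u e) a) • (toK ∘ d) :=
      funext fun b => by simp
    rw [he'] at hX
    exact (L.smul_mem_iff hs).1 hX
  have hcl : Hf p u e (fun i => φ0 (cS i)) m ≤
      cent (wt (n := m) p) cl (fun w => slope (mon u e) w) := by
    refine cent_mono_left (wt_nonneg hp) fun v w h hs => ?_
    obtain ⟨-, h2⟩ := Prod.mk.inj h
    have hd := deg_eq_of_slope hu hs
    rw [← hd, cut_eq] at h2 ⊢
    exact dig_of_dvd u e cS φ0 (hE _ _ (deg_le e (fun i => le_sup (f := e) (mem_univ i)) v)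
      (dvd_of_dig u e cS φ1 h2))
  have hF : hent p (rK u e) (cK cS) L1 m - ent (wt (n := m) p) (fun w => slope (mon u e) w) ≤
      cent (wt (n := m) p) (fun w => pre (dig u e (fun i => φF (cS i)) w) W)
        (fun w => slope (mon u e) w) := by
    rw [hent_qcls hp, add_sub_cancel_left]
    refine cent_mono_left (wt_nonneg hp) fun v w h hs => qcls_eq_iff.2 ?_
    exact hL1 (Submodule.subset_span ⟨mem_diff.2 ⟨v, w, hs, rfl⟩,
      hsep v w hs (dvd_of_dig u e cS φF (pre_eq.1 h))⟩)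
  set per := (1 - κ) * cent (wt (n := m) p) cl (fun w => slope (mon u e) w) +
    κ * cent (wt (n := m) p) (fun w => pre (dig u e (fun i => φF (cS i)) w) W)
      (fun w => slope (mon u e) w) - κ * δ * W with hper
  have hbd : per ≤ (m : ℝ) * hrate p (rK u e) (cK cS) L := by
    have hup : ∀ n, cent (wt (n := n) p) (qcls u e cS L n) (fun w => slope (mon u e) w) ≤
        hent p (rK u e) (cK cS) L n := fun n => by
      rw [hent_qcls hp]
      exact le_add_of_nonneg_left (ent_nonneg (wt_nonneg hp) _)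
    rcases Nat.eq_zero_or_pos m with rfl | hm
    · refine le_of_mul_nat (C := hent p (rK u e) (cK cS) L W) fun j => ?_
      have h1 := hb (j + 1)
      rw [Nat.zero_mul, Nat.add_zero] at h1
      have h2 := h1.trans (hup W)
      push_cast at h2 ⊢
      linarith
    rw [← div_le_iff₀' (by exact_mod_cast hm)]
    refine le_ciInf fun M => ?_
    rw [div_le_div_iff₀ (by exact_mod_cast hm) (by positivity)]
    refine le_of_mul_nat (C := hent p (rK u e) (cK cS) L W) fun j => ?_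
    obtain ⟨b, hb'⟩ : ∃ b, m * (j + 1) = b + 1 :=
      ⟨m * (j + 1) - 1, (Nat.sub_add_cancel (Nat.mul_pos hm (Nat.succ_pos _))).symm⟩
    have h1 := (hb ((M + 1) * (j + 1))).trans (hup _)
    have h2 := hent_add (r := rK u e) (c := cK cS) hp hp1 L W (m * ((M + 1) * (j + 1)))
    have h3 := hent_mul (r := rK u e) (c := cK cS) hp hp1 L (M + 1) b
    rw [show (M + 1) * (b + 1) = m * ((M + 1) * (j + 1)) by rw [← hb']; ring] at h3
    have h4 : (b : ℝ) + 1 = (m : ℝ) * ((j : ℝ) + 1) := by exact_mod_cast hb'.symm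
    rw [h4] at h3
    simp only [hper]
    push_cast at h1 h3 ⊢
    linarith
  have g1 := mul_le_mul_of_nonneg_left hcl (sub_nonneg.2 hκ1)
  have g2 := mul_le_mul_of_nonneg_left hF hκ.le
  simp only [hper] at hbd
  linarith

/-- The statement proved by induction on the dimension. -/
def DimClaim (p : ι → ℝ) (u : ι → A) (e : ι → ℕ) (cS : ι → Fin k → PowerSeries A)
    (φ0 : (Fin k → PowerSeries A) →ₗ[PowerSeries A] PowerSeries A) (Q : ℕ) (j : ℕ) : Prop :=
  ∃ ε > 0, ∃ N : ℕ, ∀ n ≥ N, ∀ L : Submodule (FR A) (Fin k → FR A),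
    Module.finrank (FR A) L ≤ j → L ≤ sm u e cS φ0 Q n →
      L = Submodule.span (FR A) (Diff (rK u e) (cK cS) n ∩ ↑L) →
        Hsup p u e (fun i => φ0 (cS i)) + ε ≤ hrate p (rK u e) (cK cS) L

theorem dimClaim_step [Nonempty ι] (hA : Sep A) (hp : ∀ i, 0 ≤ p i) (hp1 : ∑ i, p i = 1)
    (hu : ∀ i, u i ≠ 0) (he : ∀ i, 0 < e i) {d0 : ℕ} (hc : ∀ i b, Pd (cS i b) d0)
    (φ0 : (Fin k → PowerSeries A) →ₗ[PowerSeries A] PowerSeries A)
    (hΦ : ∀ (m : ℕ) (v w : Fin m → ι), slope (mon u e) v = slope (mon u e) w →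
      φ0 (trans (mon u e) cS v - trans (mon u e) cS w) = 0 →
        trans (mon u e) cS v = trans (mon u e) cS w)
    (hD : Hsup p u e (fun i => φ0 (cS i)) < hrate p (rK u e) (cK cS) ⊥) {j : ℕ}
    (ih : DimClaim p u e cS φ0 (2 * (k * (univ.sup e + d0)) + univ.sup e + 1) j) :
    DimClaim p u e cS φ0 (2 * (k * (univ.sup e + d0)) + univ.sup e + 1) (j + 1) := by
  obtain ⟨εj, hεj, Nj, hclaim⟩ := ih
  set Am := univ.sup e
  set cD := k * (Am + d0)
  set Q := 2 * cD + Am + 1
  set D := Hsup p u e (fun i => φ0 (cS i))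
  obtain ⟨Ls, hLs, hLι⟩ : ∃ L : ℝ, 0 < L ∧ Real.log (Fintype.card ι) ≤ L :=
    ⟨max 1 (Real.log (Fintype.card ι)), lt_max_of_lt_left one_pos, le_max_right _ _⟩
  set q2 := qwin k Am d0
  have hq2 : (0 : ℝ) < q2 := Nat.cast_pos.2 (Nat.succ_pos _)
  obtain ⟨κ, hκ0, hκ1, hstep⟩ := step_rate (ι := ι) Ls (εj / (8 * q2)) hLs hLι (by positivity)
  obtain ⟨M0, hM0⟩ := eventually_atTop.1 ((Hf_near (e := e) (ψ := fun i => φ0 (cS i)) hp hp1 hu
    (show 0 < κ * εj / 8 by positivity)).and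
    (slope_small hp hp1 (mon u e) (show 0 < εj / 8 by positivity)))
  obtain ⟨N1, hN1⟩ := eventually_atTop.1
    (sm_avoid hc φ0 hΦ (Q := Q) (show cD < Q by omega) (M0 + 3))
  refine ⟨min (hrate p (rK u e) (cK cS) ⊥ - D) (κ * εj / 4), lt_min (by linarith) (by positivity),
    max Nj N1, fun n hn L hdimL hLs' hLspan => ?_⟩
  have hnNj : Nj ≤ n := (le_max_left _ _).trans hn
  have hnN1 : N1 ≤ n := (le_max_right _ _).trans hn
  by_cases hLbot : L = ⊥
  · rw [hLbot]
    linarith [min_le_left (hrate p (rK u e) (cK cS) ⊥ - D) (κ * εj / 4)]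
  have hex : ∃ m, Submodule.span (FR A) (Diff (rK u e) (cK cS) m ∩ ↑L) = L := ⟨n, hLspan.symm⟩
  set n0 := Nat.find hex
  have hn0 : Submodule.span (FR A) (Diff (rK u e) (cK cS) n0 ∩ ↑L) = L := Nat.find_spec hex
  have hn0n : n0 ≤ n := Nat.find_min' hex hLspan.symm
  have hn0big : M0 + 3 ≤ n0 := by
    by_contra hlt
    push Not at hlt
    refine hLbot ?_
    rw [← hn0, Submodule.span_eq_bot]
    rintro x ⟨hx, hxL⟩
    obtain ⟨v, w, hs, rfl⟩ := mem_diff.1 hx
    rw [hN1 n hnN1 ⟨n0, hlt⟩ v w hs (hLs' hxL)]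
    funext b; simp
  obtain ⟨m, hm⟩ : ∃ m, n0 = m + 1 := ⟨n0 - 1, by omega⟩
  set L1 := Submodule.span (FR A) (Diff (rK u e) (cK cS) m ∩ ↑L) with hL1
  have hL1L : L1 ≤ L := Submodule.span_le.2 Set.inter_subset_right
  have hL1ne : L1 ≠ L := Nat.find_min hex (show m < n0 by omega)
  have hfin : Module.finrank (FR A) L1 ≤ j := by
    have := Submodule.finrank_lt_finrank_of_lt (lt_of_le_of_ne hL1L hL1ne)
    omega
  have hL1span : L1 = Submodule.span (FR A) (Diff (rK u e) (cK cS) n ∩ ↑L1) := by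
    refine le_antisymm (le_trans (Submodule.span_mono ?_)
      (span_diff_mono (rK u e) (rK_ne hu) (cK cS) L1 (show m ≤ n by omega)))
      (Submodule.span_le.2 Set.inter_subset_right)
    exact fun d hd => ⟨hd.1, Submodule.subset_span hd⟩
  have hh1 := hclaim n hnNj L1 hfin (hL1L.trans hLs') hL1span
  have hmn : m + 1 ≤ n := by omega
  have ha1 : Am * (m + 1) + d0 ≤ (Am + d0) * n := by
    rw [add_mul]
    exact Nat.add_le_add (Nat.mul_le_mul_left _ hmn) (Nat.le_mul_of_pos_right _ (by omega))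
  have ha2 : Am * n + d0 ≤ (Am + d0) * n := by
    rw [add_mul]; exact Nat.add_le_add_left (Nat.le_mul_of_pos_right _ (by omega)) _
  have ha3 : Q * n = 2 * (cD * n) + Am * n + n := by simp only [Q]; ring
  have hb1 : k * (Am * (m + 1) + d0) ≤ cD * n := by
    simp only [cD]; rw [mul_assoc]; exact Nat.mul_le_mul_left _ ha1
  have hb2 : k * (Am * n + d0) ≤ cD * n := by
    simp only [cD]; rw [mul_assoc]; exact Nat.mul_le_mul_left _ ha2
  have hb3 : Am * m ≤ Am * n := Nat.mul_le_mul_left _ (by omega)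
  obtain ⟨o, W, φ1, φF, hW, hkill, ho, hE, hsep⟩ :=
    exists_functionals hc φ0 L (m := m) (l0 := Q * n - k * (Am * n + d0)) (by omega)
      (by rw [← hm, hn0]) (fun x hx => sm_dvd hc φ0 Q n (hLs' hx))
      (show Am * m + k * (Am * (m + 1) + d0) ≤ Q * n - k * (Am * n + d0) by omega)
  have hk := hstep hA p hp hp1 u hu e he cS L L1 φ0 φ1 φF m o W le_rfl hkill ho hE hsep
  obtain ⟨hA1, hS1⟩ := hM0 m (by omega)
  have hm1 : (1 : ℝ) ≤ m := by exact_mod_cast (by omega : 1 ≤ m)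
  have hF1 := mul_hrate_le (r := rK u e) (c := cK cS) hp L1 m
  have g0 := mul_le_mul_of_nonneg_left hh1 (Nat.cast_nonneg (α := ℝ) m)
  have g1 := mul_le_mul_of_nonneg_left hA1 (sub_nonneg.2 hκ1)
  have g2 := mul_le_mul_of_nonneg_left (show (m : ℝ) * (D + εj) - εj / 8 * m ≤
    hent p (rK u e) (cK cS) L1 m - ent (wt (n := m) p) (fun w => slope (mon u e) w) by linarith)
    hκ0.le
  have g3 : κ * (εj / (8 * q2)) * W ≤ κ * (εj / 8) * m := by
    refine (mul_le_mul_of_nonneg_left (show (W : ℝ) ≤ q2 * m by exact_mod_cast hW)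
      (by positivity)).trans (le_of_eq ?_)
    field_simp
  have g4 : 0 ≤ κ * (κ * εj / 8) * m := by positivity
  have g5 : 0 < κ * εj * m := by positivity
  have h : D + κ * εj / 4 ≤ hrate p (rK u e) (cK cS) L := by
    refine le_of_mul_le_mul_left ?_ (lt_of_lt_of_le one_pos hm1)
    linarith
  linarith [min_le_right (hrate p (rK u e) (cK cS) ⊥ - D) (κ * εj / 4)]

theorem dimClaim_all [Nonempty ι] (hA : Sep A) (hp : ∀ i, 0 ≤ p i) (hp1 : ∑ i, p i = 1)
    (hu : ∀ i, u i ≠ 0) (he : ∀ i, 0 < e i) {d0 : ℕ} (hc : ∀ i b, Pd (cS i b) d0)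
    (φ0 : (Fin k → PowerSeries A) →ₗ[PowerSeries A] PowerSeries A)
    (hΦ : ∀ (m : ℕ) (v w : Fin m → ι), slope (mon u e) v = slope (mon u e) w →
      φ0 (trans (mon u e) cS v - trans (mon u e) cS w) = 0 →
        trans (mon u e) cS v = trans (mon u e) cS w)
    (hD : Hsup p u e (fun i => φ0 (cS i)) < hrate p (rK u e) (cK cS) ⊥) :
    ∀ j, DimClaim p u e cS φ0 (2 * (k * (univ.sup e + d0)) + univ.sup e + 1) j
  | 0 => ⟨hrate p (rK u e) (cK cS) ⊥ - Hsup p u e (fun i => φ0 (cS i)), by linarith, 0,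
      fun n _ L hL _ _ => by
        rw [Submodule.finrank_eq_zero.1 (Nat.le_zero.1 hL)]; linarith⟩
  | j + 1 => dimClaim_step hA hp hp1 hu he hc φ0 hΦ hD (dimClaim_all hA hp hp1 hu he hc φ0 hΦ hD j)

/-- The digit rate is at least the entropy rate of the formal random walk. -/
theorem hrate_le_Hsup [Nonempty ι] (hA : Sep A) (hp : ∀ i, 0 ≤ p i) (hp1 : ∑ i, p i = 1)
    (hu : ∀ i, u i ≠ 0) (he : ∀ i, 0 < e i) {d0 : ℕ} (hc : ∀ i b, Pd (cS i b) d0)
    (φ0 : (Fin k → PowerSeries A) →ₗ[PowerSeries A] PowerSeries A)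
    (hΦ : ∀ (m : ℕ) (v w : Fin m → ι), slope (mon u e) v = slope (mon u e) w →
      φ0 (trans (mon u e) cS v - trans (mon u e) cS w) = 0 →
        trans (mon u e) cS v = trans (mon u e) cS w) :
    hrate p (rK u e) (cK cS) ⊥ ≤ Hsup p u e (fun i => φ0 (cS i)) := by
  by_contra hlt
  push Not at hlt
  set Q := 2 * (k * (univ.sup e + d0)) + univ.sup e + 1 with hQ
  set D := Hsup p u e (fun i => φ0 (cS i))
  obtain ⟨ε, hε, N, hN⟩ := dimClaim_all hA hp hp1 hu he hc φ0 hΦ hlt k
  obtain ⟨Ls, hLs, hLι⟩ : ∃ L : ℝ, 0 < L ∧ Real.log (Fintype.card ι) ≤ L :=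
    ⟨max 1 (Real.log (Fintype.card ι)), lt_max_of_lt_left one_pos, le_max_right _ _⟩
  have hQ0 : (0 : ℝ) < Q := Nat.cast_pos.2 (Nat.succ_pos _)
  obtain ⟨κ, hκ0, hκ1, hgain⟩ := Hf_gain (ι := ι) Ls (ε / (8 * Q)) hLs hLι (by positivity)
  obtain ⟨M0, hM0⟩ := eventually_atTop.1 ((Hf_near (e := e) (ψ := fun i => φ0 (cS i)) hp hp1 hu
    (show 0 < κ * ε / 8 by positivity)).and
    (slope_small hp hp1 (mon u e) (show 0 < ε / 8 by positivity)))
  set n := max (max N M0) 1
  have hnN : N ≤ n := (le_max_left _ _).trans (le_max_left _ _)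
  have hnM : M0 ≤ n := (le_max_right _ _).trans (le_max_left _ _)
  have hn1 : (1 : ℝ) ≤ n := by exact_mod_cast (le_max_right _ _ : 1 ≤ n)
  set L := sm u e cS φ0 Q n with hLdef
  have hLspan : L = Submodule.span (FR A) (Diff (rK u e) (cK cS) n ∩ ↑L) := by
    refine le_antisymm (Submodule.span_le.2 ?_) (Submodule.span_le.2 Set.inter_subset_right)
    rintro x ⟨v, w, hs, hd, rfl⟩
    exact Submodule.subset_span ⟨mem_diff.2 ⟨v, w, hs, rfl⟩,
      Submodule.subset_span ⟨v, w, hs, hd, rfl⟩⟩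
  have h1 := hN n hnN L ((Submodule.finrank_le L).trans (le_of_eq (Module.finrank_fin_fun _)))
    le_rfl hLspan
  have h2 := mul_le_mul_of_nonneg_left h1 (Nat.cast_nonneg (α := ℝ) n)
  have h3 := mul_hrate_le (r := rK u e) (c := cK cS) hp L n
  have h4 : cent (wt (n := n) p) (qcls u e cS L n) (fun w => slope (mon u e) w) ≤
      cent (wt (n := n) p) (fun w => pre (dig u e (fun i => φ0 (cS i)) w) (Q * n))
        (fun w => slope (mon u e) w) :=
    cent_mono_left (wt_nonneg hp) fun v w h hs => qcls_eq_iff.2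
      (Submodule.subset_span ⟨v, w, hs, dvd_of_dig u e cS φ0 (pre_eq.1 h), rfl⟩)
  have h5 := hent_qcls (u := u) (e := e) (cS := cS) hp L n
  have h6 := hgain hA p hp hp1 u hu e he (fun i => φ0 (cS i)) n (Q * n)
  obtain ⟨hA1, hS1⟩ := hM0 n hnM
  have g1 := mul_le_mul_of_nonneg_left hA1 (sub_nonneg.2 hκ1)
  have g2 : κ * (ε / (8 * Q)) * ((Q * n : ℕ) : ℝ) = κ * ε / 8 * n := by
    push_cast; field_simp
  have g3 := mul_le_mul_of_nonneg_left (show (n : ℝ) * (D + ε) - ε / 8 * n ≤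
    cent (wt (n := n) p) (fun w => pre (dig u e (fun i => φ0 (cS i)) w) (Q * n))
      (fun w => slope (mon u e) w) by linarith) hκ0.le
  have g4 : 0 < κ * ε * n := by positivity
  have g5 : 0 ≤ κ * (κ * ε / 8) * n := by positivity
  linarith

omit [IsDomain A] in
/-- The formal slope `u X ^ e` as a polynomial. -/
def pslp (u : ι → A) (e : ι → ℕ) (i : ι) : Polynomial A :=
  Polynomial.C (u i) * Polynomial.X ^ e i

/-- The value of a vector of polynomials at a vector of power series. -/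
def pfun (Φ : Fin k → PowerSeries A) (v : Fin k → Polynomial A) : PowerSeries A :=
  ∑ b, Φ b * (v b : PowerSeries A)

/-- The linear functional of a vector of power series. -/
def pflin (Φ : Fin k → PowerSeries A) :
    (Fin k → PowerSeries A) →ₗ[PowerSeries A] PowerSeries A where
  toFun v := ∑ b, Φ b * v b
  map_add' x y := by simp [mul_add, sum_add_distrib]
  map_smul' a x := by simp [mul_sum, mul_left_comm]

/-- The formal dimension theorem: without relations the digits of a power series functional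
keep the whole entropy rate. -/
theorem formal_dim (hA : Sep A) [Nonempty ι] (hp : ∀ i, 0 < p i) (hp1 : ∑ i, p i = 1)
    (hu : ∀ i, u i ≠ 0) (he : ∀ i, 0 < e i) (c : ι → Fin k → Polynomial A)
    (Φ : Fin k → PowerSeries A)
    (hΦ : ∀ m (v w : Fin m → ι), slope (pslp u e) v = slope (pslp u e) w →
      pfun Φ (trans (pslp u e) c v - trans (pslp u e) c w) = 0 →
        trans (pslp u e) c v = trans (pslp u e) c w)
    {η : ℝ} (hη : 0 < η) :
    ∀ᶠ m : ℕ in atTop, (m : ℝ) * ((⨅ n : ℕ, ent (wt (n := n + 1) p)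
        (fun w => (slope (pslp u e) w, trans (pslp u e) c w)) / ((n + 1 : ℕ) : ℝ)) - η) ≤
      Hf p u e (fun i => pfun Φ (c i)) m := by
  have hp' : ∀ i, 0 ≤ p i := fun i => (hp i).le
  set g : Polynomial A →+* PowerSeries A := Polynomial.coeToPowerSeries.ringHom
  have hg : Function.Injective g := Polynomial.coe_injective A
  set cS : ι → Fin k → PowerSeries A := fun i => g ∘ c i
  have hmon : mon u e = fun i => g (pslp u e i) := funext fun i => by
    simp [mon, pslp, g]
  have hs : ∀ {n : ℕ} (v w : Fin n → ι),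
      slope (mon u e) v = slope (mon u e) w ↔ slope (pslp u e) v = slope (pslp u e) w := by
    intro n v w
    rw [hmon, slope_map g, slope_map g]
    exact hg.eq_iff
  have ht : ∀ {n : ℕ} (w : Fin n → ι), trans (mon u e) cS w = g ∘ trans (pslp u e) c w := by
    intro n w
    rw [hmon]
    exact trans_map g _ c w
  have hΦ' : ∀ (m : ℕ) (v w : Fin m → ι), slope (mon u e) v = slope (mon u e) w →
      pflin Φ (trans (mon u e) cS v - trans (mon u e) cS w) = 0 →
        trans (mon u e) cS v = trans (mon u e) cS w := by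
    intro m v w hvw h0
    rw [ht, ht] at h0 ⊢
    rw [hΦ m v w ((hs v w).1 hvw)]
    refine Eq.trans (sum_congr rfl fun b _ => ?_) h0
    simp [g, Pi.sub_apply]
  set d0 := univ.sup fun i => univ.sup fun b => (c i b).natDegree
  have hc : ∀ i b, Pd (cS i b) d0 := fun i b => ⟨c i b,
    (le_sup (f := fun b => (c i b).natDegree) (mem_univ b)).trans
      (le_sup (f := fun i => univ.sup fun b => (c i b).natDegree) (mem_univ i)), rfl⟩
  have h := hrate_le_Hsup (p := p) hA hp' hp1 hu he hc (pflin Φ) hΦ'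
  have hh : (⨅ n : ℕ, ent (wt (n := n + 1) p)
      (fun w => (slope (pslp u e) w, trans (pslp u e) c w)) / ((n + 1 : ℕ) : ℝ)) =
      hrate p (rK u e) (cK cS) ⊥ := by
    refine iInf_congr fun n => congrArg (fun z => z / ((n + 1 : ℕ) : ℝ))
      (cent_congr_left (wt_nonneg hp') fun v w _ => ?_)
    simp only [cls, Prod.mk.injEq, slope_rK_iff, Submodule.Quotient.eq, Submodule.mem_bot,
      sub_eq_zero, trans_cK, ht, hs]
    refine and_congr_right fun _ => ⟨fun h => by rw [h], fun h => funext fun b => ?_⟩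
    exact hg (toK_inj (congrFun h b))
  filter_upwards [Hf_near (e := e) (ψ := fun i => pflin Φ (cS i)) hp' hp1 hu hη] with m hm
  rw [hh]
  refine le_trans (mul_le_mul_of_nonneg_left ?_ (Nat.cast_nonneg m)) hm
  linarith

end

end Vale.Agent.P114.Mv
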