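import Vale.Agent.P114.Mv.Env
import Vale.Agent.P114.Mv.FormalDim
import Mathlib.Data.Fintype.EquivFin

/-! # P114, several parameters: small rows of large coordinate volume -/

namespace Vale.Agent.P114.Mv

noncomputable section

open scoped Classical Matrix
open Finset MvPolynomial Filter Topology
open Vale.Agent.P114.Trans (pre pre_eq)

namespace Env

variable {ι : Type} [Fintype ι] {s k : ℕ} (E : Env ι s k)

/-- A bound for the cofactors. -/
def cofSize : ℝ := k.factorial * E.rowSize ^ k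

theorem cofSize_nonneg : 0 ≤ E.cofSize := by
  have := E.one_le_rowSize
  rw [cofSize]; positivity

variable {S : Finset (Fin k)} {B : Fin k → Fin k → ℝ} {g : Fin k → ℝ} {n : ℕ} {δ : ℝ}
  {BP : Matrix (Fin k) (Fin k) (MP s)}

theorem big_rows (hBP : ∀ x, if x ∈ S then BP x = Pi.single x 1 else BP x ∈ E.Small g n δ)
    (x : Fin k) : BP x ∈ Dif E.rP E.c n ∨ ∃ j, BP x = Pi.single j 1 := by
  have h := hBP x
  split_ifs at h
  exacts [Or.inr ⟨x, h⟩, Or.inl h.1]

/-- A cofactor coordinate is the volume times the value, up to the smallness of the rows. -/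
theorem cof_near (hStd : Std S B)
    (hBP : ∀ x, if x ∈ S then BP x = Pi.single x 1 else BP x ∈ E.Small g n δ) {sm : ℝ}
    (hsm0 : 0 ≤ sm) (hsm : ∀ d ∈ E.Small g n δ, ∀ x ∈ S, |dotE E.θ d (B x)| ≤ sm)
    {m : ℕ} {d : Fin k → MP s} (hd : d ∈ Dif E.rP E.c m) {z : Fin k} (hz : z ∈ S) :
    |ev E.θ BP.det * dotE E.θ d (B z) - ev E.θ ((d ᵥ* BP.adjugate) z)| ≤
      k * E.cofSize * sm := by
  have e : ev E.θ BP.det * dotE E.θ d (B z) - ev E.θ ((d ᵥ* BP.adjugate) z) =
      ∑ i, (ev E.θ ((d ᵥ* BP.adjugate) i) * dotE E.θ (BP i) (B z) -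
        if i = z then ev E.θ ((d ᵥ* BP.adjugate) z) else 0) := by
    rw [det_dotE, sum_sub_distrib, sum_ite_eq' univ z, if_pos (mem_univ z)]
  rw [e]
  refine (abs_sum_le_sum_abs _ _).trans ((sum_le_sum fun i _ => ?_).trans (le_of_eq (show
    ∑ _i : Fin k, E.cofSize * sm = k * E.cofSize * sm by simp; ring)))
  have hi := hBP i
  by_cases hiS : i ∈ S
  · rw [if_pos hiS] at hi
    have h1 : dotE E.θ (BP i) (B z) = if z = i then 1 else 0 := by
      rw [hi, ← hStd z hz i hiS]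
      simp [dotE, Pi.single_apply, apply_ite (ev E.θ)]
    rw [h1]
    by_cases h : i = z
    · subst h
      simpa using mul_nonneg E.cofSize_nonneg hsm0
    · rw [if_neg h, if_neg (Ne.symm h)]
      simpa using mul_nonneg E.cofSize_nonneg hsm0
  · rw [if_neg hiS] at hi
    rw [if_neg (fun h => hiS (by rw [h]; exact hz)), sub_zero, abs_mul]
    exact mul_le_mul ((E.abs_ev_le_wnorm _).trans (E.cofactor_le (E.big_rows hBP) hd i))
      (hsm _ hi z hz) (abs_nonneg _) E.cofSize_nonneg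

/-- The cofactors of a small difference have no low coefficients. -/
theorem low_zero (hStd : Std S B)
    (hBP : ∀ x, if x ∈ S then BP x = Pi.single x 1 else BP x ∈ E.Small g n δ) {M : ℕ} {J : ℝ}
    (hJ : ∀ P ∈ Minr E.rP E.c n, (∃ ν, tdeg ν < M ∧ coeff ν P ≠ 0) →
      Real.exp (-(J * ((n : ℝ) + 1))) ≤ |ev E.θ P|)
    (hM : ((k : ℝ) + 1) * E.cofSize * Real.exp (-(M : ℝ)) < 1)
    (hsm : ∀ d ∈ E.Small g n δ, ∀ x ∈ S,
      |dotE E.θ d (B x)| ≤ Real.exp (-(M : ℝ)) * Real.exp (-(J * ((n : ℝ) + 1))))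
    {d : Fin k → MP s} (hd : d ∈ E.Small g n δ) {z : Fin k} (hz : z ∈ S) (ν : Fin s →₀ ℕ)
    (hν : tdeg ν < M) : coeff ν ((d ᵥ* BP.adjugate) z) = 0 := by
  by_contra hne
  set sm := Real.exp (-(M : ℝ)) * Real.exp (-(J * ((n : ℝ) + 1))) with hsmdef
  have hsm0 : 0 ≤ sm := by positivity
  have hmem : (d ᵥ* BP.adjugate) z ∈ Minr E.rP E.c n := by
    rw [vecMul_adjugate_apply]
    refine ⟨BP.updateRow z d, fun x => ?_, rfl⟩
    by_cases hx : x = z
    · subst hx
      rw [Matrix.updateRow_self]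
      exact Or.inl hd.1
    · rw [Matrix.updateRow_ne hx]
      exact E.big_rows hBP x
  have h1 := hJ _ hmem ⟨ν, hν, hne⟩
  have h2 := E.cof_near hStd hBP hsm0 hsm hd.1 hz
  have h3 : |ev E.θ BP.det| ≤ E.cofSize :=
    (E.abs_ev_le_wnorm _).trans (wnorm_det_le E.rad_spec.1.le BP fun x y =>
      E.row_wnorm (E.big_rows hBP x) y)
  have h4 : |ev E.θ BP.det * dotE E.θ d (B z)| ≤ E.cofSize * sm := by
    rw [abs_mul]; exact mul_le_mul h3 (hsm d hd z hz) (abs_nonneg _) E.cofSize_nonneg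
  have h5 : ((k : ℝ) + 1) * E.cofSize * sm < Real.exp (-(J * ((n : ℝ) + 1))) := by
    have := mul_lt_mul_of_pos_right hM (Real.exp_pos (-(J * ((n : ℝ) + 1))))
    rw [one_mul] at this
    rw [hsmdef]; linarith
  have h6 := abs_sub_abs_le_abs_sub (ev E.θ ((d ᵥ* BP.adjugate) z))
    (ev E.θ BP.det * dotE E.θ d (B z))
  rw [abs_sub_comm] at h6
  linarith

theorem wide (hS : S.Nonempty) (hStd : Std S B) (hnr : NoRel E.θ S B) {J : ℕ → ℝ}
    (hJ0 : ∀ M, 0 ≤ J M)
    (hJ : ∀ M n, ∀ P ∈ Minr E.rP E.c n, (∃ ν, tdeg ν < M ∧ coeff ν P ≠ 0) →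
      Real.exp (-(J M * ((n : ℝ) + 1))) ≤ |ev E.θ P|)
    {D ε0 : ℝ} (hlow : Low E.p E.rr (E.tg g) E.qmax D) (hε0 : 0 < ε0)
    (hD : D * lyap E.p E.rr + 4 * ε0 ≤ min (lyap E.p E.rr) E.hform) :
    ∃ ε, 0 < ε ∧ ε ≤ ε0 ∧ ∀ (n : ℕ → ℕ) (δ : ℕ → ℝ), (∀ M, M ≤ n M) → (∀ M, 0 < δ M) →
      (∀ M, δ M ≤ Real.exp (-(M : ℝ))) →
      (∀ M, ∀ d ∈ E.Small g (n M) (δ M), ∀ x ∈ S, |dotE E.θ d (B x)| ≤
        Real.exp (-(M : ℝ)) * Real.exp (-(J M * ((n M : ℝ) + 1)))) →
      E.Fails g D ε n δ → (∃ cc > 0, ∃ᶠ M in atTop, E.Big S g (n M) (δ M) cc) → False := by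
  have := E.nonempty
  set j := S.card
  have hj : 0 < j := card_pos.2 hS
  let e : Fin j → Fin k := fun q => (S.equivFin.symm q : Fin k)
  have heS : ∀ q, e q ∈ S := fun q => (S.equivFin.symm q).2
  have hesurj : ∀ z ∈ S, ∃ q, e q = z := fun z hz => ⟨S.equivFin ⟨z, hz⟩, by simp [e]⟩
  set ex : ι → ℕ := fun i => j * tdeg (Finsupp.equivFunOnFinite.symm (E.a i)) with hex
  have hexpos : ∀ i, 0 < ex i := fun i => by
    obtain ⟨l, hl⟩ := Function.ne_iff.1 (E.a_ne i)
    refine Nat.mul_pos hj (lt_of_lt_of_le (Nat.pos_of_ne_zero hl) ?_)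
    exact le_trans (le_of_eq (by simp)) (single_le_sum (fun _ _ => Nat.zero_le _) (mem_univ l))
  set W := ∑ i, ex i
  obtain ⟨κ, hκ0, hκ1, hshare⟩ := share (ι := ι) (max 1 (Real.log (Fintype.card ι)))
    (ε0 / ((W : ℝ) + 1)) (lt_max_of_lt_left one_pos) (le_max_right _ _) (by positivity)
  have hκε : 0 < κ * ε0 := mul_pos hκ0 hε0
  refine ⟨κ * ε0 / 2, by linarith, by nlinarith [mul_le_mul_of_nonneg_right hκ1 hε0.le], ?_⟩
  rintro n δ hn hδ0 hδs hsmall hfail ⟨cc, hcc, hfreq⟩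
  obtain ⟨Ms, hMs, hBig⟩ := extraction_of_frequently_atTop hfreq
  choose BP hBP hdet using hBig
  obtain ⟨b, hb0, hbR, hθb⟩ := E.rad_spec.2.2
  obtain ⟨φ, hφ, Φ, hΦev⟩ := exists_limit_functional E.rad_spec.1 E.one_le_rowSize e BP
    fun i x y => E.row_wnorm (E.big_rows (hBP i) x) y
  have hgrd : ∀ {m : ℕ} (v : Fin m → ι), slope (pslp E.rP ex) v = gr j (slope E.rP v) ∧
      trans (pslp E.rP ex) (fun i q => gr j (E.c i q)) v =
        fun q => gr j (trans E.rP E.c v q) :=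
    fun v => ⟨slope_gr j E.σ E.a v, trans_gr j E.σ E.a E.c v⟩
  have hsm' : ∀ i, ∀ d ∈ E.Small g (n (Ms i)) (δ (Ms i)), ∀ x ∈ S,
      |dotE E.θ d (B x)| ≤ Real.exp (-((Ms i : ℕ) : ℝ)) := fun i d hd x hx =>
    (hsmall _ d hd x hx).trans (mul_le_of_le_one_right (Real.exp_nonneg _)
      (Real.exp_le_one_iff.2 (neg_nonpos.2 (mul_nonneg (hJ0 _) (by positivity)))))
  have hMφ : Tendsto (fun i => ((Ms (φ i) : ℕ) : ℝ)) atTop atTop :=
    tendsto_natCast_atTop_atTop.comp ((hMs.comp hφ).tendsto_atTop)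
  have hexp : Tendsto (fun i => Real.exp (-((Ms (φ i) : ℕ) : ℝ))) atTop (𝓝 0) :=
    Real.tendsto_exp_neg_atTop_nhds_zero.comp hMφ
  -- the limit functional vanishes on no difference
  have hΦ : ∀ m (v w : Fin m → ι), slope (pslp E.rP ex) v = slope (pslp E.rP ex) w →
      pfun Φ (trans (pslp E.rP ex) (fun i q => gr j (E.c i q)) v -
        trans (pslp E.rP ex) (fun i q => gr j (E.c i q)) w) = 0 →
      trans (pslp E.rP ex) (fun i q => gr j (E.c i q)) v =
        trans (pslp E.rP ex) (fun i q => gr j (E.c i q)) w := by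
    intro m v w hs h
    rw [(hgrd v).1, (hgrd w).1] at hs
    rw [(hgrd v).2, (hgrd w).2] at h ⊢
    set d := trans E.rP E.c v - trans E.rP E.c w
    have hd : d ∈ Dif E.rP E.c m := ⟨v, w, gr_injective hs, rfl⟩
    have hd0 : ∑ q, Φ q * (gr j (d q) : PowerSeries (MP s)) = 0 := by
      rw [← h, pfun]
      simp [d]
    suffices d = 0 by rw [sub_eq_zero.1 this]
    refine hnr d fun z hz => ?_
    obtain ⟨q0, hq0⟩ := hesurj z hz
    have hlim : Tendsto (fun i => ev E.θ (BP (φ i)).det * dotE E.θ d (B z)) atTop (𝓝 0) := by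
      refine Metric.tendsto_nhds.2 fun η hη => ?_
      have hr : b / E.rad < 1 := (div_lt_one E.rad_spec.1).2 hbR
      obtain ⟨l, hl⟩ := (((tendsto_pow_atTop_nhds_zero_of_lt_one (div_nonneg hb0 E.rad_spec.1.le)
        hr).mul_const E.cofSize).eventually_lt_const
        (show (0 : ℝ) * E.cofSize < η / 2 by rw [zero_mul]; linarith)).exists
      filter_upwards [hΦev (j * l), (hexp.const_mul ((k : ℝ) * E.cofSize)).eventually_lt_const
        (show (k : ℝ) * E.cofSize * 0 < η / 2 by rw [mul_zero]; linarith)] with i hi hi'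
      have hlowc := (interP_low (fun x => (d ᵥ* (BP (φ i)).adjugate) (e x)) l).1 fun t ht => by
        rw [← hi d t ht, hd0, map_zero]
      have h1 := (abs_ev_le hb0 hbR.le E.rad_spec.1 hθb _ l (hlowc q0)).trans
        (mul_le_mul_of_nonneg_left (E.cofactor_le (E.big_rows (hBP (φ i))) hd (e q0))
          (pow_nonneg (div_nonneg hb0 E.rad_spec.1.le) l))
      have h2 := E.cof_near hStd (hBP (φ i)) (Real.exp_nonneg _) (hsm' (φ i)) hd hz
      have h3 := abs_sub_abs_le_abs_sub (ev E.θ (BP (φ i)).det * dotE E.θ d (B z))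
        (ev E.θ ((d ᵥ* (BP (φ i)).adjugate) z))
      rw [hq0] at h1
      rw [Real.dist_eq, sub_zero]
      change |ev E.θ ((d ᵥ* (BP (φ i)).adjugate) z)| ≤ _ * E.cofSize at h1
      linarith
    by_contra hne
    obtain ⟨i, hi⟩ := ((Metric.tendsto_nhds.1 hlim) (cc * |dotE E.θ d (B z)|)
      (mul_pos hcc (abs_pos.2 hne))).exists
    rw [Real.dist_eq, sub_zero, abs_mul] at hi
    exact absurd hi (not_lt.2 (mul_le_mul_of_nonneg_right (hdet _) (abs_nonneg _)))
  set ψ : ι → PowerSeries (MP s) := fun i => pfun Φ fun q => gr j (E.c i q) with hψ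
  obtain ⟨C, hC⟩ := coarse_ge (E.goodSys g) hlow (show 0 < κ * ε0 / 4 by linarith)
  set CC := Real.log (2 * (radius E.qmax (E.tmax g) + 1) + 4) + Real.log 4
  obtain ⟨m0, hm0⟩ := exists_nat_gt ((|C| + |CC|) / (κ * ε0))
  obtain ⟨m, hHf, hm⟩ := ((formal_dim (sep_mvPolynomial s) E.pos E.sum_one (u := E.rP)
    (fun i => mslope_ne_zero E.σ E.a i) hexpos (fun i q => gr j (E.c i q)) Φ hΦ
    (η := κ * ε0 / 4) (by linarith)).and (eventually_ge_atTop (max m0 1))).exists
  have hform_eq : E.hform = ⨅ n : ℕ, ent (wt (n := n + 1) E.p) (fun w =>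
      (slope (pslp E.rP ex) w, trans (pslp E.rP ex) (fun i q => gr j (E.c i q)) w)) /
        ((n + 1 : ℕ) : ℝ) := by
    refine iInf_congr fun l => ?_
    congr 1
    refine cent_congr_left (wt_nonneg fun i => (E.pos i).le) fun v w _ => ?_
    simp only [Prod.mk.injEq, (hgrd v).1, (hgrd w).1, (hgrd v).2, (hgrd w).2,
      gr_injective.eq_iff, funext_iff]
  rw [← hform_eq] at hHf
  set L1 := W * m
  obtain ⟨i, hiev, hie1, hie2, hie3⟩ := ((hΦev L1).and
    ((((hexp.const_mul (((k : ℝ) + 1) * E.cofSize)).eventually_lt_const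
      (show ((k : ℝ) + 1) * E.cofSize * 0 < 1 by simp))).and
    ((hexp.eventually_le_const (pow_pos E.amin_pos m)).and
      ((hMs.comp hφ).tendsto_atTop.eventually_ge_atTop (m + L1))))).exists
  set M := Ms (φ i)
  have hmM : m + L1 ≤ M := hie3
  obtain ⟨N, hN⟩ : ∃ N, n M = N + m := ⟨n M - m, by have := hn M; omega⟩
  have hL1N : L1 ≤ N := by have := hn M; omega
  have hδ := hδ0 M
  set P := wt (n := m) E.p
  set PQ := prodW P (wt (n := N) E.p)
  have hP : 0 ≤ P := wt_nonneg fun i => (E.pos i).le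
  have hPQ : 0 ≤ PQ := prodW_nonneg hP (wt_nonneg fun i => (E.pos i).le)
  have hslope : ∀ {l : ℕ} (v w : Fin l → ι),
      slope (mon E.rP ex) v = slope (mon E.rP ex) w ↔ slope E.rr v = slope E.rr w := fun v w => by
    rw [E.slope_eq_iff v w]
    simp only [rP, hex, slope_mon_gr, Polynomial.coe_inj, gr_injective.eq_iff]
  let fl : (Fin m → ι) → ℤ := fun w => ⌊trans E.rr (E.tg g) w / |slope E.rr w|⌋
  let pr : (Fin m → ι) → Fin L1 → MP s := fun w => pre (dig E.rP ex ψ w) L1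
  have hZ : ∀ v w : (Fin m → ι) × (Fin N → ι),
      joint E.rr (E.tg g) (δ M) v = joint E.rr (E.tg g) (δ M) w →
      pre (dig E.rP ex ψ (joinEquiv ι N m v)) L1 = pre (dig E.rP ex ψ (joinEquiv ι N m w)) L1 := by
    intro v w h
    simp only [joint, Prod.mk.injEq] at h
    set V := joinEquiv ι N m v
    set U := joinEquiv ι N m w
    have hd0 := E.mem_small hδ (g := g) (v := V) (w := U)
      (by
        change slope E.rr (joinEquiv ι N m (v.1, v.2)) = slope E.rr (joinEquiv ι N m (w.1, w.2))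
        rw [slope_join, slope_join, h.2.1, h.2.2]) h.1
    set d := trans E.rP E.c V - trans E.rP E.c U with hddef
    have hd : d ∈ E.Small g (n M) (δ M) := by rw [hN]; exact hd0
    have hlowc := (interP_low (fun x => (d ᵥ* (BP (φ i)).adjugate) (e x)) M).2 fun x ν hν =>
      E.low_zero hStd (hBP (φ i)) (hJ M (n M)) hie1 (hsmall M) hd (heS x) ν hν
    refine pre_eq.2 fun t ht => sub_eq_zero.1 ?_
    have htj : t < j * M := lt_of_lt_of_le (by omega) (Nat.le_mul_of_pos_left M hj)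
    rw [← hlowc t htj, ← hiev d t ht]
    simp only [dig, hψ, pfun, rP, hex, trans_series, hddef, Pi.sub_apply, map_sub,
      Polynomial.coe_sub, mul_sub, sum_sub_distrib]
  have hsh := hshare (sep_mvPolynomial s) E.p (fun i => (E.pos i).le) E.sum_one E.rP ex hexpos ψ
    m N L1 hL1N (fun w => (fl w, slope E.rr w)) (joint E.rr (E.tg g) (δ M))
    (fun v w h => (hslope v w).2 (Prod.mk.inj h).2) (fun v w h _ => hZ v w h)
  have a1 := cent_chain P pr fl (fun w => slope E.rr w)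
  have a2 := cent_chain PQ (fun v => pr v.1) (fun v => fl v.1) (joint E.rr (E.tg g) (δ M))
  have a3 : cent PQ (fun v => pr v.1) (fun v => (fl v.1, joint E.rr (E.tg g) (δ M) v)) =
      cent PQ (fun v => pr v.1)
        (fun v => (joint E.rr (E.tg g) (δ M) v, fl v.1, slope E.rr v.1)) :=
    cent_congr_right _ fun v w => by
      simp only [joint, Prod.mk.injEq]
      tauto
  have a4 : Hf E.p E.rP ex ψ m ≤ cent P pr (fun w => slope E.rr w) := by
    rw [Hf, cent_congr_right _ (fun v w => hslope v w)]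
    refine cent_mono_left hP fun v w h hs => ?_
    have hdeg := deg_eq_of_slope (fun i => mslope_ne_zero E.σ E.a i) ((hslope v w).2 hs)
    funext t
    simp only [cut, hdeg]
    split_ifs with ht
    · refine pre_eq.1 h t (lt_of_lt_of_le ht ?_)
      calc deg ex w ≤ ∑ _l : Fin m, W :=
            sum_le_sum fun l _ => single_le_sum (fun _ _ => Nat.zero_le _) (mem_univ _)
        _ = L1 := by simp [L1, mul_comm]
    · rfl
  have a5 := cent_le_add hP pr fl (fun w => slope E.rr w)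
  have a6 := peel (E.goodSys g) m N hδ (fun w => (pr w, fl w))
  have a7 := coarse_det (E.goodSys g) (E.goodSys g) m N (δ := δ M) fun v w _ h => by
    have hh := Int.abs_sub_lt_one_of_floor_eq_floor h
    rw [← sub_div, abs_div, abs_of_pos hδ, div_lt_one hδ] at hh
    exact hh.le.trans ((hδs M).trans hie2)
  have a8 := hfail M m N (by omega) (by omega) hN
  rw [hN] at a8
  have a9 := hC m
  simp only [coarse] at a9
  have hh : D * lyap E.p E.rr + 4 * ε0 ≤ E.hform := hD.trans (min_le_right _ _)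
  have b1 := mul_le_mul_of_nonneg_left a9 (sub_nonneg.2 hκ1)
  have b2 := mul_le_mul_of_nonneg_left (hHf.trans (a4.trans a5)) hκ0.le
  have b3 := mul_le_mul_of_nonneg_left hh (mul_nonneg hκ0.le (Nat.cast_nonneg (α := ℝ) m))
  have b4 : κ * (ε0 / ((W : ℝ) + 1)) * (L1 : ℝ) ≤ κ * ε0 * m := by
    rw [Nat.cast_mul, mul_assoc κ, mul_assoc κ]
    refine mul_le_mul_of_nonneg_left ?_ hκ0.le
    rw [← mul_assoc]
    refine mul_le_mul_of_nonneg_right ?_ (Nat.cast_nonneg m)
    rw [div_mul_eq_mul_div, div_le_iff₀ (by positivity)]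
    linarith
  have b5 : |C| + |CC| ≤ κ * ε0 * m := by
    have h1 : (|C| + |CC|) / (κ * ε0) ≤ m :=
      hm0.le.trans (Nat.cast_le.2 ((le_max_left _ _).trans hm))
    rw [div_le_iff₀ hκε] at h1
    linarith
  have b6 : (1 - κ) * C ≤ |C| :=
    le_trans (mul_le_mul_of_nonneg_left (le_abs_self C) (sub_nonneg.2 hκ1))
      (mul_le_of_le_one_left (abs_nonneg C) (by linarith))
  have b7 := le_abs_self CC
  have b8 : 0 < κ * ε0 * m := mul_pos hκε (Nat.cast_pos.2 (by omega))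
  simp only [CC] at b5 b7
  linarith

end Env

end

end Vale.Agent.P114.Mv
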