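import Vale.Agent.P114.Mv.Narrow
import Vale.Agent.P114.Mv.Wide

/-! # P114, several parameters: every generic vector reaches the formal rate -/

namespace Vale.Agent.P114.Mv

noncomputable section

open scoped Classical Matrix
open Finset MvPolynomial Filter

namespace Env

variable {ι : Type} [Fintype ι] {s k : ℕ} (E : Env ι s k)

/-- Generic vectors of subspaces without relations reach the formal rate. -/
theorem reach_of_gen : ∀ (d : ℕ) (S : Finset (Fin k)) (B : Fin k → Fin k → ℝ), k - S.card = d →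
    S.Nonempty → Std S B → NoRel E.θ S B → ∀ g, Gen E.θ E.rP E.c S B g → E.Reach g := by
  intro d
  induction d using Nat.strong_induction_on with
  | _ d ih =>
    intro S B hd hS hStd hnr g hg
    have := E.nonempty
    obtain ⟨D, Cw, hD0, hD1, hW, hlow⟩ := E.exists_dimension g
    by_contra hR
    have hlt : D * lyap E.p E.rr < min (lyap E.p E.rr) E.hform :=
      not_le.1 fun h => hR ⟨D, hlow, h⟩
    have hD1' : D < 1 := by
      rcases lt_or_eq_of_le hD1 with h | h
      · exact h
      · rw [h, one_mul] at hlt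
        exact absurd hlt (not_lt.2 (min_le_left _ _))
    set ε0 := (min (lyap E.p E.rr) E.hform - D * lyap E.p E.rr) / 4 with hε0def
    have hε0 : 0 < ε0 := by rw [hε0def]; linarith
    choose J hJ0 hJ using E.good
    obtain ⟨K0, hK0, hK⟩ := hg.bound
    obtain ⟨ε, hε, hεle, hwide⟩ := E.wide hS hStd hnr hJ0 hJ hlow hε0 (by rw [hε0def]; linarith)
    set Q : ℕ → ℝ := fun M => 2 * K0 + 2 * J M + M + |Real.log E.amin| with hQdef
    have hQ0 : ∀ M, 0 ≤ Q M := fun M => by have := hJ0 M; positivity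
    have hQa : ∀ M, -Real.log E.amin ≤ Q M := fun M => by
      have := hJ0 M
      have h1 := neg_le_abs (Real.log E.amin)
      have h2 : (0 : ℝ) ≤ M := Nat.cast_nonneg M
      rw [hQdef]; linarith
    by_cases hgain : ∃ M : ℕ, ∀ n, M + 1 ≤ n → ∀ δ, 0 < δ → δ ≤ Real.exp (-(Q M * n)) →
        ∃ m N, n = N + m ∧ 1 ≤ m ∧ m ≤ M ∧ (m : ℝ) * (D * lyap E.p E.rr + ε) +
          ∑ u : Fin m → ι, wt E.p u * fine E.p E.rr (E.tg g) N (δ / |slope E.rr u|) ≤
            fine E.p E.rr (E.tg g) n δ
    · obtain ⟨M, hM⟩ := hgain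
      have h := fine_of_pieces (E.goodSys g) (hQa M) hM
      exact excess_false (E.goodSys g) hW hlow hD1' hε (hQa M) (hQ0 M)
        fun n => h n _ (Real.exp_pos _) le_rfl
    push Not at hgain
    choose n hn δ hδ0 hδ hfail using hgain
    have hexp : ∀ M, K0 * ((n M : ℝ) + 1) - Q M * n M ≤
        -(M : ℝ) - J M * ((n M : ℝ) + 1) := fun M => by
      have h1 : (1 : ℝ) ≤ n M := Nat.one_le_cast.2 ((Nat.le_add_left 1 M).trans (hn M))
      have h2 := mul_le_mul_of_nonneg_left h1 hK0
      have h3 := mul_le_mul_of_nonneg_left h1 (hJ0 M)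
      have h4 := mul_le_mul_of_nonneg_left h1 (Nat.cast_nonneg (α := ℝ) M)
      have h5 : 0 ≤ |Real.log E.amin| * (n M : ℝ) := by positivity
      simp only [hQdef]
      linarith
    have hδM : ∀ M, δ M ≤ Real.exp (-(M : ℝ)) := fun M => by
      refine (hδ M).trans (Real.exp_le_exp.2 ?_)
      have h1 : 0 ≤ K0 * ((n M : ℝ) + 1) := by positivity
      have h2 : 0 ≤ J M * ((n M : ℝ) + 1) := mul_nonneg (hJ0 M) (by positivity)
      linarith [hexp M]
    have hsmall : ∀ M, ∀ v ∈ E.Small g (n M) (δ M), ∀ x ∈ S, |dotE E.θ v (B x)| ≤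
        Real.exp (-(M : ℝ)) * Real.exp (-(J M * ((n M : ℝ) + 1))) := fun M v hv x hx => by
      refine (hK _ v hv.1 x hx).trans ?_
      refine (mul_le_mul_of_nonneg_left (hv.2.trans (hδ M)) (Real.exp_nonneg _)).trans ?_
      rw [← Real.exp_add, ← Real.exp_add]
      exact Real.exp_le_exp.2 (by linarith [hexp M])
    have hF : E.Fails g D ε n δ := fun M m N h1 h2 h3 => hfail M m N h3 h1 h2
    have hnM : ∀ M, M ≤ n M := fun M => (Nat.le_succ M).trans (hn M)
    by_cases hbig : ∃ cc > 0, ∃ᶠ M in atTop, E.Big S g (n M) (δ M) cc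
    · exact hwide n δ hnM hδ0 hδM hsmall hF hbig
    simp only [not_exists, not_and, not_frequently] at hbig
    have hSu : S ≠ univ := fun hu => by
      obtain ⟨M, hM⟩ := (hbig 1 one_pos).exists
      refine hM ⟨1, fun x => ?_, by simp⟩
      rw [if_pos (by rw [hu]; exact mem_univ x)]
      funext y
      simp [Matrix.one_apply, Pi.single_apply, eq_comm]
    exact E.narrow hSu hStd hnr
      (fun S' B' h1 h2 h3 g' h4 => ih (k - S'.card)
        (by
          have : S'.card ≤ k := by simpa using card_le_univ S'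
          omega)
        S' B' rfl (card_pos.1 (by omega)) h2 h3 g' h4)
      hε (by rw [hε0def] at hεle; linarith) hnM hδ0
      (fun M v hv x hx => (hsmall M v hv x hx).trans (mul_le_of_le_one_right (Real.exp_nonneg _)
        (Real.exp_le_one_iff.2 (neg_nonpos.2 (mul_nonneg (hJ0 M) (by positivity))))))
      hF hbig

/-- A translation vector without relations reaches the formal rate. -/
theorem reach (hk : 0 < k) {g : Fin k → ℝ} (hg : ∀ v : Fin k → MP s, dotE E.θ v g = 0 → v = 0) :
    E.Reach g := by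
  obtain ⟨y, hy⟩ : ∃ y, g y ≠ 0 := by
    by_contra h
    push Not at h
    have := congrFun (hg (fun _ => 1) (by simp [dotE, h])) ⟨0, hk⟩
    exact one_ne_zero this
  set B : Fin k → Fin k → ℝ := fun _ => (g y)⁻¹ • g with hB
  have hdot : ∀ (v : Fin k → MP s) x, dotE E.θ v (B x) = (g y)⁻¹ * dotE E.θ v g := fun v x => by
    simp only [B, dotE, Pi.smul_apply, smul_eq_mul, mul_sum]
    exact sum_congr rfl fun b _ => by ring
  refine E.reach_of_gen _ {y} B rfl (singleton_nonempty y) ?_ ?_ g ⟨⟨fun _ => g y, ?_⟩, hg,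
    |Real.log (|(g y)⁻¹|)|, abs_nonneg _, fun n d _ x _ => ?_⟩
  · intro x hx z hz
    rw [mem_singleton] at hx hz
    subst hx hz
    simp [B, inv_mul_cancel₀ hy]
  · intro v hv
    refine hg v ?_
    have := hv y (mem_singleton_self y)
    rw [hdot v y] at this
    exact (mul_eq_zero.1 this).resolve_left (inv_ne_zero hy)
  · rw [sum_singleton, hB, smul_smul, mul_inv_cancel₀ hy, one_smul]
  · rw [hdot d x, abs_mul]
    refine mul_le_mul_of_nonneg_right ?_ (abs_nonneg _)
    refine le_trans (le_of_eq (Real.exp_log (abs_pos.2 (inv_ne_zero hy))).symm)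
      (Real.exp_le_exp.2 ((le_abs_self _).trans (le_mul_of_one_le_right (abs_nonneg _) ?_)))
    exact le_add_of_nonneg_left (Nat.cast_nonneg n)

end Env

end

end Vale.Agent.P114.Mv
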