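import Vale.Agent.P114.Gain
import Vale.Agent.P114.Approx

/-! # P114, several parameters: peeling one block off a fine cell, and the final contradiction -/

namespace Vale.Agent.P114.Mv

noncomputable section

open scoped Classical
open Finset

variable {ι : Type} [Fintype ι] {p r t : ι → ℝ} {a q T : ℝ}

/-- The entropy of the level `n` cells of size `δ`, given the slope. -/
def fine (p r t : ι → ℝ) (n : ℕ) (δ : ℝ) : ℝ :=
  cent (wt (n := n) p) (fun w => ⌊trans r t w / δ⌋) (fun w => slope r w)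

/-- The entropy of the coarse cells of level `m`, given the slope. -/
def coarse (p r t : ι → ℝ) (m : ℕ) : ℝ :=
  cent (wt (n := m) p) (fun w => ⌊trans r t w / |slope r w|⌋) (fun w => slope r w)

/-- The cell of a long word and the slopes of its two parts. -/
def joint (r t : ι → ℝ) (δ : ℝ) {m N : ℕ} (v : (Fin m → ι) × (Fin N → ι)) : ℤ × ℝ × ℝ :=
  (⌊trans r t (joinEquiv ι N m v) / δ⌋, slope r v.1, slope r v.2)

theorem fine_nonneg (G : Good p r t a q T) (n : ℕ) (δ : ℝ) : 0 ≤ fine p r t n δ :=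
  cent_nonneg G.wt_nn _ _

/-- The first block keeps what the cell reveals of it. -/
theorem peel (G : Good p r t a q T) (m N : ℕ) {δ : ℝ} (hδ : 0 < δ) {α : Type}
    (X : (Fin m → ι) → α) :
    cent (wt (n := m) p) X (fun w => slope r w) -
        cent (prodW (wt (n := m) p) (wt (n := N) p)) (fun v => X v.1) (joint r t δ) -
        Real.log 4 + ∑ u : Fin m → ι, wt p u * fine p r t N (δ / |slope r u|) ≤
      fine p r t (N + m) δ := by
  set P := wt (n := m) p
  set Q := wt (n := N) p
  have hP : 0 ≤ P := G.wt_nn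
  have hQ : 0 ≤ Q := G.wt_nn
  have hP1 : ∑ v, P v = 1 := sum_wt G.sum_one m
  have hQ1 : ∑ v, Q v = 1 := sum_wt G.sum_one N
  set PQ := prodW P Q
  have hPQ : 0 ≤ PQ := prodW_nonneg hP hQ
  let Z : (Fin m → ι) × (Fin N → ι) → ℤ := fun v => ⌊trans r t (joinEquiv ι N m v) / δ⌋
  let S : (Fin m → ι) × (Fin N → ι) → ℝ × ℝ := fun v => (slope r v.1, slope r v.2)
  have h1 : cent PQ Z S ≤ fine p r t (N + m) δ := by
    rw [fine, ← cent_join p N m (fun w => ⌊trans r t w / δ⌋) (fun w => slope r w)]
    refine cent_anti_right hPQ fun v w h => ?_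
    simp only [S, Prod.mk.injEq] at h
    rw [slope_join, slope_join, h.1, h.2]
  have h2 := cent_chain PQ (fun v => X v.1) Z S
  have h3 := cent_chain PQ Z (fun v => X v.1) S
  have h4 : cent PQ (fun v => (X v.1, Z v)) S = cent PQ (fun v => (Z v, X v.1)) S :=
    cent_congr_left hPQ fun v w _ => by simp [and_comm]
  have h5 : cent P X (fun w => slope r w) ≤ cent PQ (fun v => X v.1) S := by
    rw [← cent_prod_fst_snd hP hQ hQ1 X (fun w => slope r w)]
    exact cent_anti_right hPQ fun v w h => by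
      simp only [Prod.mk.injEq] at h; simp [S, h]
  have h6 : cent PQ (fun v => X v.1) (fun v => (Z v, S v)) = cent PQ (fun v => X v.1) (joint r t δ) :=
    cent_congr_right _ fun v w => by simp [joint, Z, S]
  have h7 : ∑ u, P u * (fine p r t N (δ / |slope r u|) - Real.log 4) ≤
      cent PQ Z (fun v => (X v.1, S v)) := by
    refine le_trans ?_ (cent_anti_right hPQ (Y' := fun v => (slope r v.2, v.1)) fun v w h => ?_)
    · rw [cent_slice hP hQ]
      refine sum_le_sum fun u _ => mul_le_mul_of_nonneg_left ?_ (hP u)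
      have hs : slope r u ≠ 0 := fun h => by have := G.slope_pos u; simp [h] at this
      have h := cent_floor_le hQ (fun w => trans r t w / (δ / |slope r u|))
        (fun w => trans r t (joinEquiv ι N m (u, w)) / δ) (|slope r u| / slope r u)
        (-(|slope r u| / slope r u) * (trans r t u / δ)) 0 fun w => le_of_eq (by
          rw [trans_join, smul_eq_mul, abs_eq_zero]
          field_simp
          ring)
      have hR : |(|slope r u| / slope r u)| = 1 := by
        rw [abs_div, abs_abs, div_self (abs_ne_zero.2 hs)]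
      rw [hQ1, one_mul, hR] at h
      norm_num at h
      have h' := cent_le_add' hQ (fun w => ⌊trans r t w / (δ / |slope r u|)⌋)
        (fun w => ⌊trans r t (joinEquiv ι N m (u, w)) / δ⌋) (fun w => slope r w)
      simp only [fine, Z] at h' ⊢
      linarith
    · simp only [Prod.mk.injEq] at h
      simp [S, h.1, h.2]
  simp only [mul_sub, sum_sub_distrib, ← sum_mul, hP1, one_mul] at h7
  rw [h4] at h2
  linarith

/-- A coarse cell of a statistic which the fine cell determines is known up to a constant. -/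
theorem coarse_det (G : Good p r t a q T) {t' : ι → ℝ} {T' : ℝ} (G' : Good p r t' a q T')
    (m N : ℕ) {δ : ℝ}
    (hdet : ∀ v w : Fin (N + m) → ι, slope r v = slope r w →
      ⌊trans r t v / δ⌋ = ⌊trans r t w / δ⌋ → |trans r t' v - trans r t' w| ≤ a ^ m) :
    cent (prodW (wt (n := m) p) (wt (n := N) p)) (fun v => ⌊trans r t' v.1 / |slope r v.1|⌋)
        (joint r t δ) ≤ Real.log (2 * (radius q T' + 1) + 4) := by
  have hP : 0 ≤ wt (n := m) p := G.wt_nn
  have hQ : 0 ≤ wt (n := N) p := G.wt_nn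
  have hPQ := prodW_nonneg hP hQ
  have hPQ1 : ∑ v, prodW (wt (n := m) p) (wt (n := N) p) v = 1 := by
    rw [sum_prodW, sum_wt G.sum_one, sum_wt G.sum_one, one_mul]
  -- a representative value of the second statistic on every cell
  let Y : (Fin m → ι) × (Fin N → ι) → ℝ := fun v =>
    if h : ∃ v', joint r t δ v' = joint r t δ v then
      trans r t' (joinEquiv ι N m h.choose) / |slope r v.1| else 0
  refine le_trans (cent_anti_right hPQ (Y := fun v => ⌊Y v⌋) fun v w h => ?_) ?_
  · have hs : slope r v.1 = slope r w.1 := (Prod.mk.inj (Prod.mk.inj h).2).1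
    simp only [Y, h, hs]
  refine (cent_floor_le hPQ (fun v => trans r t' v.1 / |slope r v.1|) Y 1 0 (radius q T' + 1)
    fun v => ?_).trans (le_of_eq ?_)
  swap
  · rw [hPQ1, one_mul, abs_one]; congr 1; ring
  have hex : ∃ v', joint r t δ v' = joint r t δ v := ⟨v, rfl⟩
  simp only [Y, dif_pos hex, one_mul, add_zero]
  set v' := hex.choose
  obtain ⟨hZ, hS1, hS2⟩ : ⌊trans r t (joinEquiv ι N m v') / δ⌋ = ⌊trans r t (joinEquiv ι N m v) / δ⌋ ∧
      slope r v'.1 = slope r v.1 ∧ slope r v'.2 = slope r v.2 := by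
    have h : joint r t δ v' = joint r t δ v := hex.choose_spec
    simp only [joint, Prod.mk.injEq] at h
    exact h
  have hd := hdet (joinEquiv ι N m v') (joinEquiv ι N m v)
    (by rw [slope_join, slope_join, hS1, hS2]) hZ
  obtain ⟨u, w⟩ := v
  have hpos := G.slope_pos u
  rw [← sub_div, abs_div, abs_abs, div_le_iff₀ hpos]
  have hu : a ^ m ≤ |slope r u| := by
    rw [slope, abs_prod]
    exact le_trans (le_of_eq (by simp))
      (prod_le_prod (fun i _ => G.a_pos.le) fun i _ => G.a_le (u i))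
  have he : trans r t' (joinEquiv ι N m (u, w)) = trans r t' u + slope r u * trans r t' w := by
    rw [trans_join, smul_eq_mul]
  have h1 : |trans r t' u - trans r t' (joinEquiv ι N m (u, w))| ≤ |slope r u| * radius q T' := by
    rw [he, sub_add_cancel_left, abs_neg, abs_mul]
    exact mul_le_mul_of_nonneg_left (G'.trans_le w) (abs_nonneg _)
  rw [abs_sub_comm] at hd
  have h2 := abs_sub_le (trans r t' u) (trans r t' (joinEquiv ι N m (u, w)))
    (trans r t' (joinEquiv ι N m v'))
  linarith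

/-- A coarse cell of a statistic which the fine cell determines. -/
theorem peel_coarse (G : Good p r t a q T) {t' : ι → ℝ} {T' : ℝ} (G' : Good p r t' a q T')
    (m N : ℕ) {δ : ℝ} (hδ : 0 < δ)
    (hdet : ∀ v w : Fin (N + m) → ι, slope r v = slope r w →
      ⌊trans r t v / δ⌋ = ⌊trans r t w / δ⌋ → |trans r t' v - trans r t' w| ≤ a ^ m) :
    coarse p r t' m - Real.log (2 * (radius q T' + 1) + 4) - Real.log 4 +
        ∑ u : Fin m → ι, wt p u * fine p r t N (δ / |slope r u|) ≤ fine p r t (N + m) δ := by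
  refine le_trans ?_ (peel G m N hδ fun w => ⌊trans r t' w / |slope r w|⌋)
  have := coarse_det G G' m N hdet
  simp only [coarse]
  linarith

theorem coarse_ge (G : Good p r t a q T) {D : ℝ} (hlow : Low p r t q D) {η : ℝ} (hη : 0 < η) :
    ∃ C, ∀ m : ℕ, (m : ℝ) * (D * lyap p r - η) - C ≤ coarse p r t m := by
  set χ := lyap p r
  have hp : ∀ i, 0 ≤ p i := fun i => (G.pos i).le
  have hχ : 0 ≤ χ := sum_nonneg fun i _ => mul_nonneg (hp i) (neg_nonneg.2
    (Real.log_nonpos (abs_nonneg _) ((G.le_q i).trans G.q_lt.le)))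
  obtain ⟨C1, hC1⟩ := hlow (η / 3 / (χ + 1)) (by positivity)
  obtain ⟨C2, hC2⟩ := dev_le hp G.sum_one
    (fun i => abs_pos.1 (lt_of_lt_of_le G.a_pos (G.a_le i))) (show 0 < η / 3 by positivity)
  obtain ⟨C4, hC4⟩ := log_le_linear (show 0 < η / (3 * (Fintype.card ι + 1)) by positivity)
  refine ⟨C1 + C2 + (Good.c0 q T + Real.log (2 * (1 + radius q T) + 3)) + Fintype.card ι * C4,
    fun m => ?_⟩
  have h2 := js_le_var G m (fun w => ⌊trans r t w / |slope r w|⌋) (fun v w h hs => by
    have hh := Int.abs_sub_lt_one_of_floor_eq_floor h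
    rw [← hs, ← sub_div, abs_div, abs_abs, div_lt_one (G.slope_pos v)] at hh
    exact hh.le) (Real.exp (m * χ)) (Real.exp_pos _)
  have h1 := hC1 (Real.exp (m * χ)) (Real.one_le_exp (by positivity))
  rw [Real.log_exp] at h1
  simp only [Real.log_exp] at h2
  have h3 := hC2 m
  have h5 := ent_slope_le hp G.sum_one r m
  have h6 := mul_le_mul_of_nonneg_left (hC4 m) (Nat.cast_nonneg (α := ℝ) (Fintype.card ι))
  have h7 : η / 3 / (χ + 1) * (m * χ) ≤ η / 3 * m := by
    rw [div_mul_eq_mul_div, div_le_iff₀ (by positivity)]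
    have : (0 : ℝ) ≤ η / 3 * m := by positivity
    linarith
  have h8 : (Fintype.card ι : ℝ) * (η / (3 * (Fintype.card ι + 1)) * m) ≤ η / 3 * m := by
    rw [show η / (3 * ((Fintype.card ι : ℝ) + 1)) = η / 3 / ((Fintype.card ι : ℝ) + 1) from
      (div_div _ _ _).symm, ← mul_assoc, ← mul_div_assoc]
    refine mul_le_mul_of_nonneg_right ?_ (Nat.cast_nonneg m)
    rw [div_le_iff₀ (by positivity)]
    linarith
  simp only [coarse]
  linarith

/-- A linear excess at an exponential scale contradicts `D < 1`. -/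
theorem excess_false (G : Good p r t a q T) {D Cw : ℝ} (hW : Win p r t q D Cw)
    (hlow : Low p r t q D) (hD : D < 1) {Q ε C : ℝ} (hε : 0 < ε)
    (hQ : -Real.log a ≤ Q) (hQ0 : 0 ≤ Q)
    (h : ∀ n : ℕ, (n : ℝ) * (D * lyap p r + ε) - C ≤ fine p r t n (Real.exp (-(Q * n)))) : False := by
  set χ := lyap p r
  obtain ⟨κ, hκ0, hκ1, C0, hkey⟩ := key_gain p r a q T D (ε / (8 * (Q + 1))) Cw hD (by positivity)
  obtain ⟨C1, hC1⟩ := coarse_ge G hlow (show 0 < κ * ε / 8 by positivity)
  obtain ⟨n, hn⟩ := exists_nat_gt ((|C| + |C1| + |C0|) / (κ * ε / 2))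
  rw [div_lt_iff₀ (by positivity)] at hn
  have hs : ∀ w : Fin n → ι, 1 ≤ Real.exp (Q * n) * |slope r w| := fun w => by
    have h1 : a ^ n ≤ |slope r w| := by
      rw [slope, abs_prod]
      exact le_trans (le_of_eq (by simp))
        (prod_le_prod (fun i _ => G.a_pos.le) fun i _ => G.a_le (w i))
    refine le_trans ?_ (mul_le_mul_of_nonneg_left h1 (Real.exp_nonneg _))
    rw [← Real.log_nonneg_iff (mul_pos (Real.exp_pos _) (pow_pos G.a_pos _)),
      Real.log_mul (Real.exp_pos _).ne' (pow_pos G.a_pos _).ne', Real.log_exp, Real.log_pow]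
    have := mul_le_mul_of_nonneg_left hQ (Nat.cast_nonneg (α := ℝ) n)
    linarith
  have hk := hkey t G D le_rfl hW n _ (Real.exp_pos _) hs
  have hA := hC1 n
  have hF := h n
  have hfine : fine p r t n (Real.exp (-(Q * n))) =
      cent (wt (n := n) p) (fun w => ⌊Real.exp (Q * n) * trans r t w⌋) (fun w => slope r w) := by
    simp only [fine, Real.exp_neg, div_inv_eq_mul, mul_comm]
  rw [hfine] at hF
  simp only [coarse] at hA
  rw [Real.log_exp] at hk
  have g1 := mul_le_mul_of_nonneg_left hA (sub_nonneg.2 hκ1)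
  have g2 := mul_le_mul_of_nonneg_left hF hκ0.le
  have g3 : (1 - κ) * C1 ≤ |C1| :=
    (mul_le_mul_of_nonneg_left (le_abs_self C1) (sub_nonneg.2 hκ1)).trans
      (mul_le_of_le_one_left (abs_nonneg _) (by linarith))
  have g4 : κ * C ≤ |C| :=
    (mul_le_mul_of_nonneg_left (le_abs_self C) hκ0.le).trans (mul_le_of_le_one_left (abs_nonneg _) hκ1)
  have g5 := le_abs_self C0
  have g6 : κ * (ε / (8 * (Q + 1))) * (Q * n) ≤ κ * ε / 8 * n := by
    rw [mul_div_assoc κ ε, mul_assoc, mul_assoc κ]
    refine mul_le_mul_of_nonneg_left ?_ hκ0.le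
    rw [div_mul_eq_mul_div, div_le_iff₀ (by positivity)]
    nlinarith [mul_nonneg hε.le (Nat.cast_nonneg (α := ℝ) n)]
  have g7 : (1 - κ) * (κ * ε / 8 * n) ≤ κ * ε / 8 * n :=
    mul_le_of_le_one_left (by positivity) (by linarith)
  have g8 : (0 : ℝ) ≤ κ * ε * n := by positivity
  simp only [χ] at g1 g2 hk
  linarith

/-- Pieces of bounded length add up to a linear lower bound at all exponentially small scales. -/
theorem fine_of_pieces (G : Good p r t a q T) {E Q : ℝ} {R N0 : ℕ} (hQ : -Real.log a ≤ Q)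
    (h : ∀ n, N0 ≤ n → ∀ δ, 0 < δ → δ ≤ Real.exp (-(Q * n)) → ∃ m N, n = N + m ∧ 1 ≤ m ∧ m ≤ R ∧
      (m : ℝ) * E + ∑ u : Fin m → ι, wt p u * fine p r t N (δ / |slope r u|) ≤ fine p r t n δ) :
    ∀ n : ℕ, ∀ δ, 0 < δ → δ ≤ Real.exp (-(Q * n)) → (n : ℝ) * E - N0 * |E| ≤ fine p r t n δ := by
  intro n
  induction n using Nat.strong_induction_on with
  | _ n ih =>
  intro δ hδ hδn
  rcases lt_or_ge n N0 with hlt | hge
  · refine le_trans ?_ (fine_nonneg G n δ)
    have h1 : (n : ℝ) ≤ N0 := by exact_mod_cast hlt.le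
    have h2 := mul_le_mul_of_nonneg_left (le_abs_self E) (Nat.cast_nonneg (α := ℝ) n)
    have h3 := mul_le_mul_of_nonneg_right h1 (abs_nonneg E)
    linarith
  obtain ⟨m, N, rfl, hm1, -, hrec⟩ := h n hge δ hδ hδn
  refine le_trans ?_ hrec
  have hu : ∀ u : Fin m → ι, (N : ℝ) * E - N0 * |E| ≤ fine p r t N (δ / |slope r u|) := fun u => by
    have hpos := G.slope_pos u
    refine ih N (by omega) _ (div_pos hδ hpos) ?_
    rw [div_le_iff₀ hpos]
    have hu : a ^ m ≤ |slope r u| := by
      rw [slope, abs_prod]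
      exact le_trans (le_of_eq (by simp))
        (prod_le_prod (fun i _ => G.a_pos.le) fun i _ => G.a_le (u i))
    refine hδn.trans (le_trans ?_ (mul_le_mul_of_nonneg_left hu (Real.exp_nonneg _)))
    rw [← Real.log_le_log_iff (Real.exp_pos _) (mul_pos (Real.exp_pos _) (pow_pos G.a_pos _)),
      Real.log_exp, Real.log_mul (Real.exp_pos _).ne' (pow_pos G.a_pos _).ne', Real.log_exp,
      Real.log_pow]
    have := mul_le_mul_of_nonneg_left hQ (Nat.cast_nonneg (α := ℝ) m)
    push_cast
    linarith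
  have hs := sum_le_sum fun u (_ : u ∈ univ) => mul_le_mul_of_nonneg_left (hu u) (G.wt_nn u)
  rw [← sum_mul, sum_wt G.sum_one, one_mul] at hs
  push_cast
  linarith

end

end Vale.Agent.P114.Mv
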