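import Vale.Agent.P114.Mv.Functional
import Vale.Agent.P114.Mv.Piece
import Mathlib.Data.Finset.Lattice.Fold

/-! # P114, several parameters: the setting of the dimension theorem -/

namespace Vale.Agent.P114.Mv

noncomputable section

open scoped Classical Matrix
open Finset MvPolynomial

/-- A family with slopes `± θ ^ a` at a good parameter. -/
structure Env (ι : Type) [Fintype ι] (s k : ℕ) where
  p : ι → ℝ
  σ : ι → Bool
  a : ι → Fin s → ℕ
  c : ι → Fin k → MP s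
  θ : Fin s → ℝ
  pos : ∀ i, 0 < p i
  sum_one : ∑ i, p i = 1
  a_ne : ∀ i, a i ≠ 0
  h01 : ∀ j, θ j ∈ Set.Ioo (0 : ℝ) 1
  indep : ∀ P : MP s, P ≠ 0 → ev θ P ≠ 0
  good : GoodPt (mslope σ a) c θ
  nonempty : Nonempty ι

namespace Env

variable {ι : Type} [Fintype ι] {s k : ℕ} (E : Env ι s k)

/-- Formal slopes. -/
def rP : ι → MP s := mslope E.σ E.a

/-- Real slopes. -/
def rr : ι → ℝ := rrOf E.θ E.rP

/-- Scalar translations. -/
def tg (g : Fin k → ℝ) : ι → ℝ := tgOf E.θ E.c g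

/-- The largest absolute slope. -/
def qmax : ℝ := haveI := E.nonempty; univ.sup' univ_nonempty fun i => |E.rr i|

/-- The smallest absolute slope. -/
def amin : ℝ := haveI := E.nonempty; univ.inf' univ_nonempty fun i => |E.rr i|

/-- A bound for the translations. -/
def tmax (g : Fin k → ℝ) : ℝ := ∑ i, |E.tg g i|

/-- The formal entropy rate. -/
def hform : ℝ := ⨅ n : ℕ, ent (wt (n := n + 1) E.p)
  (fun w => (slope E.rP w, trans E.rP E.c w)) / ((n + 1 : ℕ) : ℝ)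

/-- The scalar system of `g` reaches the smaller of one and the formal rate over the exponent. -/
def Reach (g : Fin k → ℝ) : Prop :=
  ∃ D : ℝ, Low E.p E.rr (E.tg g) E.qmax D ∧
    min (lyap E.p E.rr) E.hform ≤ D * lyap E.p E.rr

theorem rr_bound (i : ι) : 0 < |E.rr i| ∧ |E.rr i| < 1 := by
  have hP := mslope_ne_zero E.σ E.a i
  refine ⟨abs_pos.2 (E.indep _ hP), ?_⟩
  obtain ⟨j, hj⟩ := Function.ne_iff.1 (E.a_ne i)
  simp only [rr, rrOf, rP, mslope, ev, AlgHom.toRingHom_eq_coe, RingHom.coe_coe, aeval_monomial,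
    Finsupp.prod_fintype _ _ fun _ => pow_zero _, abs_mul]
  have h1 : |(algebraMap ℤ ℝ) (if E.σ i then 1 else -1)| = 1 := by split_ifs <;> simp
  rw [h1, one_mul, abs_prod]
  refine lt_of_lt_of_eq (prod_lt_prod (g := fun _ => (1 : ℝ)) (fun l _ => ?_) (fun l _ => ?_)
    ⟨j, mem_univ j, ?_⟩) prod_const_one
  · rw [abs_pow]; exact pow_pos (abs_pos.2 (E.h01 l).1.ne') _
  · rw [abs_pow]; exact pow_le_one₀ (abs_nonneg _) (abs_le.2 ⟨by linarith [(E.h01 l).1], (E.h01 l).2.le⟩)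
  · rw [abs_pow, abs_of_pos (E.h01 j).1]
    exact pow_lt_one₀ (E.h01 j).1.le (E.h01 j).2 hj

theorem goodSys (g : Fin k → ℝ) : Good E.p E.rr (E.tg g) E.amin E.qmax (E.tmax g) := by
  have := E.nonempty
  exact ⟨E.pos, E.sum_one, (lt_inf'_iff _).2 fun i _ => (E.rr_bound i).1,
    fun i => inf'_le _ (mem_univ i), fun i => le_sup' (fun i => |E.rr i|) (mem_univ i),
    (sup'_lt_iff _).2 fun i _ => (E.rr_bound i).2, sum_nonneg fun i _ => abs_nonneg _,
    fun i => single_le_sum (fun i _ => abs_nonneg (E.tg g i)) (mem_univ i)⟩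

theorem amin_pos : 0 < E.amin := (E.goodSys 0).a_pos

theorem amin_le_one : E.amin ≤ 1 := by
  have := E.nonempty
  exact ((E.goodSys 0).a_le (Classical.arbitrary ι)).trans (E.rr_bound _).2.le

theorem chi_pos : 0 < lyap E.p E.rr := by
  have := E.nonempty
  exact sum_pos (fun i _ => mul_pos (E.pos i) (neg_pos.2 (Real.log_neg (E.rr_bound i).1
    (E.rr_bound i).2))) univ_nonempty

theorem exists_dimension (g : Fin k → ℝ) : ∃ D Cw : ℝ, 0 ≤ D ∧ D ≤ 1 ∧
    Win E.p E.rr (E.tg g) E.qmax D Cw ∧ Low E.p E.rr (E.tg g) E.qmax D := by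
  obtain ⟨Cw, h⟩ := dim_exists E.p E.rr E.amin E.qmax (E.tmax g)
  obtain ⟨D, h0, h1, hW, hL⟩ := h _ (E.goodSys g)
  exact ⟨D, Cw, h0, h1, hW, hL⟩

theorem slope_eq_iff {n : ℕ} (v w : Fin n → ι) :
    slope E.rr v = slope E.rr w ↔ slope E.rP v = slope E.rP w := by
  simp only [rr, slope_rrOf]
  refine ⟨fun h => ?_, fun h => by rw [h]⟩
  by_contra hne
  exact E.indep _ (sub_ne_zero.2 hne) (by rw [map_sub, h, sub_self])

theorem trans_tg (g : Fin k → ℝ) {n : ℕ} (w : Fin n → ι) :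
    trans E.rr (E.tg g) w = dotE E.θ (trans E.rP E.c w) g := trans_tgOf _ _ _ _ _

/-- Rows of size at most `δ` at `g`. -/
def Small (g : Fin k → ℝ) (n : ℕ) (δ : ℝ) : Set (Fin k → MP s) :=
  {d | d ∈ Dif E.rP E.c n ∧ |dotE E.θ d g| ≤ δ}

theorem mem_small {g : Fin k → ℝ} {n : ℕ} {δ : ℝ} (hδ : 0 < δ) {v w : Fin n → ι}
    (hs : slope E.rr v = slope E.rr w)
    (h : ⌊trans E.rr (E.tg g) v / δ⌋ = ⌊trans E.rr (E.tg g) w / δ⌋) :
    trans E.rP E.c v - trans E.rP E.c w ∈ E.Small g n δ := by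
  refine ⟨⟨v, w, (E.slope_eq_iff v w).1 hs, rfl⟩, ?_⟩
  have hh := Int.abs_sub_lt_one_of_floor_eq_floor h
  rw [← sub_div, abs_div, abs_of_pos hδ, div_lt_one hδ] at hh
  rw [dotE_sub, ← E.trans_tg, ← E.trans_tg]
  exact hh.le

/-- A radius between the parameters and one. -/
def rad : ℝ := (1 + ∑ j, E.θ j / (1 - E.θ j)) / (2 + ∑ j, E.θ j / (1 - E.θ j))

theorem rad_spec : 0 < E.rad ∧ E.rad < 1 ∧ ∃ b, 0 ≤ b ∧ b < E.rad ∧ ∀ j, |E.θ j| ≤ b := by
  set S := ∑ j, E.θ j / (1 - E.θ j) with hS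
  have h0 : ∀ j, 0 ≤ E.θ j / (1 - E.θ j) := fun j =>
    div_nonneg (E.h01 j).1.le (by linarith [(E.h01 j).2])
  have hS0 : 0 ≤ S := sum_nonneg fun j _ => h0 j
  have hr : E.rad = (1 + S) / (2 + S) := rfl
  refine ⟨by rw [hr]; positivity, by rw [hr, div_lt_one (by linarith)]; linarith,
    S / (1 + S), by positivity, ?_, fun j => ?_⟩
  · rw [hr, div_lt_div_iff₀ (by linarith) (by linarith)]; nlinarith
  · have h1 : E.θ j / (1 - E.θ j) ≤ S := single_le_sum (fun j _ => h0 j) (mem_univ j)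
    rw [div_le_iff₀ (by linarith [(E.h01 j).2])] at h1
    rw [abs_of_pos (E.h01 j).1, le_div_iff₀ (by linarith)]
    linarith

/-- A bound for the weighted size of rows. -/
def rowSize : ℝ := 2 * transB E.rad E.c + 1

theorem one_le_rowSize : 1 ≤ E.rowSize := by
  have h1 := E.rad_spec
  have : 0 ≤ transB E.rad E.c := div_nonneg (sum_nonneg fun i _ => sum_nonneg fun b _ =>
    wnorm_nonneg h1.1.le _) (by linarith [h1.2.1])
  rw [rowSize]; linarith

theorem row_wnorm {n : ℕ} {d : Fin k → MP s}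
    (hd : d ∈ Dif E.rP E.c n ∨ ∃ j, d = Pi.single j 1) (b : Fin k) :
    wnorm E.rad (d b) ≤ E.rowSize :=
  wnorm_row_le E.rad_spec.1.le E.rad_spec.2.1 E.σ E.a_ne E.c hd b

theorem abs_ev_le_wnorm (P : MP s) : |ev E.θ P| ≤ wnorm E.rad P := by
  obtain ⟨b, hb0, hbR, hθ⟩ := E.rad_spec.2.2
  simpa using abs_ev_le hb0 hbR.le E.rad_spec.1 hθ P 0 fun ν h => absurd h (Nat.not_lt_zero _)

theorem ev_row_le {n : ℕ} {d : Fin k → MP s}
    (hd : d ∈ Dif E.rP E.c n ∨ ∃ j, d = Pi.single j 1) (b : Fin k) :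
    |ev E.θ (d b)| ≤ E.rowSize :=
  (E.abs_ev_le_wnorm _).trans (E.row_wnorm hd b)

theorem cofactor_le {n : ℕ} {BP : Matrix (Fin k) (Fin k) (MP s)}
    (hBP : ∀ x, BP x ∈ Dif E.rP E.c n ∨ ∃ j, BP x = Pi.single j 1) {m : ℕ} {d : Fin k → MP s}
    (hd : d ∈ Dif E.rP E.c m) (i : Fin k) :
    wnorm E.rad ((d ᵥ* BP.adjugate) i) ≤ k.factorial * E.rowSize ^ k := by
  rw [vecMul_adjugate_apply]
  refine wnorm_det_le E.rad_spec.1.le _ fun x y => ?_
  rw [Matrix.updateRow_apply]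
  split_ifs
  exacts [E.row_wnorm (Or.inl hd) y, E.row_wnorm (hBP x) y]

/-- There is a matrix of small rows whose volume is at least `cc`. -/
def Big (S : Finset (Fin k)) (g : Fin k → ℝ) (n : ℕ) (δ cc : ℝ) : Prop :=
  ∃ BP : Matrix (Fin k) (Fin k) (MP s),
    (∀ x, if x ∈ S then BP x = Pi.single x 1 else BP x ∈ E.Small g n δ) ∧ cc ≤ |ev E.θ BP.det|

/-- No short piece gains `ε` at step `M`. -/
def Fails (g : Fin k → ℝ) (D ε : ℝ) (n : ℕ → ℕ) (δ : ℕ → ℝ) : Prop :=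
  ∀ M m N : ℕ, 1 ≤ m → m ≤ M → n M = N + m →
    fine E.p E.rr (E.tg g) (n M) (δ M) < (m : ℝ) * (D * lyap E.p E.rr + ε) +
      ∑ u : Fin m → ι, wt E.p u * fine E.p E.rr (E.tg g) N (δ M / |slope E.rr u|)

end Env

end

end Vale.Agent.P114.Mv
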