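import Vale.Agent.P114.Mv.Digits
import Mathlib.LinearAlgebra.Matrix.Adjugate
import Mathlib.RingTheory.PowerSeries.Inverse

/-! # P114, several variables: algebra of power series functionals -/

namespace Vale.Agent.P114.Mv

noncomputable section

open scoped Classical Matrix
open Finset

variable {A : Type} [CommRing A] {k : ℕ} {ι : Type}

/-- A power series which is a polynomial of degree at most `N`. -/
def Pd (f : PowerSeries A) (N : ℕ) : Prop :=
  ∃ P : Polynomial A, P.natDegree ≤ N ∧ f = (P : PowerSeries A)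

theorem Pd.mono {f : PowerSeries A} {M N : ℕ} (h : Pd f M) (hMN : M ≤ N) : Pd f N := by
  obtain ⟨P, h1, h2⟩ := h; exact ⟨P, h1.trans hMN, h2⟩

theorem Pd.zero (N : ℕ) : Pd (0 : PowerSeries A) N := ⟨0, by simp, by simp⟩

theorem Pd.one (N : ℕ) : Pd (1 : PowerSeries A) N := ⟨1, by simp, by simp⟩

theorem Pd.add {f g : PowerSeries A} {N : ℕ} (hf : Pd f N) (hg : Pd g N) : Pd (f + g) N := by
  obtain ⟨P, h1, rfl⟩ := hf
  obtain ⟨Q, h3, rfl⟩ := hg
  exact ⟨P + Q, (Polynomial.natDegree_add_le _ _).trans (max_le h1 h3), by simp⟩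

theorem Pd.neg {f : PowerSeries A} {N : ℕ} (hf : Pd f N) : Pd (-f) N := by
  obtain ⟨P, h1, rfl⟩ := hf
  exact ⟨-P, by simpa using h1, (map_neg (Polynomial.coeToPowerSeries.ringHom) P).symm⟩

theorem Pd.sub {f g : PowerSeries A} {N : ℕ} (hf : Pd f N) (hg : Pd g N) : Pd (f - g) N := by
  rw [sub_eq_add_neg]; exact hf.add hg.neg

theorem Pd.mul {f g : PowerSeries A} {M N : ℕ} (hf : Pd f M) (hg : Pd g N) :
    Pd (f * g) (M + N) := by
  obtain ⟨P, h1, rfl⟩ := hf
  obtain ⟨Q, h3, rfl⟩ := hg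
  exact ⟨P * Q, Polynomial.natDegree_mul_le.trans (Nat.add_le_add h1 h3), by simp⟩

theorem Pd.sum {β : Type*} (S : Finset β) (f : β → PowerSeries A) {N : ℕ}
    (h : ∀ i ∈ S, Pd (f i) N) : Pd (∑ i ∈ S, f i) N := by
  induction S using Finset.induction_on with
  | empty => simpa using Pd.zero N
  | insert i S hi ih =>
    rw [sum_insert hi]
    exact (h i (mem_insert_self i S)).add (ih fun j hj => h j (mem_insert_of_mem hj))

theorem Pd.prod {β : Type*} (S : Finset β) (f : β → PowerSeries A) {N : ℕ}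
    (h : ∀ i ∈ S, Pd (f i) N) : Pd (∏ i ∈ S, f i) (S.card * N) := by
  induction S using Finset.induction_on with
  | empty => simpa using Pd.one (A := A) 0
  | insert i S hi ih =>
    rw [prod_insert hi, card_insert_of_notMem hi, add_mul, one_mul, add_comm]
    exact (h i (mem_insert_self i S)).mul (ih fun j hj => h j (mem_insert_of_mem hj))

theorem Pd.single (j b : Fin k) (N : ℕ) :
    Pd ((Pi.single j 1 : Fin k → PowerSeries A) b) N := by
  rw [Pi.single_apply]
  split_ifs
  exacts [Pd.one N, Pd.zero N]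

theorem Pd.det (M : Matrix (Fin k) (Fin k) (PowerSeries A)) {N : ℕ} (h : ∀ i j, Pd (M i j) N) :
    Pd M.det (k * N) := by
  rw [Matrix.det_apply']
  refine Pd.sum _ _ fun σ _ => ?_
  have h1 : Pd (((Equiv.Perm.sign σ : ℤ) : PowerSeries A)) 0 :=
    ⟨((Equiv.Perm.sign σ : ℤ) : Polynomial A), le_of_eq (Polynomial.natDegree_intCast _),
      (map_intCast (Polynomial.coeToPowerSeries.ringHom (R := A)) (Equiv.Perm.sign σ : ℤ)).symm⟩
  have h2 := Pd.prod univ (fun i => M (σ i) i) (N := N) fun i _ => h _ _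
  rw [card_univ, Fintype.card_fin] at h2
  simpa using h1.mul h2

theorem Pd.adjugate (M : Matrix (Fin k) (Fin k) (PowerSeries A)) {N : ℕ}
    (h : ∀ i j, Pd (M i j) N) (i j : Fin k) : Pd (M.adjugate i j) (k * N) := by
  rw [Matrix.adjugate_apply]
  refine Pd.det _ fun a b => ?_
  rw [Matrix.updateRow_apply]
  split_ifs
  exacts [Pd.single i b N, h a b]

theorem Pd.coeff_eq_zero {f : PowerSeries A} {N i : ℕ} (h : Pd f N) (hi : N < i) :
    PowerSeries.coeff i f = 0 := by
  obtain ⟨P, h1, rfl⟩ := h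
  rw [Polynomial.coeff_coe]
  exact Polynomial.coeff_eq_zero_of_natDegree_lt (lt_of_le_of_lt h1 hi)

theorem Pd.exists_coeff {f : PowerSeries A} {N : ℕ} (h : Pd f N) (hf : f ≠ 0) :
    ∃ o, o ≤ N ∧ PowerSeries.coeff o f ≠ 0 := by
  by_contra hc
  push Not at hc
  refine hf (PowerSeries.ext fun i => ?_)
  rw [map_zero]
  by_cases hi : i ≤ N
  exacts [hc i hi, h.coeff_eq_zero (not_le.1 hi)]

theorem Pd.eq_zero {f : PowerSeries A} {N : ℕ} (h : Pd f N)
    (h0 : PowerSeries.X ^ (N + 1) ∣ f) : f = 0 := by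
  refine PowerSeries.ext fun i => ?_
  rw [map_zero]
  by_cases hi : i ≤ N
  exacts [PowerSeries.X_pow_dvd_iff.1 h0 i (Nat.lt_succ_of_le hi), h.coeff_eq_zero (not_le.1 hi)]

theorem Pd.mon (u : ι → A) (e : ι → ℕ) (i : ι) : Pd (mon u e i) (e i) :=
  ⟨Polynomial.C (u i) * Polynomial.X ^ e i, Polynomial.natDegree_C_mul_X_pow_le _ _,
    by simp [Vale.Agent.P114.Mv.mon]⟩

theorem Pd.trans (u : ι → A) {e : ι → ℕ} {Am : ℕ} (he : ∀ i, e i ≤ Am)
    (cS : ι → Fin k → PowerSeries A) {d0 : ℕ} (hc : ∀ i b, Pd (cS i b) d0) :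
    ∀ {n : ℕ} (w : Fin n → ι) (b : Fin k),
      Pd (Vale.Agent.P114.trans (Vale.Agent.P114.Mv.mon u e) cS w b) (Am * n + d0)
  | 0, w, b => by simpa [Vale.Agent.P114.trans] using Pd.zero d0
  | n + 1, w, b => by
    rw [Vale.Agent.P114.trans]
    simp only [Pi.add_apply, Pi.smul_apply, smul_eq_mul]
    refine ((hc _ b).mono (Nat.le_add_left _ _)).add ?_
    refine (((Pd.mon u e (w 0)).mono (he _)).mul (Pd.trans u he cS hc (Fin.tail w) b)).mono ?_
    rw [Nat.mul_succ]
    omega

/-- Two series divisible by a high power: cancelling a factor with a low nonzero coefficient. -/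
theorem dvd_cancel [IsDomain A] : ∀ (o l : ℕ) {d f : PowerSeries A},
    PowerSeries.coeff o d ≠ 0 → PowerSeries.X ^ l ∣ d * f → PowerSeries.X ^ (l - o) ∣ f
  | 0, l, d, f, hd, h => by
    refine (Prime.pow_dvd_of_dvd_mul_left PowerSeries.X_prime l ?_ (by simpa using h))
    rw [PowerSeries.X_dvd_iff, ← PowerSeries.coeff_zero_eq_constantCoeff_apply]
    exact hd
  | o + 1, 0, d, f, hd, h => by simp
  | o + 1, l + 1, d, f, hd, h => by
    by_cases h0 : PowerSeries.X ∣ d
    · obtain ⟨d', rfl⟩ := h0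
      rw [Nat.add_sub_add_right]
      refine dvd_cancel o l (d := d') (fun h1 => hd ?_) ?_
      · rw [PowerSeries.coeff_succ_X_mul, h1]
      · rw [pow_succ', mul_assoc] at h
        exact (mul_dvd_mul_iff_left PowerSeries.X_ne_zero).1 h
    · exact (pow_dvd_pow _ (Nat.sub_le _ _)).trans
        (Prime.pow_dvd_of_dvd_mul_left PowerSeries.X_prime (l + 1) h0 h)

variable {R : Type} [CommRing R]

theorem trans_lin (r : ι → R) (c : ι → Fin k → R) (φ : (Fin k → R) →ₗ[R] R) :
    ∀ {n : ℕ} (w : Fin n → ι), trans r (fun i => φ (c i)) w = φ (trans r c w)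
  | 0, w => by simp [Vale.Agent.P114.trans]
  | n + 1, w => by
    rw [Vale.Agent.P114.trans, Vale.Agent.P114.trans, trans_lin r c φ (Fin.tail w), map_add,
      map_smul]

theorem slope_map {S : Type} [CommRing S] (g : R →+* S) (r : ι → R) {n : ℕ} (w : Fin n → ι) :
    slope (fun i => g (r i)) w = g (slope r w) := by
  simp [slope, map_prod]

theorem trans_map {S : Type} [CommRing S] (g : R →+* S) (r : ι → R) (c : ι → Fin k → R) :
    ∀ {n : ℕ} (w : Fin n → ι),
      trans (fun i => g (r i)) (fun i => g ∘ c i) w = g ∘ (trans r c w)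
  | 0, w => funext fun a => by simp [Vale.Agent.P114.trans]
  | n + 1, w => funext fun a => by
    rw [Vale.Agent.P114.trans, Vale.Agent.P114.trans, trans_map g r c (Fin.tail w)]
    simp

/-- A functional given by some of the cofactor coordinates. -/
def lf (s : Set (Fin k)) (M : Matrix (Fin k) (Fin k) R) (z : Fin k → R) :
    (Fin k → R) →ₗ[R] R where
  toFun v := ∑ i, if i ∈ s then 0 else (v ᵥ* M.adjugate) i * z i
  map_add' u v := by
    rw [← sum_add_distrib]
    refine sum_congr rfl fun i _ => ?_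
    split_ifs <;> simp [Matrix.add_vecMul, add_mul]
  map_smul' a v := by
    simp only [smul_eq_mul, RingHom.id_apply, mul_sum]
    refine sum_congr rfl fun i _ => ?_
    split_ifs <;> simp [Matrix.smul_vecMul, mul_assoc]

theorem lf_apply (s : Set (Fin k)) (M : Matrix (Fin k) (Fin k) R) (z : Fin k → R)
    (v : Fin k → R) :
    lf s M z v = ∑ i, if i ∈ s then 0 else (v ᵥ* M.adjugate) i * z i := rfl

theorem det_smul_eq' (M : Matrix (Fin k) (Fin k) R) (d : Fin k → R) :
    M.det • d = ∑ a, (d ᵥ* M.adjugate) a • M a := by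
  rw [← Matrix.vecMul_eq_sum, Matrix.vecMul_vecMul, Matrix.adjugate_mul, Matrix.vecMul_smul,
    Matrix.vecMul_one]

/-- The functional of the rows outside `s` is the determinant times the original one, up to the
values on the rows in `s`. -/
theorem lf_det_dvd (s : Set (Fin k)) (M : Matrix (Fin k) (Fin k) R) (φ : (Fin k → R) →ₗ[R] R)
    (x : R) (hx : ∀ i ∈ s, x ∣ φ (M i)) (v : Fin k → R) :
    x ∣ M.det * φ v - lf s M (fun i => φ (M i)) v := by
  have h : M.det * φ v = ∑ a, (v ᵥ* M.adjugate) a * φ (M a) := by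
    rw [← smul_eq_mul, ← map_smul, det_smul_eq', map_sum]
    exact sum_congr rfl fun a _ => by rw [map_smul, smul_eq_mul]
  rw [h, lf_apply, ← sum_sub_distrib]
  refine dvd_sum fun i _ => ?_
  by_cases hi : i ∈ s
  · rw [if_pos hi, sub_zero]; exact Dvd.dvd.mul_left (hx i hi) _
  · rw [if_neg hi, sub_self]; exact dvd_zero x

/-- Cofactor coordinates put at separated degrees. -/
theorem lf_sep [IsDomain A] (s : Set (Fin k)) (M : Matrix (Fin k) (Fin k) (PowerSeries A))
    {D : ℕ} {v : Fin k → PowerSeries A} (hD : ∀ i, Pd ((v ᵥ* M.adjugate) i) D) :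
    Pd (lf s M (fun i => PowerSeries.X ^ ((D + 1) * (i : ℕ))) v) (D + (D + 1) * k) ∧
      (lf s M (fun i => PowerSeries.X ^ ((D + 1) * (i : ℕ))) v = 0 →
        ∀ i, i ∉ s → (v ᵥ* M.adjugate) i = 0) := by
  set co := v ᵥ* M.adjugate
  refine ⟨?_, fun h0 i0 hi0 => PowerSeries.ext fun x => ?_⟩
  · rw [lf_apply]
    refine Pd.sum _ _ fun i _ => ?_
    split_ifs
    · exact Pd.zero _
    have hX : Pd (PowerSeries.X ^ ((D + 1) * (i : ℕ)) : PowerSeries A) ((D + 1) * (i : ℕ)) :=
      ⟨Polynomial.X ^ ((D + 1) * (i : ℕ)), Polynomial.natDegree_X_pow_le _, by simp⟩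
    exact ((hD i).mul hX).mono (Nat.add_le_add_left (Nat.mul_le_mul_left _ i.isLt.le) _)
  rw [map_zero]
  rcases lt_or_ge D x with hx | hx
  · exact (hD i0).coeff_eq_zero hx
  have h' := congrArg (PowerSeries.coeff (x + (D + 1) * (i0 : ℕ))) h0
  rw [lf_apply, map_sum, map_zero, sum_eq_single i0 (fun i _ hi => ?_) (by simp), if_neg hi0,
    PowerSeries.coeff_mul_X_pow] at h'
  · exact h'
  · split_ifs
    · simp
    rw [PowerSeries.coeff_mul_X_pow']
    split_ifs with hle
    · refine (hD i).coeff_eq_zero ?_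
      rcases lt_or_gt_of_ne (fun h => hi (Fin.ext h) : (i : ℕ) ≠ i0) with hlt | hlt
      · have : (D + 1) * ((i : ℕ) + 1) ≤ (D + 1) * (i0 : ℕ) := Nat.mul_le_mul_left _ hlt
        rw [mul_add, mul_one] at this
        omega
      · have : (D + 1) * ((i0 : ℕ) + 1) ≤ (D + 1) * (i : ℕ) := Nat.mul_le_mul_left _ hlt
        rw [mul_add, mul_one] at this
        omega
    · rfl

end

end Vale.Agent.P114.Mv
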