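import Vale.Agent.P114.Mv.Share

/-! # P114, several variables: iterating the share over blocks -/

namespace Vale.Agent.P114.Mv

noncomputable section

open scoped Classical
open Finset
open Vale.Agent.P114.Trans (pre pre_eq)

variable {ι : Type} [Fintype ι]

/-- An observable of all levels which determines a class and some digits of its first block,
and after that the observable of the rest, carries linearly many times their entropy. -/
theorem block_iter (L δ : ℝ) (hL : 0 < L) (hLι : Real.log (Fintype.card ι) ≤ L) (hδ : 0 < δ) :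
    ∃ κ : ℝ, 0 < κ ∧ κ ≤ 1 ∧ ∀ {A : Type} [CommRing A] [IsDomain A], Sep A →
      ∀ (p : ι → ℝ), (∀ i, 0 ≤ p i) → ∑ i, p i = 1 →
      ∀ (u : ι → A) (e : ι → ℕ), (∀ i, 0 < e i) →
      ∀ (ψ : ι → PowerSeries A) (m N L1 : ℕ), L1 ≤ N → ∀ {γ β : Type} (cl : (Fin m → ι) → γ)
        (X : ∀ n : ℕ, (Fin n → ι) → β),
        (∀ v w, cl v = cl w → slope (mon u e) v = slope (mon u e) w) →
        (∀ M, N ≤ M → ∀ (a a' : Fin m → ι) (v v' : Fin M → ι),
          slope (mon u e) a = slope (mon u e) a' → slope (mon u e) v = slope (mon u e) v' →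
          X (M + m) (joinEquiv ι M m (a, v)) = X (M + m) (joinEquiv ι M m (a', v')) →
            cl a = cl a' ∧ pre (dig u e ψ (joinEquiv ι M m (a, v))) L1 =
              pre (dig u e ψ (joinEquiv ι M m (a', v'))) L1) →
        (∀ M, N ≤ M → ∀ (a : Fin m → ι) (v v' : Fin M → ι),
          slope (mon u e) v = slope (mon u e) v' →
          X (M + m) (joinEquiv ι M m (a, v)) = X (M + m) (joinEquiv ι M m (a, v')) →
            X M v = X M v') →
        ∀ K : ℕ, (K : ℝ) *
            ((1 - κ) * cent (wt (n := m) p) cl (fun w => slope (mon u e) w) +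
              κ * cent (wt (n := m) p) (fun w => pre (dig u e ψ w) L1)
                (fun w => slope (mon u e) w) - κ * δ * L1) ≤
          cent (wt (n := N + m * K) p) (X (N + m * K)) (fun w => slope (mon u e) w) := by
  obtain ⟨κ, hκ, hκ1, hsh⟩ := share (ι := ι) L δ hL hLι hδ
  refine ⟨κ, hκ, hκ1, fun {A} _ _ hA p hp hp1 u e he ψ m N L1 hL1 {γ β} cl X hcl hZ hpeel => ?_⟩
  set r := mon u e
  set per := (1 - κ) * cent (wt (n := m) p) cl (fun w => slope r w) +
    κ * cent (wt (n := m) p) (fun w => pre (dig u e ψ w) L1) (fun w => slope r w) - κ * δ * L1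
  suffices h : ∀ K : ℕ, ∃ M, M = N + m * K ∧ ∃ (η : Type) (B : (Fin M → ι) → η),
      (∀ v w, B v = B w → slope r v = slope r w) ∧ (K : ℝ) * per ≤ cent (wt p) (X M) B by
    intro K
    obtain ⟨M, rfl, η, B, hB, hle⟩ := h K
    exact hle.trans (cent_anti_right (wt_nonneg hp) fun v w h => hB v w h)
  intro K
  induction K with
  | zero =>
    exact ⟨N + m * 0, rfl, _, fun w => slope r w, fun _ _ h => h,
      by simpa using cent_nonneg (wt_nonneg hp) _ _⟩
  | succ K ih =>
    obtain ⟨M, hM, η, B, hB, hle⟩ := ih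
    have hNM : N ≤ M := by omega
    refine ⟨M + m, by rw [hM, Nat.mul_succ]; omega, _,
      fun w => (slope r ((joinEquiv ι M m).symm w).1, B ((joinEquiv ι M m).symm w).2),
      fun v w h => ?_, ?_⟩
    · obtain ⟨h1, h2⟩ := Prod.mk.inj h
      rw [← (joinEquiv ι M m).apply_symm_apply v, ← (joinEquiv ι M m).apply_symm_apply w,
        slope_join, slope_join, h1, hB _ _ h2]
    set P := wt (n := m) p
    set Q := wt (n := M) p
    have hP : 0 ≤ P := wt_nonneg hp
    have hQ : 0 ≤ Q := wt_nonneg hp
    set PQ := prodW P Q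
    have hPQ : 0 ≤ PQ := prodW_nonneg hP hQ
    let a : (Fin m → ι) → Fin L1 → A := fun w => pre (dig u e ψ w) L1
    let W : (Fin m → ι) × (Fin M → ι) → β := fun v => X (M + m) (joinEquiv ι M m v)
    let Y : (Fin m → ι) × (Fin M → ι) → PowerSeries A × η := fun v => (slope r v.1, B v.2)
    have e0 : cent (wt (n := M + m) p) (X (M + m))
        (fun w => (slope r ((joinEquiv ι M m).symm w).1, B ((joinEquiv ι M m).symm w).2)) =
        cent PQ W Y := by
      rw [← cent_join p M m]
      refine cent_congr_right _ fun v w => ?_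
      simp only [Y, Equiv.symm_apply_apply]
    have f1 := cent_chain PQ (fun v => (a v.1, cl v.1)) W Y
    have f2 := cent_chain PQ W (fun v => (a v.1, cl v.1)) Y
    have f3 : cent PQ (fun v => ((a v.1, cl v.1), W v)) Y =
        cent PQ (fun v => (W v, (a v.1, cl v.1))) Y :=
      cent_congr_left hPQ fun v w _ => by simp only [Prod.mk.injEq]; tauto
    have f4 : cent P (fun w => (a w, cl w)) (fun w => slope r w) ≤
        cent PQ (fun v => (a v.1, cl v.1)) Y := by
      rw [← cent_prod_fst_snd hP hQ (sum_wt hp1 M) (fun w => (a w, cl w)) (fun w => slope r w)]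
      exact cent_anti_right hPQ fun v w h => by simp only [Prod.mk.injEq] at h; simp [Y, h]
    have f5 : cent Q (X M) B ≤ cent PQ W (fun v => ((a v.1, cl v.1), Y v)) := by
      refine le_trans ?_ (cent_anti_right hPQ (Y' := fun v => (B v.2, v.1)) fun v w h => ?_)
      · rw [cent_slice hP hQ]
        calc cent Q (X M) B = ∑ x, P x * cent Q (X M) B := by
              rw [← sum_mul, sum_wt hp1, one_mul]
          _ ≤ _ := sum_le_sum fun x _ => mul_le_mul_of_nonneg_left
              (cent_mono_left hQ fun v w h hb => hpeel M hNM x v w (hB v w hb) h) (hP x)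
      · simp only [Prod.mk.injEq] at h
        simp [Y, h.1, h.2]
    have hdet : ∀ v w, W v = W w → Y v = Y w → cl v.1 = cl w.1 ∧
        pre (dig u e ψ (joinEquiv ι M m v)) L1 = pre (dig u e ψ (joinEquiv ι M m w)) L1 :=
      fun v w h hy => hZ M hNM v.1 w.1 v.2 w.2 (Prod.mk.inj hy).1
        (hB _ _ (Prod.mk.inj hy).2) h
    have f6 : cent PQ (fun v => (a v.1, cl v.1)) (fun v => (W v, Y v)) ≤
        (1 - κ) * cent P a cl + κ * δ * L1 := by
      refine le_trans (cent_mono_left hPQ (X := fun v => a v.1) fun v w h hy => ?_) ?_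
      · obtain ⟨h1, h2⟩ := Prod.mk.inj hy
        exact Prod.ext h (hdet v w h1 h2).1
      refine le_trans (le_of_eq (cent_congr_right (Y' := fun v => ((W v, Y v), cl v.1)) _
        fun v w => ?_)) (hsh hA p hp hp1 u e he ψ m M L1 (hL1.trans hNM) cl
          (fun v => (W v, Y v)) hcl fun v w h _ => (hdet v w (Prod.mk.inj h).1 (Prod.mk.inj h).2).2)
      simp only [Prod.mk.injEq]
      exact ⟨fun h => ⟨h, (hdet v w h.1 h.2).1⟩, fun h => h.1⟩
    have g1 := cent_chain P a cl (fun w => slope r w)
    have g2 : cent P a (fun w => (cl w, slope r w)) = cent P a cl :=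
      cent_congr_right P fun v w => by
        simp only [Prod.mk.injEq]; exact ⟨fun h => h.1, fun h => ⟨h, hcl v w h⟩⟩
    have g3 := cent_le_add hP a cl (fun w => slope r w)
    rw [g2] at g1 g3
    have g4 := mul_le_mul_of_nonneg_left g3 hκ.le
    rw [e0]
    simp only [per] at hle ⊢
    push_cast
    simp only [a] at g1 g4 f6 ⊢
    linarith

end

end Vale.Agent.P114.Mv
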