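import Vale.Agent.P114.Mv.FormalAlg
import Vale.Agent.P114.Mv.FormalBlocks
import Vale.Agent.P114.Approx

/-! # P114, several variables: the formal digit entropy and its gain bound -/

namespace Vale.Agent.P114.Mv

noncomputable section

open scoped Classical
open Finset Filter
open Vale.Agent.P114.Trans (pre pre_eq)

variable {ι : Type} {A : Type} [CommRing A] {k : ℕ}

/-- The terms below `E` of a sequence. -/
def cut (E : ℕ) (f : ℕ → A) : ℕ → A := fun i => if i < E then f i else 0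

theorem cut_eq {E : ℕ} {f g : ℕ → A} : cut E f = cut E g ↔ ∀ i < E, f i = g i := by
  constructor
  · intro h i hi
    simpa [cut, hi] using congrFun h i
  · intro h
    funext i
    simp only [cut]
    split_ifs with hi
    exacts [h i hi, rfl]

theorem deg_join (e : ι → ℕ) (N : ℕ) : ∀ (m : ℕ) (v : Fin m → ι) (w : Fin N → ι),
    deg e (joinEquiv ι N m (v, w)) = deg e v + deg e w
  | 0, v, w => by simp [joinEquiv, deg]
  | m + 1, v, w => by
    rw [joinEquiv_succ]
    change deg e (n := N + m + 1) _ = _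
    have h := deg_join e N m (Fin.tail v) w
    simp only [deg] at h ⊢
    rw [Fin.sum_univ_succ (n := N + m), Fin.sum_univ_succ (n := m)]
    simp only [Fin.cons_zero, Fin.cons_succ, h, add_assoc]
    rfl

theorem deg_le (e : ι → ℕ) {Am : ℕ} (he : ∀ i, e i ≤ Am) {n : ℕ} (w : Fin n → ι) :
    deg e w ≤ Am * n := by
  calc deg e w ≤ ∑ _i : Fin n, Am := sum_le_sum fun i _ => he (w i)
    _ = Am * n := by simp [mul_comm]

variable [IsDomain A] {u : ι → A} {e : ι → ℕ} {ψ : ι → PowerSeries A}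

theorem slope_mon_ne (hu : ∀ i, u i ≠ 0) {n : ℕ} (w : Fin n → ι) : slope (mon u e) w ≠ 0 := by
  rw [slope_mon]
  exact mul_ne_zero
    (fun h => prod_ne_zero_iff.2 (fun i _ => hu (w i))
      (PowerSeries.C_injective (h.trans (map_zero _).symm)))
    (pow_ne_zero _ PowerSeries.X_ne_zero)

/-- Cutting the digits of the whole: the first block. -/
theorem cut_join_left (hu : ∀ i, u i ≠ 0) {m M : ℕ} {a a' : Fin m → ι} {v v' : Fin M → ι}
    (ha : slope (mon u e) a = slope (mon u e) a')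
    (h : cut (deg e (joinEquiv ι M m (a, v))) (dig u e ψ (joinEquiv ι M m (a, v))) =
      cut (deg e (joinEquiv ι M m (a', v'))) (dig u e ψ (joinEquiv ι M m (a', v')))) :
    cut (deg e a) (dig u e ψ a) = cut (deg e a') (dig u e ψ a') := by
  have hd := deg_eq_of_slope hu ha
  rw [← hd, cut_eq]
  intro i hi
  have h1 := congrFun h i
  simp only [cut, deg_join] at h1
  rw [if_pos (by omega), if_pos (by omega), dig_join_lt u e ψ a v hi,
    dig_join_lt u e ψ a' v' (hd ▸ hi)] at h1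
  exact h1

/-- Cutting the digits of the whole: the rest, given the first block. -/
theorem cut_join_right (hu : ∀ i, u i ≠ 0) {m M : ℕ} {a : Fin m → ι} {v v' : Fin M → ι}
    (hv : slope (mon u e) v = slope (mon u e) v')
    (h : cut (deg e (joinEquiv ι M m (a, v))) (dig u e ψ (joinEquiv ι M m (a, v))) =
      cut (deg e (joinEquiv ι M m (a, v'))) (dig u e ψ (joinEquiv ι M m (a, v')))) :
    cut (deg e v) (dig u e ψ v) = cut (deg e v') (dig u e ψ v') := by
  have hd := deg_eq_of_slope hu hv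
  rw [← hd, cut_eq]
  intro i hi
  have h1 := congrFun h (i + deg e a)
  simp only [cut, deg_join] at h1
  rw [if_pos (by omega), if_pos (by omega), dig_join, dig_join, slope_mon, coeff_shift,
    coeff_shift, if_pos (by omega), if_pos (by omega), Nat.add_sub_cancel] at h1
  exact mul_left_cancel₀ (show slope u a ≠ 0 from prod_ne_zero_iff.2 fun i _ => hu (a i))
    (add_left_cancel h1)

variable [Fintype ι] {p : ι → ℝ}

/-- The entropy of the digits below the degree of the slope, given the slope. -/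
def Hf (p : ι → ℝ) (u : ι → A) (e : ι → ℕ) (ψ : ι → PowerSeries A) (m : ℕ) : ℝ :=
  cent (wt (n := m) p) (fun w => cut (deg e w) (dig u e ψ w)) (fun w => slope (mon u e) w)

omit [IsDomain A] in
theorem Hf_nonneg (hp : ∀ i, 0 ≤ p i) (m : ℕ) : 0 ≤ Hf p u e ψ m :=
  cent_nonneg (wt_nonneg hp) _ _

omit [IsDomain A] in
theorem Hf_le (hp : ∀ i, 0 ≤ p i) (hp1 : ∑ i, p i = 1) (m : ℕ) :
    Hf p u e ψ m ≤ m * Real.log (Fintype.card ι) := by
  set S := (univ : Finset (Fin m → ι)).image fun w => cut (deg e w) (dig u e ψ w)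
  refine (cent_le_log (wt_nonneg hp) _ _ (fun _ => ((Fintype.card ι : ℝ)) ^ m) (fun _ => S)
    (fun w => mem_image_of_mem _ (mem_univ w)) fun w => ?_).trans (le_of_eq ?_)
  · have h := card_image_le (s := (univ : Finset (Fin m → ι)))
      (f := fun w => cut (deg e w) (dig u e ψ w))
    rw [card_univ, Fintype.card_fun, Fintype.card_fin] at h
    exact_mod_cast h
  · rw [← sum_mul, sum_wt hp1, one_mul, Real.log_pow]

/-- Exact superadditivity. -/
theorem Hf_add (hp : ∀ i, 0 ≤ p i) (hp1 : ∑ i, p i = 1) (hu : ∀ i, u i ≠ 0) (N m : ℕ) :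
    Hf p u e ψ m + Hf p u e ψ N ≤ Hf p u e ψ (N + m) := by
  set P := wt (n := m) p
  set Q := wt (n := N) p
  have hP : 0 ≤ P := wt_nonneg hp
  have hQ : 0 ≤ Q := wt_nonneg hp
  set PQ := prodW P Q
  have hPQ : 0 ≤ PQ := prodW_nonneg hP hQ
  let X : ∀ n : ℕ, (Fin n → ι) → ℕ → A := fun n w => cut (deg e w) (dig u e ψ w)
  let Y : (Fin m → ι) × (Fin N → ι) → PowerSeries A × PowerSeries A := fun v => (slope (mon u e) v.1, slope (mon u e) v.2)
  let W : (Fin m → ι) × (Fin N → ι) → ℕ → A := fun v => X _ (joinEquiv ι N m v)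
  have h0 : cent PQ W Y ≤ Hf p u e ψ (N + m) := by
    rw [Hf, ← cent_join p N m]
    refine cent_anti_right hPQ fun v w h => ?_
    obtain ⟨h1, h2⟩ := Prod.mk.inj h
    rw [slope_join, slope_join, h1, h2]
  have h1 : cent PQ (fun v => (W v, X m v.1)) Y ≤ cent PQ W Y :=
    cent_mono_left hPQ fun v w h hy =>
      Prod.ext h (cut_join_left (v := v.2) (v' := w.2) hu (Prod.mk.inj hy).1 h)
  have h2 := cent_chain PQ W (fun v => X m v.1) Y
  have h3 : Hf p u e ψ m ≤ cent PQ (fun v => X m v.1) Y := by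
    rw [Hf, ← cent_prod_fst_snd hP hQ (sum_wt hp1 N) (X m) (fun w => slope (mon u e) w)]
    exact cent_anti_right hPQ fun v w h => by
      simp only [Prod.mk.injEq] at h; simp [Y, h.1, h.2]
  have h4 : Hf p u e ψ N ≤ cent PQ W (fun v => (X m v.1, Y v)) := by
    refine le_trans ?_ (cent_anti_right hPQ (Y' := fun v => (slope (mon u e) v.2, v.1)) fun v w h => ?_)
    · rw [cent_slice hP hQ]
      calc Hf p u e ψ N = ∑ x, P x * Hf p u e ψ N := by rw [← sum_mul, sum_wt hp1, one_mul]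
        _ ≤ _ := sum_le_sum fun x _ => mul_le_mul_of_nonneg_left
            (cent_mono_left hQ fun v w h hs =>
              cut_join_right (a := x) (v := v) (v' := w) hu hs h) (hP x)
    · simp only [Prod.mk.injEq] at h
      simp [Y, h.1, h.2]
  linarith

/-- The supremum of the digit rates. -/
def Hsup (p : ι → ℝ) (u : ι → A) (e : ι → ℕ) (ψ : ι → PowerSeries A) : ℝ :=
  ⨆ n : ℕ, Hf p u e ψ (n + 1) / ((n + 1 : ℕ) : ℝ)

omit [IsDomain A] in
theorem Hf_le_sup (hp : ∀ i, 0 ≤ p i) (hp1 : ∑ i, p i = 1) (n : ℕ) :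
    Hf p u e ψ n ≤ Hsup p u e ψ * n := by
  cases n with
  | zero => simpa using Hf_le (u := u) (e := e) (ψ := ψ) hp hp1 0
  | succ n =>
    have hb : BddAbove (Set.range fun n : ℕ => Hf p u e ψ (n + 1) / ((n + 1 : ℕ) : ℝ)) :=
      ⟨Real.log (Fintype.card ι), by
        rintro _ ⟨j, rfl⟩
        simp only
        rw [div_le_iff₀ (by positivity), mul_comm]
        exact Hf_le hp hp1 (j + 1)⟩
    have h := le_ciSup hb n
    rw [div_le_iff₀ (by positivity)] at h
    exact h

theorem Hf_near (hp : ∀ i, 0 ≤ p i) (hp1 : ∑ i, p i = 1) (hu : ∀ i, u i ≠ 0) {η : ℝ}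
    (hη : 0 < η) : ∀ᶠ n : ℕ in atTop, (n : ℝ) * (Hsup p u e ψ - η) ≤ Hf p u e ψ n := by
  obtain ⟨n1, hn1⟩ := exists_lt_of_lt_ciSup
    (f := fun n : ℕ => Hf p u e ψ (n + 1) / ((n + 1 : ℕ) : ℝ))
    (show Hsup p u e ψ - η / 2 < Hsup p u e ψ by linarith)
  rw [lt_div_iff₀ (by positivity)] at hn1
  set m1 := n1 + 1
  set D := Hsup p u e ψ
  have hmul : ∀ q r : ℕ, (q : ℝ) * Hf p u e ψ m1 ≤ Hf p u e ψ (r + m1 * q) := by
    intro q r
    induction q with
    | zero => simpa using Hf_nonneg hp r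
    | succ q ih =>
      have h := Hf_add (u := u) (e := e) (ψ := ψ) hp hp1 hu (r + m1 * q) m1
      rw [show r + m1 * (q + 1) = r + m1 * q + m1 by ring]
      push_cast
      linarith
  have hD0 : 0 ≤ D := by
    have h := (Hf_nonneg (u := u) (e := e) (ψ := ψ) hp 1).trans (Hf_le_sup hp hp1 1)
    simpa using h
  obtain ⟨N0, hN0⟩ := exists_nat_ge (D * m1 / (η / 2))
  rw [div_le_iff₀ (by positivity)] at hN0
  filter_upwards [eventually_ge_atTop N0] with n hn
  have h := hmul (n / m1) (n % m1)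
  rw [Nat.mod_add_div] at h
  rcases le_or_gt D η with hDη | hDη
  · exact le_trans (mul_nonpos_of_nonneg_of_nonpos (Nat.cast_nonneg n) (by linarith))
      (Hf_nonneg hp n)
  have hr : ((n % m1 : ℕ) : ℝ) ≤ m1 := by exact_mod_cast (Nat.mod_lt n (Nat.succ_pos n1)).le
  have hn' : (N0 : ℝ) ≤ n := by exact_mod_cast hn
  have hd : (n : ℝ) = ((n % m1 : ℕ) : ℝ) + (m1 : ℝ) * ((n / m1 : ℕ) : ℝ) := by
    exact_mod_cast (Nat.mod_add_div n m1).symm
  have h1 := mul_le_mul_of_nonneg_left hn1.le (Nat.cast_nonneg (α := ℝ) (n / m1))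
  have h2 := mul_le_mul_of_nonneg_left hr (show 0 ≤ D - η / 2 by linarith)
  have h3 := mul_le_mul_of_nonneg_left hn' hη.le
  have h5 : (n : ℝ) * (D - η / 2) = ((n % m1 : ℕ) : ℝ) * (D - η / 2) +
      (m1 : ℝ) * ((n / m1 : ℕ) : ℝ) * (D - η / 2) := by rw [← add_mul, ← hd]
  have h6 : 0 ≤ η / 2 * (m1 : ℝ) := by positivity
  linarith

theorem le_of_mul_nat {x y C : ℝ} (h : ∀ j : ℕ, ((j : ℝ) + 1) * (x - y) ≤ C) : x ≤ y := by
  by_contra hlt
  push Not at hlt
  obtain ⟨j, hj⟩ := exists_nat_gt (C / (x - y))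
  rw [div_lt_iff₀ (by linarith)] at hj
  have := h j
  linarith

/-- The gain bound: digits up to any linear window cost at most the digit rate. -/
theorem Hf_gain (L δ : ℝ) (hL : 0 < L) (hLι : Real.log (Fintype.card ι) ≤ L) (hδ : 0 < δ) :
    ∃ κ : ℝ, 0 < κ ∧ κ ≤ 1 ∧ ∀ {A : Type} [CommRing A] [IsDomain A], Sep A →
      ∀ (p : ι → ℝ), (∀ i, 0 ≤ p i) → ∑ i, p i = 1 → ∀ (u : ι → A), (∀ i, u i ≠ 0) →
      ∀ (e : ι → ℕ), (∀ i, 0 < e i) → ∀ (ψ : ι → PowerSeries A) (n L1 : ℕ),
        κ * cent (wt (n := n) p) (fun w => pre (dig u e ψ w) L1) (fun w => slope (mon u e) w) ≤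
          Hsup p u e ψ * n - (1 - κ) * Hf p u e ψ n + κ * δ * L1 := by
  obtain ⟨κ, hκ, hκ1, hblk⟩ := block_iter (ι := ι) L δ hL hLι hδ
  refine ⟨κ, hκ, hκ1, fun {A} _ _ hA p hp hp1 u hu e he ψ n L1 => ?_⟩
  set s := fun {n : ℕ} (w : Fin n → ι) => slope (mon u e) w
  have h := hblk hA p hp hp1 u e he ψ n L1 L1 le_rfl
    (fun w => (s w, cut (deg e w) (dig u e ψ w))) (fun _ w => cut (deg e w) (dig u e ψ w))
    (fun v w h => (Prod.mk.inj h).1)
    (fun M hM a a' v v' ha hv hX => ⟨Prod.ext ha (cut_join_left hu ha hX), pre_eq.2 fun i hi => by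
      have hd := deg_eq_of_slope hu hv
      have hda := deg_eq_of_slope hu ha
      have := le_deg he v
      rw [deg_join, deg_join, ← hd, ← hda, cut_eq] at hX
      exact hX i (by omega)⟩)
    (fun M hM a v v' hv hX => cut_join_right hu hv hX)
  have e1 : cent (wt (n := n) p) (fun w => (s w, cut (deg e w) (dig u e ψ w)))
      (fun w => slope (mon u e) w) = Hf p u e ψ n :=
    cent_congr_left (wt_nonneg hp) fun v w hs => by simp [s, hs]
  set per := (1 - κ) * cent (wt (n := n) p) (fun w => (s w, cut (deg e w) (dig u e ψ w)))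
      (fun w => slope (mon u e) w) + κ * cent (wt (n := n) p) (fun w => pre (dig u e ψ w) L1)
      (fun w => slope (mon u e) w) - κ * δ * L1 with hper
  have h1 : per ≤ Hsup p u e ψ * n := by
    refine le_of_mul_nat (C := Hsup p u e ψ * L1) fun j => ?_
    have h2 := (h (j + 1)).trans (Hf_le_sup (u := u) (e := e) (ψ := ψ) hp hp1 (L1 + n * (j + 1)))
    push_cast at h2
    simp only [hper]
    linarith
  rw [hper, e1] at h1
  linarith

/-- The entropy of the slope is sublinear. -/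
theorem slope_small {R : Type*} [CommMonoid R] (hp : ∀ i, 0 ≤ p i) (hp1 : ∑ i, p i = 1)
    (r : ι → R) {η : ℝ} (hη : 0 < η) :
    ∀ᶠ m : ℕ in atTop, ent (wt (n := m) p) (fun w => slope r w) ≤ η * m := by
  obtain ⟨C, hC⟩ := log_le_linear (show 0 < η / 2 / ((Fintype.card ι : ℝ) + 1) by positivity)
  obtain ⟨N, hN⟩ := exists_nat_ge ((Fintype.card ι : ℝ) * |C| / (η / 2))
  rw [div_le_iff₀ (by positivity)] at hN
  filter_upwards [eventually_ge_atTop N] with m hm
  have hm' : (N : ℝ) ≤ m := by exact_mod_cast hm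
  have h1 := mul_le_mul_of_nonneg_left (hC m) (Nat.cast_nonneg (α := ℝ) (Fintype.card ι))
  have h2 := mul_le_mul_of_nonneg_left (le_abs_self C) (Nat.cast_nonneg (α := ℝ) (Fintype.card ι))
  have h3 := mul_le_mul_of_nonneg_left hm' (show 0 ≤ η / 2 by linarith)
  have h4 : (Fintype.card ι : ℝ) * (η / 2 / ((Fintype.card ι : ℝ) + 1) * m) ≤ η / 2 * m := by
    rw [← mul_assoc, ← mul_div_assoc]
    refine mul_le_mul_of_nonneg_right ?_ (Nat.cast_nonneg m)
    rw [div_le_iff₀ (by positivity)]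
    linarith
  have := ent_slope_le hp hp1 r m
  linarith

end

end Vale.Agent.P114.Mv
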