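import Vale.Agent.P114.Mv.FormalAlg
import Vale.Agent.P114.Mv.FormalHf
import Vale.Agent.P114.RandomWalk
import Mathlib.RingTheory.Localization.FractionRing

/-! # P114, several variables: spans of differences with small formal value, perturbed functionals -/

namespace Vale.Agent.P114.Mv

noncomputable section

open scoped Classical Matrix
open Finset Filter

variable {ι : Type} {A : Type} [CommRing A] [IsDomain A] {k : ℕ}

/-- The fraction field of the power series. -/
abbrev FR (A : Type) [CommRing A] : Type := FractionRing (PowerSeries A)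

/-- The embedding of power series into their fraction field. -/
def toK : PowerSeries A →+* FR A := algebraMap _ _

theorem toK_inj : Function.Injective (toK (A := A)) :=
  IsFractionRing.injective (PowerSeries A) (FR A)

/-- The slopes in the fraction field. -/
def rK (u : ι → A) (e : ι → ℕ) (i : ι) : FR A := toK (mon u e i)

/-- The translations in the fraction field. -/
def cK (cS : ι → Fin k → PowerSeries A) (i : ι) : Fin k → FR A := toK ∘ cS i

variable {u : ι → A} {e : ι → ℕ} {cS : ι → Fin k → PowerSeries A}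

theorem slope_rK {n : ℕ} (w : Fin n → ι) : slope (rK u e) w = toK (slope (mon u e) w) :=
  slope_map toK (mon u e) w

theorem slope_rK_iff {n : ℕ} (v w : Fin n → ι) :
    slope (rK u e) v = slope (rK u e) w ↔ slope (mon u e) v = slope (mon u e) w := by
  rw [slope_rK, slope_rK]; exact toK_inj.eq_iff

theorem rK_ne (hu : ∀ i, u i ≠ 0) (i : ι) : rK u e i ≠ 0 := by
  rw [rK, map_ne_zero_iff _ toK_inj, mon]
  exact mul_ne_zero (fun h => hu i (PowerSeries.C_injective (h.trans (map_zero _).symm)))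
    (pow_ne_zero _ PowerSeries.X_ne_zero)

theorem trans_cK {n : ℕ} (w : Fin n → ι) :
    trans (rK u e) (cK cS) w = toK ∘ trans (mon u e) cS w := trans_map toK (mon u e) cS w

theorem toK_sub (d d' : Fin k → PowerSeries A) :
    toK ∘ (d - d') = toK ∘ d - toK ∘ d' := funext fun a => map_sub toK (d a) (d' a)

theorem mem_diff {n : ℕ} {x : Fin k → FR A} : x ∈ Diff (rK u e) (cK cS) n ↔
    ∃ v w : Fin n → ι, slope (mon u e) v = slope (mon u e) w ∧
      x = toK ∘ (trans (mon u e) cS v - trans (mon u e) cS w) := by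
  simp only [Diff, slope_rK_iff, trans_cK, toK_sub, Set.mem_ofPred_eq]

theorem toK_comp_inj {d : Fin k → PowerSeries A} (h : toK ∘ d = (0 : Fin k → FR A)) : d = 0 :=
  funext fun a => toK_inj ((congrFun h a).trans (map_zero _).symm)

theorem diff_pd [Fintype ι] {d0 : ℕ} (hc : ∀ i b, Pd (cS i b) d0) {n : ℕ}
    {v w : Fin n → ι} (b : Fin k) :
    Pd ((trans (mon u e) cS v - trans (mon u e) cS w) b) (univ.sup e * n + d0) :=
  (Pd.trans u (fun i => le_sup (f := e) (mem_univ i)) cS hc v b).sub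
    (Pd.trans u (fun i => le_sup (f := e) (mem_univ i)) cS hc w b)

/-- A matrix of differences and unit vectors comes from power series. -/
theorem rows_lift [Fintype ι] {d0 : ℕ} (hc : ∀ i b, Pd (cS i b) d0) {n : ℕ}
    {S : Set (Fin k → FR A)} (hS : S ⊆ Diff (rK u e) (cK cS) n)
    {B : Matrix (Fin k) (Fin k) (FR A)} (hB : ∀ a, B a ∈ S ∨ ∃ j, B a = Pi.single j 1) :
    ∃ M : Matrix (Fin k) (Fin k) (PowerSeries A),
      (∀ a b, Pd (M a b) (univ.sup e * n + d0)) ∧ B = M.map toK ∧
        ∀ a, B a ∈ S → ∃ v w : Fin n → ι, slope (mon u e) v = slope (mon u e) w ∧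
          M a = trans (mon u e) cS v - trans (mon u e) cS w := by
  have h : ∀ a, ∃ x : Fin k → PowerSeries A, B a = toK ∘ x ∧
      (∀ b, Pd (x b) (univ.sup e * n + d0)) ∧ (B a ∈ S → ∃ v w : Fin n → ι,
        slope (mon u e) v = slope (mon u e) w ∧
          x = trans (mon u e) cS v - trans (mon u e) cS w) := by
    intro a
    by_cases ha : B a ∈ S
    · obtain ⟨v, w, hs, hx⟩ := mem_diff.1 (hS ha)
      exact ⟨_, hx, fun b => diff_pd hc b, fun _ => ⟨v, w, hs, rfl⟩⟩
    · obtain ⟨j, hj⟩ := (hB a).resolve_left ha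
      refine ⟨Pi.single j 1, ?_, fun b => Pd.single j b _, fun h => absurd h ha⟩
      rw [hj]
      funext b
      simp [Pi.single_apply, apply_ite (toK (A := A))]
  choose x hx1 hx2 hx3 using h
  exact ⟨Matrix.of x, hx2, Matrix.ext fun a b => congrFun (hx1 a) b, hx3⟩

/-- The span of the differences with a formal value of high order. -/
def sm (u : ι → A) (e : ι → ℕ) (cS : ι → Fin k → PowerSeries A)
    (φ0 : (Fin k → PowerSeries A) →ₗ[PowerSeries A] PowerSeries A) (Q n : ℕ) :
    Submodule (FR A) (Fin k → FR A) :=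
  Submodule.span (FR A) {x | ∃ v w : Fin n → ι, slope (mon u e) v = slope (mon u e) w ∧
    PowerSeries.X ^ (Q * n) ∣ φ0 (trans (mon u e) cS v - trans (mon u e) cS w) ∧
    x = toK ∘ (trans (mon u e) cS v - trans (mon u e) cS w)}

theorem map_det_toK (M : Matrix (Fin k) (Fin k) (PowerSeries A)) :
    (M.map toK).det = toK M.det := by
  rw [← RingHom.mapMatrix_apply, ← RingHom.map_det]

theorem vecMul_adjugate_toK (M : Matrix (Fin k) (Fin k) (PowerSeries A))
    (x : Fin k → PowerSeries A) (i : Fin k) :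
    ((toK ∘ x) ᵥ* (M.map toK).adjugate) i = toK ((x ᵥ* M.adjugate) i) := by
  rw [← RingHom.mapMatrix_apply, ← RingHom.map_adjugate, RingHom.mapMatrix_apply]
  simp [Matrix.vecMul, dotProduct]

/-- Members of the small span have a formal value of high order. -/
theorem sm_dvd [Fintype ι] {d0 : ℕ} (hc : ∀ i b, Pd (cS i b) d0)
    (φ0 : (Fin k → PowerSeries A) →ₗ[PowerSeries A] PowerSeries A) (Q n : ℕ)
    {x : Fin k → PowerSeries A} (hx : toK ∘ x ∈ sm u e cS φ0 Q n) :
    PowerSeries.X ^ (Q * n - k * (univ.sup e * n + d0)) ∣ φ0 x := by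
  set S : Set (Fin k → FR A) := {y | ∃ v w : Fin n → ι, slope (mon u e) v = slope (mon u e) w ∧
    PowerSeries.X ^ (Q * n) ∣ φ0 (trans (mon u e) cS v - trans (mon u e) cS w) ∧
    y = toK ∘ (trans (mon u e) cS v - trans (mon u e) cS w)}
  obtain ⟨B, hdet, hrows, hspan, -⟩ := exists_rows S
  obtain ⟨M, hM, rfl, hMS⟩ := rows_lift hc
    (fun y (hy : y ∈ S) => mem_diff.2 (by
      obtain ⟨v, w, hs, -, hy⟩ := hy; exact ⟨v, w, hs, hy⟩)) hrows
  rw [map_det_toK, map_ne_zero_iff _ toK_inj] at hdet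
  obtain ⟨o, ho, ho'⟩ := (Pd.det M hM).exists_coeff hdet
  set s : Set (Fin k) := {a | M.map toK a ∈ S}
  have h1 := lf_det_dvd s M φ0 (PowerSeries.X ^ (Q * n)) (fun a ha => by
    obtain ⟨v, w, -, hd, hy⟩ := (show M.map toK a ∈ S from ha)
    have : M a = trans (mon u e) cS v - trans (mon u e) cS w :=
      funext fun b => toK_inj (congrFun hy b)
    rw [this]; exact hd) x
  have h2 : lf s M (fun a => φ0 (M a)) x = 0 := by
    rw [lf_apply]
    refine sum_eq_zero fun a _ => ?_
    split_ifs with ha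
    · rfl
    have h3 := coef_eq_zero (M.map toK) ((le_of_eq hspan) hx) ha
    rw [vecMul_adjugate_toK, map_eq_zero_iff _ toK_inj] at h3
    rw [h3, zero_mul]
  rw [h2, sub_zero] at h1
  exact (pow_dvd_pow _ (Nat.sub_le_sub_left ho _)).trans (dvd_cancel o _ ho' h1)

/-- Small differences of bounded level vanish eventually. -/
theorem sm_avoid [Fintype ι] {d0 : ℕ} (hc : ∀ i b, Pd (cS i b) d0)
    (φ0 : (Fin k → PowerSeries A) →ₗ[PowerSeries A] PowerSeries A)
    (hΦ : ∀ (m : ℕ) (v w : Fin m → ι), slope (mon u e) v = slope (mon u e) w →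
      φ0 (trans (mon u e) cS v - trans (mon u e) cS w) = 0 →
        trans (mon u e) cS v = trans (mon u e) cS w)
    {Q : ℕ} (hQ : k * (univ.sup e + d0) < Q) (M0 : ℕ) :
    ∀ᶠ n : ℕ in atTop, ∀ (m : Fin M0) (v w : Fin m.1 → ι),
      slope (mon u e) v = slope (mon u e) w →
      toK ∘ (trans (mon u e) cS v - trans (mon u e) cS w) ∈ sm u e cS φ0 Q n →
        trans (mon u e) cS v - trans (mon u e) cS w = 0 := by
  rw [eventually_all]; intro m
  rw [eventually_all]; intro v
  rw [eventually_all]; intro w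
  by_cases hd : trans (mon u e) cS v - trans (mon u e) cS w = 0
  · exact Eventually.of_forall fun n _ _ => hd
  by_cases hs : slope (mon u e) v = slope (mon u e) w
  swap
  · exact Eventually.of_forall fun n h _ => absurd h hs
  have hne : φ0 (trans (mon u e) cS v - trans (mon u e) cS w) ≠ 0 := fun h =>
    hd (sub_eq_zero.2 (hΦ _ v w hs h))
  obtain ⟨i, hi⟩ : ∃ i, PowerSeries.coeff i
      (φ0 (trans (mon u e) cS v - trans (mon u e) cS w)) ≠ 0 := by
    by_contra hcon
    push Not at hcon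
    exact hne (PowerSeries.ext fun i => by rw [hcon i, map_zero])
  filter_upwards [eventually_ge_atTop (i + 1)] with n hn _ hmem
  have h := PowerSeries.X_pow_dvd_iff.1 (sm_dvd hc φ0 Q n hmem) i ?_
  · exact absurd h hi
  have h1 : univ.sup e * n + d0 ≤ (univ.sup e + d0) * n := by
    rw [add_mul]; exact Nat.add_le_add_left (Nat.le_mul_of_pos_right _ (by omega)) _
  have h2 : k * (univ.sup e * n + d0) ≤ k * (univ.sup e + d0) * n := by
    rw [mul_assoc]; exact Nat.mul_le_mul_left _ h1
  have h3 : (k * (univ.sup e + d0) + 1) * n ≤ Q * n := Nat.mul_le_mul_right _ hQ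
  rw [add_mul, one_mul] at h3
  omega

/-- The width of the window of the cofactor functional, per level. -/
def qwin (k Am d0 : ℕ) : ℕ := 2 * (k + 1) * (Am + d0) * (k + 1) + k + 1

/-- Two functionals killing `L`: one congruent to the determinant times `φ0`, the other
separating the differences of level `m` outside `L`. -/
theorem exists_functionals [Fintype ι] {d0 : ℕ} (hc : ∀ i b, Pd (cS i b) d0)
    (φ0 : (Fin k → PowerSeries A) →ₗ[PowerSeries A] PowerSeries A)
    (L : Submodule (FR A) (Fin k → FR A)) {m l0 : ℕ} (hm : 1 ≤ m)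
    (hL : L = Submodule.span (FR A) (Diff (rK u e) (cK cS) (m + 1) ∩ ↑L))
    (hl : ∀ x : Fin k → PowerSeries A, toK ∘ x ∈ L → PowerSeries.X ^ l0 ∣ φ0 x)
    (hl0 : univ.sup e * m + k * (univ.sup e * (m + 1) + d0) ≤ l0) :
    ∃ (o W : ℕ) (φ1 φF : (Fin k → PowerSeries A) →ₗ[PowerSeries A] PowerSeries A),
      W ≤ qwin k (univ.sup e) d0 * m ∧
      (∀ x, toK ∘ x ∈ L → φ1 x = 0 ∧ φF x = 0) ∧
      (∀ x, PowerSeries.X ^ o ∣ φ1 x) ∧
      (∀ x, ∀ E, E ≤ univ.sup e * m → PowerSeries.X ^ (E + o) ∣ φ1 x →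
        PowerSeries.X ^ E ∣ φ0 x) ∧
      ∀ v w : Fin m → ι, slope (mon u e) v = slope (mon u e) w →
        PowerSeries.X ^ W ∣ φF (trans (mon u e) cS v - trans (mon u e) cS w) →
          toK ∘ (trans (mon u e) cS v - trans (mon u e) cS w) ∈ L := by
  set T' := Diff (rK u e) (cK cS) (m + 1) ∩ (↑L : Set (Fin k → FR A))
  obtain ⟨B, hdet, hrows, hspan, -⟩ := exists_rows T'
  rw [← hL] at hspan
  obtain ⟨M, hM, rfl, -⟩ := rows_lift hc (fun y (hy : y ∈ T') => hy.1) hrows
  set Am := univ.sup e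
  rw [map_det_toK, map_ne_zero_iff _ toK_inj] at hdet
  have hex : ∃ o, PowerSeries.coeff o M.det ≠ 0 := by
    obtain ⟨o, -, ho⟩ := (Pd.det M hM).exists_coeff hdet; exact ⟨o, ho⟩
  set o := Nat.find hex
  have ho : PowerSeries.coeff o M.det ≠ 0 := Nat.find_spec hex
  have hol : o ≤ k * (Am * (m + 1) + d0) := by
    obtain ⟨o', ho', ho''⟩ := (Pd.det M hM).exists_coeff hdet
    exact (Nat.find_min' hex ho'').trans ho'
  have hodvd : PowerSeries.X ^ o ∣ M.det :=
    PowerSeries.X_pow_dvd_iff.2 fun i hi => by_contra fun h => Nat.find_min hex hi h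
  set s : Set (Fin k) := {a | M.map toK a ∈ T'}
  set Dg := (k + 1) * (Am * (m + 1) + d0)
  set φ1 := lf s M (fun a => φ0 (M a))
  set φF := lf s M (fun a => PowerSeries.X ^ ((Dg + 1) * (a : ℕ)))
  have hkill : ∀ x, toK ∘ x ∈ L → ∀ a, a ∉ s → (x ᵥ* M.adjugate) a = 0 := fun x hx a ha => by
    have h3 := coef_eq_zero (M.map toK) (hspan ▸ hx) ha
    rwa [vecMul_adjugate_toK, map_eq_zero_iff _ toK_inj] at h3
  have hcong : ∀ x, PowerSeries.X ^ l0 ∣ M.det * φ0 x - φ1 x := fun x =>
    lf_det_dvd s M φ0 _ (fun a ha => hl _ (show M.map toK a ∈ L from ha.2)) x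
  refine ⟨o, Dg + (Dg + 1) * k + 1, φ1, φF, ?_, fun x hx => ⟨?_, ?_⟩, fun x => ?_,
    fun x E hE hdvd => ?_, fun v w hvw hdvd => ?_⟩
  · have hm2 : Am * (m + 1) + d0 ≤ 2 * (Am + d0) * m := by
      have h1 : Am ≤ Am * m := Nat.le_mul_of_pos_right _ hm
      have h2 : d0 ≤ d0 * m := Nat.le_mul_of_pos_right _ hm
      rw [Nat.mul_succ, mul_assoc, add_mul]
      omega
    have hDg : Dg * (k + 1) ≤ 2 * (k + 1) * (Am + d0) * (k + 1) * m := by
      have h1 := Nat.mul_le_mul_right (k + 1) (Nat.mul_le_mul_left (k + 1) hm2)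
      refine h1.trans (le_of_eq ?_)
      ring
    have hk : k + 1 ≤ (k + 1) * m := Nat.le_mul_of_pos_right _ hm
    have e1 : qwin k Am d0 * m = 2 * (k + 1) * (Am + d0) * (k + 1) * m + (k + 1) * m := by
      rw [qwin]; ring
    have e2 : Dg + (Dg + 1) * k + 1 = Dg * (k + 1) + (k + 1) := by ring
    omega
  · rw [lf_apply]
    exact sum_eq_zero fun a _ => by
      split_ifs with ha
      exacts [rfl, by rw [hkill x hx a ha, zero_mul]]
  · rw [lf_apply]
    exact sum_eq_zero fun a _ => by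
      split_ifs with ha
      exacts [rfl, by rw [hkill x hx a ha, zero_mul]]
  · have h := dvd_sub (Dvd.dvd.mul_right hodvd (φ0 x))
      ((pow_dvd_pow (PowerSeries.X (R := A)) (show o ≤ l0 by omega)).trans (hcong x))
    rwa [sub_sub_cancel] at h
  · have h := dvd_add ((pow_dvd_pow (PowerSeries.X (R := A))
      (show E + o ≤ l0 by omega)).trans (hcong x)) hdvd
    rw [sub_add_cancel] at h
    simpa using dvd_cancel o _ ho h
  · set d := trans (mon u e) cS v - trans (mon u e) cS w
    have hco : ∀ a, Pd ((d ᵥ* M.adjugate) a) Dg := fun a => by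
      simp only [Matrix.vecMul, dotProduct]
      refine Pd.sum _ _ fun b _ => ((diff_pd hc b).mul (Pd.adjugate M hM b a)).mono ?_
      have h2 : univ.sup e * m ≤ Am * (m + 1) := Nat.mul_le_mul_left _ (by omega)
      simp only [Dg]
      rw [add_mul k 1, one_mul]
      omega
    obtain ⟨h1, h2⟩ := lf_sep s M hco
    have h3 := h2 (h1.eq_zero hdvd)
    have hdetK : (M.map toK).det ≠ 0 := by rwa [map_det_toK, map_ne_zero_iff _ toK_inj]
    rw [show toK ∘ d = (M.map toK).det⁻¹ • ((M.map toK).det • (toK ∘ d)) by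
      rw [inv_smul_smul₀ hdetK], det_smul_eq]
    refine L.smul_mem _ (Submodule.sum_mem _ fun a _ => ?_)
    by_cases ha : a ∈ s
    · exact L.smul_mem _ ha.2
    · rw [vecMul_adjugate_toK, h3 a ha, map_zero, zero_smul]; exact L.zero_mem

end

end Vale.Agent.P114.Mv
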