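import Vale.Agent.P114.Mv.Basic
import Mathlib.LinearAlgebra.Matrix.Adjugate
import Mathlib.MeasureTheory.Measure.Lebesgue.Basic
import Mathlib.MeasureTheory.Constructions.Pi
import Mathlib.MeasureTheory.Integral.Lebesgue.Basic
import Mathlib.Algebra.MvPolynomial.Cardinal
import Mathlib.Analysis.SpecificLimits.Basic

/-! # P114, several parameters: real subspaces of coordinates and their generic vectors -/

namespace Vale.Agent.P114.Mv

noncomputable section

open scoped Classical Matrix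
open Finset MeasureTheory MvPolynomial

variable {s k : ℕ} {ι : Type}

/-- Value of a formal vector on a real vector. -/
def dotE (θ : Fin s → ℝ) (d : Fin k → MP s) (g : Fin k → ℝ) : ℝ := ∑ b, ev θ (d b) * g b

/-- The real slopes. -/
def rrOf (θ : Fin s → ℝ) (r : ι → MP s) (i : ι) : ℝ := ev θ (r i)

/-- The translations of the scalar system of the vector `g`. -/
def tgOf (θ : Fin s → ℝ) (c : ι → Fin k → MP s) (g : Fin k → ℝ) (i : ι) : ℝ := dotE θ (c i) g

theorem slope_rrOf (θ : Fin s → ℝ) (r : ι → MP s) {n : ℕ} (w : Fin n → ι) :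
    slope (rrOf θ r) w = ev θ (slope r w) := by
  simp [slope, rrOf, map_prod]

theorem trans_tgOf (θ : Fin s → ℝ) (r : ι → MP s) (c : ι → Fin k → MP s) (g : Fin k → ℝ) :
    ∀ {n : ℕ} (w : Fin n → ι), trans (rrOf θ r) (tgOf θ c g) w = dotE θ (trans r c w) g
  | 0, w => by simp [trans, dotE]
  | n + 1, w => by
    rw [trans, trans, trans_tgOf θ r c g (Fin.tail w)]
    simp only [tgOf, rrOf, dotE, smul_eq_mul, mul_sum, ← sum_add_distrib, Pi.add_apply,
      Pi.smul_apply, map_add, map_mul]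
    exact sum_congr rfl fun b _ => by ring

theorem dotE_sub (θ : Fin s → ℝ) (v w : Fin k → MP s) (g : Fin k → ℝ) :
    dotE θ (v - w) g = dotE θ v g - dotE θ w g := by
  simp [dotE, sub_mul, sum_sub_distrib]

theorem dotE_comb (θ : Fin s → ℝ) (d : Fin k → MP s) (S : Finset (Fin k)) (z : Fin k → ℝ)
    (B : Fin k → Fin k → ℝ) :
    dotE θ d (∑ x ∈ S, z x • B x) = ∑ x ∈ S, z x * dotE θ d (B x) := by
  simp only [dotE, Finset.sum_apply, Pi.smul_apply, smul_eq_mul, mul_sum]
  rw [sum_comm]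
  exact sum_congr rfl fun x _ => sum_congr rfl fun b _ => by ring

/-- No formal vector vanishes on the whole subspace. -/
def NoRel (θ : Fin s → ℝ) (S : Finset (Fin k)) (B : Fin k → Fin k → ℝ) : Prop :=
  ∀ v : Fin k → MP s, (∀ x ∈ S, dotE θ v (B x) = 0) → v = 0

/-- The basis is the identity on its own coordinates. -/
def Std (S : Finset (Fin k)) (B : Fin k → Fin k → ℝ) : Prop :=
  ∀ x ∈ S, ∀ y ∈ S, B x y = if x = y then 1 else 0

/-- A vector of the subspace whose small differences are small on the whole subspace. -/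
structure Gen (θ : Fin s → ℝ) (r : ι → MP s) (c : ι → Fin k → MP s) (S : Finset (Fin k))
    (B : Fin k → Fin k → ℝ) (g : Fin k → ℝ) : Prop where
  mem : ∃ z : Fin k → ℝ, g = ∑ x ∈ S, z x • B x
  norel : ∀ v : Fin k → MP s, dotE θ v g = 0 → v = 0
  bound : ∃ K0 : ℝ, 0 ≤ K0 ∧ ∀ n : ℕ, ∀ d ∈ Dif r c n, ∀ x ∈ S,
    |dotE θ d (B x)| ≤ Real.exp (K0 * ((n : ℝ) + 1)) * |dotE θ d g|

/-- Few points of the cube nearly annihilate a given functional. -/
theorem volume_slab {k : ℕ} (c : Fin k → ℝ) (x0 : Fin k) {η : ℝ} (hη : 0 ≤ η) (hc : c x0 ≠ 0) :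
    volume {z : Fin k → ℝ | (∀ x, z x ∈ Set.Icc (0 : ℝ) 1) ∧ |∑ x, z x * c x| ≤ η * |c x0|} ≤
      ENNReal.ofReal (2 * η) := by
  obtain ⟨m, rfl⟩ : ∃ m, k = m + 1 := ⟨k - 1, by have := x0.2; omega⟩
  set A := {z : Fin (m + 1) → ℝ | (∀ x, z x ∈ Set.Icc (0 : ℝ) 1) ∧ |∑ x, z x * c x| ≤ η * |c x0|}
  have hA : MeasurableSet A := by
    refine MeasurableSet.inter ?_ ?_
    · have e : {z : Fin (m + 1) → ℝ | ∀ x, z x ∈ Set.Icc (0 : ℝ) 1} =
          ⋂ x, (fun z : Fin (m + 1) → ℝ => z x) ⁻¹' Set.Icc 0 1 := by ext z; simp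
      rw [show (fun z : Fin (m + 1) → ℝ => ∀ x, z x ∈ Set.Icc (0 : ℝ) 1) =
        {z : Fin (m + 1) → ℝ | ∀ x, z x ∈ Set.Icc (0 : ℝ) 1} from rfl, e]
      exact MeasurableSet.iInter fun x => measurable_pi_apply x measurableSet_Icc
    · exact measurableSet_le ((Continuous.abs (continuous_finsetSum _ fun x _ =>
        (continuous_apply x).mul continuous_const)).measurable) measurable_const
  have hmp := (volume_preserving_piFinSuccAbove (fun _ : Fin (m + 1) => ℝ) x0).symm
  rw [← hmp.measure_preimage hA.nullMeasurableSet, Measure.volume_eq_prod,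
    Measure.prod_apply_symm (hmp.measurable hA)]
  refine le_trans (lintegral_mono
    (g := (Set.Icc (0 : Fin m → ℝ) 1).indicator fun _ => ENNReal.ofReal (2 * η)) fun z => ?_) ?_
  · by_cases hz : z ∈ Set.Icc (0 : Fin m → ℝ) 1
    · rw [Set.indicator_of_mem hz]
      set S := ∑ i, z i * c (x0.succAbove i)
      refine (measure_mono (t := Set.Icc (-S / c x0 - η) (-S / c x0 + η)) fun y hy => ?_).trans
        (le_of_eq ?_)
      · obtain ⟨-, h⟩ := hy
        simp only [MeasurableEquiv.piFinSuccAbove_symm_apply, Fin.sum_univ_succAbove _ x0,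
          Fin.insertNthEquiv_apply, Fin.insertNth_apply_same, Fin.insertNth_apply_succAbove] at h
        change |y * c x0 + S| ≤ η * |c x0| at h
        rw [show y * c x0 + S = (y - -S / c x0) * c x0 by field_simp; ring, abs_mul] at h
        have h' := abs_le.1 (le_of_mul_le_mul_right h (abs_pos.2 hc))
        exact ⟨by linarith, by linarith⟩
      · rw [Real.volume_Icc]; ring_nf
    · rw [Set.indicator_of_notMem hz, nonpos_iff_eq_zero]
      refine measure_mono_null (t := ∅) (fun y hy => hz ?_) measure_empty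
      obtain ⟨h, -⟩ := hy
      refine ⟨fun i => ?_, fun i => ?_⟩
      · simpa using (h (x0.succAbove i)).1
      · simpa using (h (x0.succAbove i)).2
  · rw [lintegral_indicator measurableSet_Icc, setLIntegral_const]
    refine le_of_le_of_eq (mul_le_mul_right ?_ _) (mul_one _)
    rw [Real.volume_Icc_pi]
    simp

variable [Fintype ι]

theorem dif_finset (r : ι → MP s) (c : ι → Fin k → MP s) (n : ℕ) :
    ∃ F : Finset (Fin k → MP s), Dif r c n ⊆ ↑F ∧ (F.card : ℝ) ≤ ((Fintype.card ι : ℝ) ^ n) ^ 2 := by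
  refine ⟨(univ : Finset ((Fin n → ι) × (Fin n → ι))).image fun vw => trans r c vw.1 - trans r c vw.2,
    ?_, le_trans (Nat.cast_le.2 card_image_le) (le_of_eq ?_)⟩
  · rintro d ⟨v, w, -, rfl⟩
    simp only [coe_image, Set.mem_image, coe_univ, Set.mem_univ, true_and]
    exact ⟨(v, w), rfl⟩
  · simp [sq]

theorem volume_slab_le (θ : Fin s → ℝ) (S : Finset (Fin k)) (B : Fin k → Fin k → ℝ)
    (d : Fin k → MP s) {η : ℝ} (hη : 0 ≤ η) :
    volume {z : Fin k → ℝ | (∀ x, z x ∈ Set.Icc (0 : ℝ) 1) ∧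
      ∃ x ∈ S, η * |dotE θ d (B x)| > |dotE θ d (∑ y ∈ S, z y • B y)|} ≤ ENNReal.ofReal (2 * η) := by
  rcases S.eq_empty_or_nonempty with rfl | hS
  · simp
  obtain ⟨x0, hx0, hmax⟩ := exists_max_image S (fun x => |dotE θ d (B x)|) hS
  by_cases h0 : dotE θ d (B x0) = 0
  · refine le_of_eq_of_le (measure_mono_null (t := ∅) (fun z hz => ?_) measure_empty) zero_le
    obtain ⟨-, x, hx, hlt⟩ := hz
    have := hmax x hx
    rw [h0, abs_zero] at this
    have := le_antisymm this (abs_nonneg _)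
    rw [this, mul_zero] at hlt
    exact absurd hlt (not_lt.2 (abs_nonneg _))
  let c : Fin k → ℝ := fun x => if x ∈ S then dotE θ d (B x) else 0
  have hc0 : c x0 = dotE θ d (B x0) := if_pos hx0
  refine (measure_mono fun z hz => ?_).trans (volume_slab c x0 hη (by rwa [hc0]))
  obtain ⟨hz1, x, hx, hlt⟩ := hz
  refine ⟨hz1, ?_⟩
  have e : ∑ y, z y * c y = dotE θ d (∑ y ∈ S, z y • B y) := by
    simp [c, dotE_comb, Finset.sum_ite, Finset.filter_mem_eq_inter]
  rw [e, hc0]
  exact hlt.le.trans (mul_le_mul_of_nonneg_left (hmax x hx) hη)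

/-- Every subspace without relations has generic vectors. -/
theorem exists_gen (θ : Fin s → ℝ) (r : ι → MP s) (c : ι → Fin k → MP s) (S : Finset (Fin k))
    (B : Fin k → Fin k → ℝ) (hnr : NoRel θ S B) : ∃ g, Gen θ r c S B g := by
  set N : ℝ := (Fintype.card ι : ℝ) ^ 2 + 1 with hNdef
  have hN1 : 1 ≤ N := by
    have : (0 : ℝ) ≤ (Fintype.card ι : ℝ) ^ 2 := by positivity
    linarith
  set K0 : ℝ := Real.log (8 * N) with hK0
  have hK : Real.exp (-K0) = 1 / (8 * N) := by
    rw [hK0, Real.exp_neg, Real.exp_log (by linarith), one_div]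
  let cube : Set (Fin k → ℝ) := Set.Icc 0 1
  have hmemcube : ∀ z, z ∈ cube → ∀ x, z x ∈ Set.Icc (0 : ℝ) 1 := fun z hz x => ⟨hz.1 x, hz.2 x⟩
  let bad : ℕ → Set (Fin k → ℝ) := fun n => {z | z ∈ cube ∧ ∃ d ∈ Dif r c n, ∃ x ∈ S,
    Real.exp (-(K0 * ((n : ℝ) + 1))) * |dotE θ d (B x)| > |dotE θ d (∑ y ∈ S, z y • B y)|}
  let rel : (Fin k → MP s) → Set (Fin k → ℝ) := fun v =>
    {z | z ∈ cube ∧ v ≠ 0 ∧ dotE θ v (∑ y ∈ S, z y • B y) = 0}
  have hbad : ∀ n, volume (bad n) ≤ ENNReal.ofReal ((1 / 4 : ℝ) * (1 / 8) ^ n) := by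
    intro n
    obtain ⟨F, hF, hcard⟩ := dif_finset r c n
    refine (measure_mono (t := ⋃ d ∈ F, {z : Fin k → ℝ | (∀ x, z x ∈ Set.Icc (0 : ℝ) 1) ∧
      ∃ x ∈ S, Real.exp (-(K0 * ((n : ℝ) + 1))) * |dotE θ d (B x)| >
        |dotE θ d (∑ y ∈ S, z y • B y)|}) ?_).trans ?_
    · rintro z ⟨hz, d, hd, hx⟩
      exact Set.mem_biUnion (hF hd) ⟨hmemcube z hz, hx⟩
    refine (measure_biUnion_finset_le _ _).trans ?_
    refine (sum_le_sum fun d _ => volume_slab_le θ S B d (Real.exp_nonneg _)).trans ?_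
    rw [sum_const, nsmul_eq_mul, ← ENNReal.ofReal_natCast, ← ENNReal.ofReal_mul (Nat.cast_nonneg _)]
    refine ENNReal.ofReal_le_ofReal ?_
    rw [show -(K0 * ((n : ℝ) + 1)) = ((n + 1 : ℕ) : ℝ) * -K0 by push_cast; ring, Real.exp_nat_mul, hK]
    have h1 : (F.card : ℝ) ≤ N ^ n := by
      refine hcard.trans ?_
      rw [← pow_mul, mul_comm n 2, pow_mul]
      exact pow_le_pow_left₀ (by positivity) (by rw [hNdef]; linarith) n
    refine (mul_le_mul_of_nonneg_right h1 (by positivity)).trans ?_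
    rw [pow_succ, one_div_pow, mul_pow, show (1 / 8 : ℝ) ^ n = 1 / 8 ^ n from one_div_pow 8 n]
    field_simp
    linarith
  have hrel : ∀ v, volume (rel v) = 0 := by
    intro v
    by_cases hv : v = 0
    · simp [rel, hv]
    obtain ⟨x, hx, hne⟩ : ∃ x ∈ S, dotE θ v (B x) ≠ 0 := by
      by_contra h
      push Not at h
      exact hv (hnr v h)
    refine le_antisymm (le_of_forall_gt_imp_ge_of_dense fun e he => ?_) zero_le
    obtain ⟨e', he'0, he'⟩ : ∃ e' : ℝ, 0 < e' ∧ ENNReal.ofReal (2 * e') ≤ e := by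
      rcases eq_or_ne e ⊤ with rfl | htop
      · exact ⟨1, one_pos, le_top⟩
      · refine ⟨e.toReal / 2, by have := ENNReal.toReal_pos he.ne' htop; positivity, ?_⟩
        rw [mul_div_cancel₀ _ (two_ne_zero), ENNReal.ofReal_toReal htop]
    refine ((measure_mono fun z hz => ?_).trans (volume_slab_le θ S B v he'0.le)).trans he'
    obtain ⟨hz, -, h0⟩ := hz
    exact ⟨hmemcube z hz, x, hx, by rw [h0, abs_zero]; exact mul_pos he'0 (abs_pos.2 hne)⟩
  have hcube : volume cube = 1 := by simp [cube, Real.volume_Icc_pi]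
  have : Countable (MP s) := by
    rw [← Cardinal.mk_le_aleph0_iff]
    refine (MvPolynomial.cardinalMk_le_max).trans ?_
    simp
  obtain ⟨z, hz, hz'⟩ : ∃ z ∈ cube, z ∉ (⋃ n, bad n) ∪ ⋃ v, rel v := by
    by_contra h
    push Not at h
    have hle : volume cube ≤ ∑' n, ENNReal.ofReal ((1 / 4 : ℝ) * (1 / 8) ^ n) :=
      (measure_mono h).trans ((measure_union_le _ _).trans (by
        rw [measure_iUnion_null hrel, add_zero]
        exact (measure_iUnion_le _).trans (ENNReal.tsum_le_tsum hbad)))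
    rw [hcube, ← ENNReal.ofReal_tsum_of_nonneg (fun n => by positivity)
      ((summable_geometric_of_lt_one (by norm_num) (by norm_num)).mul_left _), tsum_mul_left,
      tsum_geometric_of_lt_one (by norm_num) (by norm_num), ENNReal.one_le_ofReal] at hle
    norm_num at hle
  simp only [Set.mem_union, Set.mem_iUnion, not_or, not_exists] at hz'
  refine ⟨∑ y ∈ S, z y • B y, ⟨z, rfl⟩, fun v hv => ?_, K0,
    Real.log_nonneg (by linarith), fun n d hd x hx => ?_⟩
  · by_contra hne
    exact hz'.2 v ⟨hz, hne, hv⟩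
  · by_contra hlt
    push Not at hlt
    refine hz'.1 n ⟨hz, d, hd, x, hx, ?_⟩
    rw [Real.exp_neg]
    change _ < (Real.exp (K0 * ((n : ℝ) + 1)))⁻¹ * |dotE θ d (B x)|
    rw [lt_inv_mul_iff₀ (Real.exp_pos _)]
    exact hlt

omit [Fintype ι] in
/-- A cofactor coordinate is a determinant with one row replaced. -/
theorem vecMul_adjugate_apply {R : Type} [CommRing R] (M : Matrix (Fin k) (Fin k) R) (v : Fin k → R)
    (x : Fin k) : (v ᵥ* M.adjugate) x = (M.updateRow x v).det := by
  rw [← Matrix.mulVec_transpose, Matrix.adjugate_transpose, ← Matrix.cramer_eq_adjugate_mulVec,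
    Matrix.cramer_apply, ← Matrix.det_transpose, Matrix.updateCol_transpose, Matrix.transpose_transpose]

omit [Fintype ι] in
/-- Vectors with small coordinate volume lie near a hyperplane containing the unit rows. -/
theorem exists_small_dir (S : Finset (Fin k)) (hS : S ≠ univ) (V : Finset (Fin k → ℝ)) {η : ℝ}
    (hη : 0 < η)
    (h : ∀ M : Matrix (Fin k) (Fin k) ℝ, (∀ x, if x ∈ S then M x = Pi.single x 1 else M x ∈ V) →
      |M.det| < η ^ (univ \ S).card) :
    ∃ u : Fin k → ℝ, (∀ x ∈ S, u x = 0) ∧ ‖u‖ = 1 ∧ ∀ v ∈ V, |∑ b, v b * u b| ≤ η := by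
  set U : Finset (Fin k → ℝ) := V ∪ (univ \ S).image fun x => η • (Pi.single x 1 : Fin k → ℝ)
  let P : (Fin k → (Fin k → ℝ)) → Prop := fun M => ∀ x, if x ∈ S then M x = Pi.single x 1 else M x ∈ U
  set cand : Finset (Fin k → (Fin k → ℝ)) :=
    (Fintype.piFinset fun x => if x ∈ S then {Pi.single x 1} else U).filter fun _ => True
  have hcand : ∀ M, M ∈ cand ↔ P M := fun M => by
    simp only [cand, mem_filter, and_true, Fintype.mem_piFinset, P]
    exact forall_congr' fun x => by split_ifs <;> simp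
  let M0 : Fin k → Fin k → ℝ := fun x => if x ∈ S then Pi.single x 1 else η • Pi.single x 1
  have hM0 : M0 ∈ cand := (hcand _).2 fun x => by
    by_cases hx : x ∈ S
    · simp [M0, hx]
    · simp only [M0, hx, if_false]
      exact mem_union_right _ (mem_image_of_mem _ (by simp [hx]))
  obtain ⟨M, hM, hmax⟩ := exists_max_image cand (fun M => |(Matrix.of M).det|) ⟨M0, hM0⟩
  have hdet : η ^ (univ \ S).card ≤ |(Matrix.of M).det| := by
    refine le_of_eq_of_le ?_ (hmax M0 hM0)
    have e : Matrix.of M0 = Matrix.diagonal fun x => if x ∈ S then (1 : ℝ) else η := by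
      ext x y
      by_cases hx : x ∈ S <;>
        simp [M0, hx, Matrix.diagonal_apply, Pi.single_apply, eq_comm]
    rw [e, Matrix.det_diagonal, prod_ite, prod_const_one, one_mul, prod_const,
      abs_of_nonneg (pow_nonneg hη.le _)]
    congr 2
    ext x; simp
  have hMP := (hcand _).1 hM
  obtain ⟨x0, hx0S, hx0V⟩ : ∃ x, x ∉ S ∧ M x ∉ V := by
    by_contra hno
    push Not at hno
    exact absurd hdet (not_le.2 (h (Matrix.of M) fun x => by
      have := hMP x
      split_ifs at this ⊢ with hx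
      exacts [this, hno x hx]))
  have hdet0 : (Matrix.of M).det ≠ 0 := fun h0 => by
    rw [h0, abs_zero] at hdet
    exact absurd hdet (not_le.2 (by positivity))
  set u : Fin k → ℝ := fun b => (Matrix.of M).adjugate b x0 / (Matrix.of M).det with hu
  have hrow : ∀ v : Fin k → ℝ, ∑ b, v b * u b = (v ᵥ* (Matrix.of M).adjugate) x0 / (Matrix.of M).det := by
    intro v
    simp [hu, Matrix.vecMul, dotProduct, sum_div, mul_div_assoc]
  have hMu : ∀ x, ∑ b, M x b * u b = if x = x0 then 1 else 0 := by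
    intro x
    rw [hrow, vecMul_adjugate_apply]
    split_ifs with hx
    · subst hx
      rw [show (Matrix.of M).updateRow x (M x) = Matrix.of M from Matrix.updateRow_eq_self _ _,
        div_self hdet0]
    · rw [Matrix.det_zero_of_row_eq hx (by
        rw [Matrix.updateRow_ne hx, Matrix.updateRow_self]; rfl), zero_div]
  have huS : ∀ x ∈ S, u x = 0 := fun x hx => by
    have h1 := hMu x
    have h2 := hMP x
    rw [if_pos hx] at h2
    rw [if_neg (fun e : x = x0 => hx0S (e ▸ hx)), h2] at h1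
    simpa [Pi.single_apply] using h1
  have hV : ∀ v ∈ V, |∑ b, v b * u b| ≤ 1 := by
    intro v hv
    rw [hrow, vecMul_adjugate_apply, abs_div, div_le_one (abs_pos.2 hdet0)]
    refine hmax (Function.update M x0 v) ((hcand _).2 fun x => ?_)
    by_cases hx : x = x0
    · subst hx
      simp only [hx0S, if_false, Function.update_self]
      exact mem_union_left _ hv
    · rw [Function.update_of_ne hx]; exact hMP x
  have hbig : 1 ≤ η * ‖u‖ := by
    have h1 := hMP x0
    rw [if_neg hx0S] at h1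
    rcases mem_union.1 h1 with h2 | h2
    · exact absurd h2 hx0V
    obtain ⟨z, -, hz⟩ := mem_image.1 h2
    have h3 := hMu x0
    rw [if_pos rfl, ← hz] at h3
    simp [Pi.single_apply] at h3
    rw [← h3]
    refine mul_le_mul_of_nonneg_left (le_trans (le_abs_self _) ?_) hη.le
    rw [← Real.norm_eq_abs]
    exact norm_le_pi_norm u z
  have hu0 : 0 < ‖u‖ := by
    rcases eq_or_lt_of_le (norm_nonneg u) with h0 | h0
    · rw [← h0, mul_zero] at hbig; linarith
    · exact h0
  refine ⟨‖u‖⁻¹ • u, fun x hx => by simp [huS x hx], by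
    rw [norm_smul, norm_inv, norm_norm, inv_mul_cancel₀ hu0.ne'], fun v hv => ?_⟩
  simp only [Pi.smul_apply, smul_eq_mul, ← mul_assoc, mul_comm _ ‖u‖⁻¹]
  simp only [mul_assoc, ← mul_sum]
  rw [abs_mul, abs_inv, abs_norm, inv_mul_le_iff₀ hu0]
  linarith [hV v hv]

end

end Vale.Agent.P114.Mv
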