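import Vale.Agent.P114.Mv.Grade
import Vale.Agent.P114.Mv.Plane
import Mathlib.RingTheory.PowerSeries.Basic
import Mathlib.Data.Finsupp.Encodable

/-! # P114, several parameters: cofactor functionals, their limit series -/

namespace Vale.Agent.P114.Mv

noncomputable section

open scoped Classical Matrix
open Finset MvPolynomial Filter

variable {s k : ℕ} {ι : Type}

theorem wnorm_adjugate_le {R : ℝ} (hR : 0 ≤ R) (M : Matrix (Fin k) (Fin k) (MP s)) {b : ℝ}
    (hb : 1 ≤ b) (h : ∀ i j, wnorm R (M i j) ≤ b) (i j : Fin k) :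
    wnorm R (M.adjugate i j) ≤ k.factorial * b ^ k := by
  rw [Matrix.adjugate_apply]
  refine wnorm_det_le hR _ fun x y => ?_
  rw [Matrix.updateRow_apply]
  split_ifs
  · rw [Pi.single_apply]
    split_ifs
    · exact (wnorm_one hR).trans hb
    · rw [wnorm_zero]; linarith
  · exact h x y

/-- The value of the cofactor identity on a real vector. -/
theorem det_dotE (θ : Fin s → ℝ) (M : Matrix (Fin k) (Fin k) (MP s)) (d : Fin k → MP s)
    (g : Fin k → ℝ) :
    ev θ M.det * dotE θ d g = ∑ i, ev θ ((d ᵥ* M.adjugate) i) * dotE θ (M i) g := by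
  have h : (d ᵥ* M.adjugate) ᵥ* M = M.det • d := by
    rw [Matrix.vecMul_vecMul, Matrix.adjugate_mul, Matrix.vecMul_smul, Matrix.vecMul_one]
  have h' : ∀ b, M.det * d b = ∑ i, (d ᵥ* M.adjugate) i * M i b := fun b => by
    have := congrFun h b
    simp only [Pi.smul_apply, smul_eq_mul] at this
    rw [← this, Matrix.vecMul, dotProduct]
  simp only [dotE, mul_sum, ← mul_assoc]
  rw [sum_comm]
  refine sum_congr rfl fun b _ => ?_
  rw [← map_mul, h', map_sum, sum_mul]
  exact sum_congr rfl fun i _ => by rw [map_mul]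

/-- Interleaved cofactor functionals of bounded matrices have a subsequence with stable low
coefficients. -/
theorem exists_limit_functional {R : ℝ} (hR : 0 < R) {b : ℝ} (hb : 1 ≤ b) {j : ℕ}
    (e : Fin j → Fin k) (BP : ℕ → Matrix (Fin k) (Fin k) (MP s))
    (h : ∀ M x y, wnorm R (BP M x y) ≤ b) :
    ∃ φ : ℕ → ℕ, StrictMono φ ∧ ∃ Φ : Fin k → PowerSeries (MP s), ∀ L : ℕ,
      ∀ᶠ M in atTop, ∀ v : Fin k → MP s, ∀ i < L,
        PowerSeries.coeff i (∑ q, Φ q * (gr j (v q) : PowerSeries (MP s))) =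
          (interP j fun x => (v ᵥ* (BP (φ M)).adjugate) (e x)).coeff i := by
  let f : ℕ → Fin k × Fin j × (Fin s →₀ ℕ) → ℤ := fun M q =>
    coeff q.2.2 ((BP M).adjugate q.1 (e q.2.1))
  have hB : ∀ M q, |(f M q : ℝ)| ≤ k.factorial * b ^ k / R ^ tdeg q.2.2 := fun M q => by
    rw [le_div_iff₀ (pow_pos hR _)]
    exact (abs_coeff_mul_le hR.le _ _).trans (wnorm_adjugate_le hR.le _ hb (h M) _ _)
  obtain ⟨φ, hφ, g, hg⟩ := exists_stable_subseq f _ hB
  refine ⟨φ, hφ, fun q => inter j fun x ν => g (q, x, ν), fun L => ?_⟩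
  have hev : ∀ᶠ M in atTop, ∀ i ∈ range L, ∀ q, ∀ x : Fin j, ∀ ν ∈ degSet s (i / j),
      f (φ M) (q, x, ν) = g (q, x, ν) := by
    simp only [Filter.eventually_all_finset, Filter.eventually_all]
    intro i _ q x ν _
    exact hg _
  filter_upwards [hev] with M hM v i hi
  have e1 : (interP j fun x => (v ᵥ* (BP (φ M)).adjugate) (e x)) =
      ∑ q, interP j (fun x => (BP (φ M)).adjugate q (e x)) * gr j (v q) := by
    rw [interP_sum]; rfl
  rw [e1, Polynomial.finsetSum_coeff, map_sum]
  refine sum_congr rfl fun q _ => ?_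
  rw [Polynomial.coeff_mul, PowerSeries.coeff_mul]
  refine sum_congr rfl fun ab hab => ?_
  rw [Polynomial.coeff_coe]
  congr 1
  refine (inter_eq_of_table (fun x => (BP (φ M)).adjugate q (e x)) _ fun x ν hν => ?_).symm
  exact hM _ (mem_range.2 (by have := Finset.mem_antidiagonal.1 hab; omega)) q x ν hν

/-- The digits of the graded translations under a series functional. -/
theorem trans_series (j : ℕ) (σ : ι → Bool) (a : ι → Fin s → ℕ) (c : ι → Fin k → MP s)
    (Φ : Fin k → PowerSeries (MP s)) : ∀ {n : ℕ} (w : Fin n → ι),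
    trans (mon (mslope σ a) fun i => j * tdeg (Finsupp.equivFunOnFinite.symm (a i)))
        (fun i => ∑ q, Φ q * (gr j (c i q) : PowerSeries (MP s))) w =
      ∑ q, Φ q * (gr j (trans (mslope σ a) c w q) : PowerSeries (MP s))
  | 0, w => by simp [trans]
  | n + 1, w => by
    rw [trans, trans, trans_series j σ a c Φ (Fin.tail w)]
    simp only [smul_eq_mul, mul_sum, ← sum_add_distrib, Pi.add_apply, Pi.smul_apply, map_add,
      map_mul, Polynomial.coe_add, Polynomial.coe_mul]
    refine sum_congr rfl fun q _ => ?_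
    rw [gr_mslope, Polynomial.coe_mul, Polynomial.coe_C, Polynomial.coe_pow, Polynomial.coe_X, mon]
    ring

theorem trans_gr (j : ℕ) (σ : ι → Bool) (a : ι → Fin s → ℕ) (c : ι → Fin k → MP s) :
    ∀ {n : ℕ} (w : Fin n → ι),
    trans (fun i => Polynomial.C (mslope σ a i) *
        Polynomial.X ^ (j * tdeg (Finsupp.equivFunOnFinite.symm (a i))))
        (fun i q => gr j (c i q)) w = fun q => gr j (trans (mslope σ a) c w q)
  | 0, w => by funext q; simp [trans]
  | n + 1, w => by
    funext q
    simp only [trans, trans_gr j σ a c (Fin.tail w), Pi.add_apply, Pi.smul_apply, smul_eq_mul,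
      map_add, map_mul, gr_mslope]

theorem slope_gr (j : ℕ) (σ : ι → Bool) (a : ι → Fin s → ℕ) {n : ℕ} (w : Fin n → ι) :
    slope (fun i => Polynomial.C (mslope σ a i) *
        Polynomial.X ^ (j * tdeg (Finsupp.equivFunOnFinite.symm (a i)))) w =
      gr j (slope (mslope σ a) w) := by
  simp only [slope, map_prod, gr_mslope]

theorem slope_mon_gr (j : ℕ) (σ : ι → Bool) (a : ι → Fin s → ℕ) {n : ℕ} (w : Fin n → ι) :
    slope (mon (mslope σ a) fun i => j * tdeg (Finsupp.equivFunOnFinite.symm (a i))) w =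
      (gr j (slope (mslope σ a) w) : PowerSeries (MP s)) := by
  have h : ∀ i, mon (mslope σ a) (fun i => j * tdeg (Finsupp.equivFunOnFinite.symm (a i))) i =
      Polynomial.coeToPowerSeries.ringHom (gr j (mslope σ a i)) := fun i => by
    simp [gr_mslope, mon]
  simp only [slope, h, ← map_prod]
  rfl

end

end Vale.Agent.P114.Mv
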