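import Vale.Agent.P114.Mv.Basic
import Vale.Agent.P114.Mv.Digits
import Mathlib.Algebra.Polynomial.Basic
import Mathlib.Algebra.Order.Antidiag.Finsupp
import Mathlib.RingTheory.PowerSeries.Trunc

/-! # P114, several parameters: the grading, and series limits of formal functionals -/

namespace Vale.Agent.P114.Mv

noncomputable section

open scoped Classical
open Finset MvPolynomial

variable {s k : ℕ} {ι : Type}

/-- The grading `X ↦ X Y ^ j` by the new variable `Y`. -/
def gr (j : ℕ) : MP s →+* Polynomial (MP s) :=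
  eval₂Hom (Polynomial.C.comp MvPolynomial.C) fun i => Polynomial.C (X i) * Polynomial.X ^ j

theorem gr_monomial (j : ℕ) (ν : Fin s →₀ ℕ) (c : ℤ) :
    gr j (monomial ν c) = Polynomial.C (monomial ν c) * Polynomial.X ^ (j * tdeg ν) := by
  rw [gr, eval₂Hom_monomial, Finsupp.prod_fintype _ _ fun i => pow_zero _, monomial_eq,
    Finsupp.prod_fintype _ _ fun i => pow_zero _]
  simp only [mul_pow, prod_mul_distrib, ← pow_mul, prod_pow_eq_pow_sum, RingHom.coe_comp,
    Function.comp_apply, map_mul, map_prod, map_pow, tdeg, mul_sum, mul_assoc]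

/-- The graded coefficients are the homogeneous parts. -/
theorem coeff_gr (j : ℕ) (P : MP s) (i : ℕ) (ν : Fin s →₀ ℕ) :
    coeff ν ((gr j P).coeff i) = if j * tdeg ν = i then coeff ν P else 0 := by
  induction P using MvPolynomial.induction_on' with
  | monomial μ c =>
    rw [gr_monomial, Polynomial.coeff_C_mul_X_pow]
    by_cases h : μ = ν
    · subst h
      by_cases hi : i = j * tdeg μ
      · rw [if_pos hi, if_pos hi.symm]
      · rw [if_neg hi, if_neg (Ne.symm hi), coeff_zero]
    · rw [coeff_monomial, if_neg h, ite_self]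
      split_ifs
      · rw [coeff_monomial, if_neg h]
      · simp
  | add P Q hP hQ =>
    rw [map_add, Polynomial.coeff_add, coeff_add, hP, hQ, coeff_add]
    split_ifs <;> simp

theorem gr_injective {j : ℕ} : Function.Injective (gr (s := s) j) := fun P Q h =>
  MvPolynomial.ext _ _ fun ν => by
    have := congrArg (fun f => coeff ν (Polynomial.coeff f (j * tdeg ν))) h
    simpa [coeff_gr] using this

/-- The formal slope after grading. -/
theorem gr_mslope (j : ℕ) (σ : ι → Bool) (a : ι → Fin s → ℕ) (i : ι) :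
    gr j (mslope σ a i) = Polynomial.C (mslope σ a i) *
      Polynomial.X ^ (j * tdeg (Finsupp.equivFunOnFinite.symm (a i))) :=
  gr_monomial j _ _

/-- The exponents of total degree `d`. -/
def degSet (s d : ℕ) : Finset (Fin s →₀ ℕ) := Finset.finsuppAntidiag univ d

theorem mem_degSet {d : ℕ} {ν : Fin s →₀ ℕ} : ν ∈ degSet s d ↔ tdeg ν = d := by
  simp [degSet, tdeg, mem_finsuppAntidiag]

/-- Several functionals given by the coefficient table `g`, interleaved into one series. -/
def inter (j : ℕ) (g : Fin j → (Fin s →₀ ℕ) → ℤ) : PowerSeries (MP s) :=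
  PowerSeries.mk fun i =>
    if h : 0 < j then
      ∑ ν ∈ degSet s (i / j), monomial ν (g ⟨i % j, Nat.mod_lt _ h⟩ ν)
    else 0

/-- The interleaved graded polynomial of several polynomials. -/
def interP (j : ℕ) (P : Fin j → MP s) : Polynomial (MP s) :=
  ∑ x : Fin j, Polynomial.X ^ (x : ℕ) * gr j (P x)

theorem coeff_interP (j : ℕ) (P : Fin j → MP s) (i : ℕ) (ν : Fin s →₀ ℕ) :
    coeff ν ((interP j P).coeff i) =
      if h : 0 < j then if tdeg ν = i / j then coeff ν (P ⟨i % j, Nat.mod_lt _ h⟩) else 0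
      else 0 := by
  rw [interP, Polynomial.finsetSum_coeff, coeff_sum]
  rcases Nat.eq_zero_or_pos j with h | h
  · subst h; simp
  rw [dif_pos h, sum_eq_single ⟨i % j, Nat.mod_lt _ h⟩ (fun x _ hx => ?_) (by simp)]
  · rw [Polynomial.X_pow_mul, Polynomial.coeff_mul_X_pow', if_pos (Nat.mod_le _ _), coeff_gr]
    have e : i - i % j = j * (i / j) := by
      have := Nat.mod_add_div i j; omega
    simp only [e, Nat.mul_left_cancel_iff h]
  · rw [Polynomial.X_pow_mul, Polynomial.coeff_mul_X_pow']
    split_ifs with hle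
    · rw [coeff_gr, if_neg]
      intro he
      refine hx (Fin.ext ?_)
      have h1 : i = (x : ℕ) + j * tdeg ν := by omega
      change (x : ℕ) = i % j
      rw [h1, Nat.add_mul_mod_self_left, Nat.mod_eq_of_lt x.2]
    · simp

/-- No low coefficients of all polynomials, exactly when none of the interleaved one. -/
theorem interP_low {j : ℕ} (P : Fin j → MP s) (l : ℕ) :
    (∀ i < j * l, (interP j P).coeff i = 0) ↔ ∀ x ν, tdeg ν < l → coeff ν (P x) = 0 := by
  constructor
  · intro h x ν hν
    have hj : 0 < j := Nat.lt_of_le_of_lt (Nat.zero_le _) x.2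
    have hi : (x : ℕ) + j * tdeg ν < j * l :=
      calc (x : ℕ) + j * tdeg ν < j + j * tdeg ν := Nat.add_lt_add_right x.2 _
        _ = j * (tdeg ν + 1) := by ring
        _ ≤ j * l := Nat.mul_le_mul_left _ hν
    have h2 := congrArg (coeff ν) (h _ hi)
    simp only [coeff_interP, dif_pos hj, coeff_zero] at h2
    rw [if_pos (by rw [Nat.add_mul_div_left _ _ hj, Nat.div_eq_of_lt x.2, zero_add])] at h2
    rw [← h2]
    congr 2
    exact Fin.ext (by simp [Nat.mod_eq_of_lt x.2])
  · intro h i hi
    refine MvPolynomial.ext _ _ fun ν => ?_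
    rw [coeff_interP, coeff_zero]
    split_ifs with hj he
    · exact h _ _ (he ▸ Nat.div_lt_of_lt_mul hi)
    · rfl
    · rfl

theorem coeff_inter (j : ℕ) (g : Fin j → (Fin s →₀ ℕ) → ℤ) (i : ℕ) (ν : Fin s →₀ ℕ) :
    coeff ν (PowerSeries.coeff i (inter j g)) =
      if h : 0 < j then if tdeg ν = i / j then g ⟨i % j, Nat.mod_lt _ h⟩ ν else 0 else 0 := by
  rw [inter, PowerSeries.coeff_mk]
  split_ifs with h he
  · rw [coeff_sum, sum_eq_single ν (fun μ _ hμ => by rw [coeff_monomial, if_neg hμ])
      (fun hn => absurd (mem_degSet.2 he) hn), coeff_monomial, if_pos rfl]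
  · rw [coeff_sum]
    refine sum_eq_zero fun μ hμ => ?_
    rw [coeff_monomial, if_neg]
    rintro rfl
    exact he (mem_degSet.1 hμ)
  · simp

/-- Stable coefficient tables give the same low coefficients. -/
theorem inter_eq_of_table {j : ℕ} (P : Fin j → MP s) (g : Fin j → (Fin s →₀ ℕ) → ℤ) {i : ℕ}
    (h : ∀ x, ∀ ν ∈ degSet s (i / j), coeff ν (P x) = g x ν) :
    (interP j P).coeff i = PowerSeries.coeff i (inter j g) := by
  refine MvPolynomial.ext _ _ fun ν => ?_
  rw [coeff_interP, coeff_inter]
  split_ifs with hj he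
  · exact h _ _ (mem_degSet.2 he)
  · rfl
  · rfl

theorem interP_sum {j : ℕ} (P : Fin k → Fin j → MP s) (v : Fin k → MP s) :
    ∑ b, interP j (P b) * gr j (v b) = interP j fun x => ∑ b, v b * P b x := by
  simp only [interP, map_sum, map_mul, sum_mul, mul_sum]
  rw [sum_comm]
  exact sum_congr rfl fun x _ => sum_congr rfl fun b _ => by ring

end

end Vale.Agent.P114.Mv
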