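import Vale.Agent.P114.Mv.Dim
import Vale.Agent.P114.Mv.Cover
import Vale.Agent.P114.Formula
import Mathlib.RingTheory.Localization.FractionRing
import Mathlib.RingTheory.Localization.Integer
import Mathlib.RingTheory.MvPolynomial.Basic
import Mathlib.RingTheory.Algebraic.Basic

/-! # P114, several parameters: the entropy rate is reached outside the exceptional set -/

namespace Vale.Agent.P114.Mv

noncomputable section

open scoped Classical
open Finset MvPolynomial

variable {ι : Type} [Fintype ι] {s : ℕ}

/-- For a parameter outside the exceptional set, the entropy rate is reached. -/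
theorem exists_dim_mv [Nonempty ι] {θ : Fin s → ℝ} (h01 : ∀ j, θ j ∈ Set.Ioo (0 : ℝ) 1)
    (hθ : θ ∉ Exc s) {p r t : ι → ℝ} (hp : ∀ i, 0 < p i) (hp1 : ∑ i, p i = 1)
    (a : ι → Fin s → ℕ) (ha : ∀ i, a i ≠ 0) (hr : ∀ i, |r i| = ∏ j, θ j ^ a i j) :
    ∃ a' q T D : ℝ, Good p r t a' q T ∧ Low p r t q D ∧
      min (lyap p r) (⨅ n : ℕ, ent (wt (n := n + 1) p) (fun w => (slope r w, trans r t w)) /
        ((n + 1 : ℕ) : ℝ)) ≤ D * lyap p r := by
  obtain ⟨hind, hgood⟩ := good_of_not_mem_exc h01 hθ
  have hg : Function.Injective (ev θ) := (injective_iff_map_eq_zero _).2 fun P hP => by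
    by_contra h; exact hind P h hP
  let K := FractionRing (MP s)
  let jm : MP s →+* K := algebraMap (MP s) K
  have hjm : Function.Injective jm := IsFractionRing.injective (MP s) K
  let emb : K →+* ℝ := IsFractionRing.lift hg
  have hemb : ∀ P, emb (jm P) = ev θ P := fun P => IsFractionRing.lift_algebraMap hg P
  let : Algebra K ℝ := emb.toAlgebra
  let σ : ι → Bool := fun i => decide (0 < r i)
  let V : Submodule K ℝ := Submodule.span K (insert 1 (Set.range t))
  have : FiniteDimensional K V :=
    FiniteDimensional.span_of_finite K ((Set.finite_range t).insert 1)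
  have hk : 0 < Module.finrank K V := by
    have : Nontrivial V :=
      ⟨⟨⟨1, Submodule.subset_span (Set.mem_insert _ _)⟩, 0, fun h =>
        one_ne_zero (congrArg Subtype.val h)⟩⟩
    exact Module.finrank_pos
  let B := Module.finBasis K V
  let tV : ι → V := fun i => ⟨t i, Submodule.subset_span (Set.mem_insert_of_mem _ ⟨i, rfl⟩)⟩
  obtain ⟨b, hb⟩ := IsLocalization.exist_integer_multiples_of_finite
    (nonZeroDivisors (MP s)) (fun x : ι × Fin (Module.finrank K V) => B.repr (tV x.1) x.2)
  choose P hP using hb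
  let c : ι → Fin (Module.finrank K V) → MP s := fun i j => P (i, j)
  have hb0 : emb (jm (b : MP s)) ≠ 0 :=
    fun h => nonZeroDivisors.ne_zero b.2 (hjm (emb.injective (by rw [h, map_zero, map_zero])))
  let τ : Fin (Module.finrank K V) → ℝ := fun j => (B j : ℝ) / emb (jm (b : MP s))
  have hdot : ∀ v : Fin (Module.finrank K V) → MP s,
      dotE θ v τ = ((∑ j, jm (v j) • B j : V) : ℝ) / emb (jm (b : MP s)) := by
    intro v
    rw [Submodule.coe_sum, sum_div]
    refine sum_congr rfl fun j _ => ?_
    simp only [Submodule.coe_smul, Algebra.smul_def, τ]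
    rw [mul_div_assoc, ← hemb]
    rfl
  have ht : ∀ i, dotE θ (c i) τ = t i := fun i => by
    have e0 : ∀ j, jm (c i j) = jm (b : MP s) * B.repr (tV i) j := fun j => by
      refine (hP (i, j)).trans ?_
      rw [Algebra.smul_def]
    rw [hdot, show ∑ j, jm (c i j) • B j = jm (b : MP s) • tV i by
      conv_rhs => rw [← B.sum_repr (tV i), smul_sum]
      simp only [e0, mul_smul]]
    rw [Submodule.coe_smul, Algebra.smul_def]
    exact mul_div_cancel_left₀ _ hb0
  have hτ : ∀ v : Fin (Module.finrank K V) → MP s, dotE θ v τ = 0 → v = 0 := by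
    intro v hv
    rw [hdot, div_eq_zero_iff] at hv
    have := hv.resolve_right hb0
    rw [Submodule.coe_eq_zero] at this
    exact funext fun j => hjm
      ((Fintype.linearIndependent_iff.1 B.linearIndependent _ this j).trans (map_zero jm).symm)
  let E : Env ι s (Module.finrank K V) :=
    ⟨p, σ, a, c, θ, hp, hp1, ha, h01, hind, hgood σ a c ha, inferInstance⟩
  obtain ⟨D, hlow, hD⟩ := E.reach hk hτ
  have hrr : E.rr = r := funext fun i => by
    simp only [E, Env.rr, rrOf, Env.rP, mslope, ev, AlgHom.toRingHom_eq_coe, RingHom.coe_coe,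
      aeval_monomial, Finsupp.prod_fintype _ _ fun _ => pow_zero _, σ, Finsupp.coe_equivFunOnFinite_symm]
    rw [← hr i]
    by_cases h : 0 < r i
    · simp [h, abs_of_pos h]
    · simp [h, abs_of_nonpos (not_lt.1 h)]
  have htg : E.tg τ = t := funext ht
  have hG := E.goodSys τ
  rw [hrr, htg] at hG hlow
  refine ⟨E.amin, E.qmax, E.tmax τ, D, hG, hlow, le_trans (min_le_min ?_ ?_) (hrr ▸ hD)⟩
  · exact le_rfl
  refine le_of_eq (iInf_congr fun n => ?_)
  congr 1
  refine cent_congr_left (wt_nonneg fun i => (hp i).le) fun v w _ => ?_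
  have h1 : (slope r v = slope r w) ↔ slope E.rP v = slope E.rP w := hrr ▸ E.slope_eq_iff v w
  have h2 : ∀ u : Fin (n + 1) → ι, trans r t u = dotE θ (trans E.rP E.c u) τ := fun u => by
    rw [← hrr, ← htg]; exact E.trans_tg τ u
  simp only [Prod.mk.injEq, h1, h2]
  refine and_congr_right fun _ => ⟨fun h => ?_, fun h => by rw [h]⟩
  exact sub_eq_zero.1 (hτ _ (by rw [dotE_sub, h, sub_self]))

end

end Vale.Agent.P114.Mv
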