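import Vale.Agent.P114.Mv.Env

/-! # P114, several parameters: small rows near a larger subspace -/

namespace Vale.Agent.P114.Mv

noncomputable section

open scoped Classical Matrix
open Finset MvPolynomial Filter Topology

namespace Env

variable {ι : Type} [Fintype ι] {s k : ℕ} (E : Env ι s k)

theorem narrow {S : Finset (Fin k)} {B : Fin k → Fin k → ℝ} {g : Fin k → ℝ} (hSu : S ≠ univ)
    (hStd : Std S B) (hnr : NoRel E.θ S B)
    (ih : ∀ (S' : Finset (Fin k)) (B' : Fin k → Fin k → ℝ), S.card < S'.card → Std S' B' →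
      NoRel E.θ S' B' → ∀ g', Gen E.θ E.rP E.c S' B' g' → E.Reach g')
    {D ε : ℝ} (hε : 0 < ε) (hD : D * lyap E.p E.rr + 4 * ε ≤ min (lyap E.p E.rr) E.hform)
    {n : ℕ → ℕ} {δ : ℕ → ℝ} (hn : ∀ M, M ≤ n M) (hδ0 : ∀ M, 0 < δ M)
    (hsmall : ∀ M, ∀ d ∈ E.Small g (n M) (δ M), ∀ x ∈ S,
      |dotE E.θ d (B x)| ≤ Real.exp (-(M : ℝ)))
    (hfail : E.Fails g D ε n δ)
    (hnar : ∀ cc > 0, ∀ᶠ M in atTop, ¬ E.Big S g (n M) (δ M) cc) : False := by
  have hex : ∀ i : ℕ, ∃ M u, i ≤ M ∧ (∀ x ∈ S, u x = 0) ∧ ‖(u : Fin k → ℝ)‖ = 1 ∧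
      ∀ d ∈ E.Small g (n M) (δ M), |dotE E.θ d u| ≤ 1 / ((i : ℝ) + 1) := by
    intro i
    obtain ⟨M, hM, hiM⟩ := ((hnar ((1 / ((i : ℝ) + 1)) ^ (univ \ S).card) (by positivity)).and
      (eventually_ge_atTop i)).exists
    obtain ⟨F, hF, -⟩ := dif_finset E.rP E.c (n M)
    set V := (F.filter fun d => d ∈ E.Small g (n M) (δ M)).image fun d b => ev E.θ (d b)
    obtain ⟨u, hu0, hu1, huV⟩ := exists_small_dir S hSu V (η := 1 / ((i : ℝ) + 1)) (by positivity)
      fun Mx hMx => by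
        have hrow : ∀ x, ∃ d : Fin k → MP s, (fun b => ev E.θ (d b)) = Mx x ∧
            (if x ∈ S then d = Pi.single x 1 else d ∈ E.Small g (n M) (δ M)) := by
          intro x
          have hx' := hMx x
          by_cases hx : x ∈ S
          · rw [if_pos hx] at hx'
            refine ⟨Pi.single x 1, ?_, by rw [if_pos hx]⟩
            rw [hx']
            funext b
            simp [Pi.single_apply, apply_ite (ev E.θ)]
          · rw [if_neg hx] at hx'
            obtain ⟨d, hd, hdx⟩ := mem_image.1 hx'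
            exact ⟨d, hdx, by rw [if_neg hx]; exact (mem_filter.1 hd).2⟩
        choose BP hBP1 hBP2 using hrow
        by_contra hge
        push Not at hge
        refine hM ⟨Matrix.of BP, hBP2, hge.trans (le_of_eq ?_)⟩
        congr 1
        rw [RingHom.map_det]
        congr 1
        exact Matrix.ext fun x b => (congrFun (hBP1 x) b).symm
    refine ⟨M, u, hiM, hu0, hu1, fun d hd => ?_⟩
    exact huV (fun b => ev E.θ (d b))
      (mem_image.2 ⟨d, mem_filter.2 ⟨hF hd.1, hd⟩, rfl⟩)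
  choose M u hiM hu0 hu1 hu using hex
  obtain ⟨u0, hu0m, φ, hφ, hlim⟩ := (isCompact_sphere (0 : Fin k → ℝ) 1).tendsto_subseq
    (x := u) fun i => by simp [hu1 i]
  have hu0n : ‖u0‖ = 1 := by simpa using hu0m
  have hu0S : ∀ x ∈ S, u0 x = 0 := fun x hx =>
    tendsto_nhds_unique ((tendsto_pi_nhds.1 hlim) x) (by simp [Function.comp_def, hu0 _ x hx])
  obtain ⟨y, hy⟩ : ∃ y, u0 y ≠ 0 := by
    by_contra h
    push Not at h
    rw [show u0 = 0 from funext h, norm_zero] at hu0n
    exact zero_ne_one hu0n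
  have hyS : y ∉ S := fun h => hy (hu0S y h)
  set u' : Fin k → ℝ := (u0 y)⁻¹ • u0 with hu'
  set B' : Fin k → Fin k → ℝ := fun x => if x = y then u' else B x - B x y • u' with hB'
  have hStd' : Std (insert y S) B' := by
    intro x hx z hz
    by_cases hxy : x = y
    · subst hxy
      simp only [B', if_true, u', Pi.smul_apply, smul_eq_mul]
      rcases mem_insert.1 hz with rfl | hz
      · rw [inv_mul_cancel₀ hy, if_pos rfl]
      · rw [hu0S z hz, mul_zero, if_neg]
        exact fun h => hyS (h ▸ hz)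
    · have hxS : x ∈ S := (mem_insert.1 hx).resolve_left hxy
      simp only [B', hxy, if_false, u', Pi.sub_apply, Pi.smul_apply, smul_eq_mul]
      rcases mem_insert.1 hz with rfl | hz
      · rw [inv_mul_cancel₀ hy, mul_one, sub_self, if_neg hxy]
      · rw [hu0S z hz, mul_zero, mul_zero, sub_zero, hStd x hxS z hz]
  have hBx : ∀ (d : Fin k → MP s) x, x ∈ S →
      dotE E.θ d (B' x) = dotE E.θ d (B x) - B x y * dotE E.θ d u' := fun d x hx => by
    have hxy : x ≠ y := fun h => hyS (h ▸ hx)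
    simp only [B', hxy, if_false, dotE, Pi.sub_apply, Pi.smul_apply, smul_eq_mul, mul_sub,
      sum_sub_distrib, mul_sum]
    congr 1
    exact sum_congr rfl fun b _ => by ring
  have hBy : B' y = u' := if_pos rfl
  have hnr' : NoRel E.θ (insert y S) B' := fun v hv => hnr v fun x hx => by
    have h1 := hv x (mem_insert_of_mem hx)
    have h2 := hv y (mem_insert_self y S)
    rw [hBx v x hx] at h1
    rw [hBy] at h2
    rw [h2, mul_zero, sub_zero] at h1
    exact h1
  obtain ⟨g', hg'⟩ := exists_gen E.θ E.rP E.c (insert y S) B' hnr'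
  obtain ⟨D', hlow', hD'⟩ := ih (insert y S) B' (by rw [card_insert_of_notMem hyS]; omega) hStd'
    hnr' g' hg'
  obtain ⟨z, hz⟩ := hg'.mem
  obtain ⟨C, hC⟩ := coarse_ge (E.goodSys g') hlow' hε
  set CC := Real.log (2 * (radius E.qmax (E.tmax g') + 1) + 4) + Real.log 4
  obtain ⟨m, hm⟩ := exists_nat_gt ((|C| + |CC|) / ε + 1)
  have hm1 : 1 ≤ m := by
    rcases Nat.eq_zero_or_pos m with rfl | h
    · push_cast at hm
      have : 0 ≤ (|C| + |CC|) / ε := by positivity
      linarith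
    · exact h
  have hsum0 : Tendsto (fun i => ∑ x ∈ S, |z x| * (Real.exp (-((M (φ i) : ℕ) : ℝ)) +
      |B x y| * |(u0 y)⁻¹| * (1 / (((φ i : ℕ) : ℝ) + 1) + k * E.rowSize * ‖u (φ i) - u0‖)) +
      |z y| * |(u0 y)⁻¹| * (1 / (((φ i : ℕ) : ℝ) + 1) + k * E.rowSize * ‖u (φ i) - u0‖))
      atTop (𝓝 0) := by
    have hMφ : Tendsto (fun i => M (φ i)) atTop atTop :=
      tendsto_atTop_mono (fun i => (hφ.id_le i).trans (hiM (φ i))) tendsto_id
    have t1 : Tendsto (fun i => Real.exp (-((M (φ i) : ℕ) : ℝ))) atTop (𝓝 0) :=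
      Real.tendsto_exp_neg_atTop_nhds_zero.comp (tendsto_natCast_atTop_atTop.comp hMφ)
    have t2 : Tendsto (fun i => 1 / (((φ i : ℕ) : ℝ) + 1) + k * E.rowSize * ‖u (φ i) - u0‖)
        atTop (𝓝 0) := by
      have a1 := (tendsto_one_div_add_atTop_nhds_zero_nat (𝕜 := ℝ)).comp hφ.tendsto_atTop
      have a2 := (tendsto_iff_norm_sub_tendsto_zero.1 hlim).const_mul ((k : ℝ) * E.rowSize)
      rw [mul_zero] at a2
      simpa [Function.comp_def] using a1.add a2
    have t3 : ∀ x ∈ S, Tendsto (fun i => |z x| * (Real.exp (-((M (φ i) : ℕ) : ℝ)) +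
        |B x y| * |(u0 y)⁻¹| * (1 / (((φ i : ℕ) : ℝ) + 1) + k * E.rowSize * ‖u (φ i) - u0‖)))
        atTop (𝓝 0) := fun x _ => by
      simpa using (t1.add (t2.const_mul (|B x y| * |(u0 y)⁻¹|))).const_mul |z x|
    simpa using (tendsto_finsetSum S t3).add (t2.const_mul (|z y| * |(u0 y)⁻¹|))
  obtain ⟨i, hi, him⟩ := ((hsum0.eventually_le_const (pow_pos E.amin_pos m)).and
    (eventually_ge_atTop m)).exists
  have hmM : m ≤ M (φ i) := him.trans ((hφ.id_le i).trans (hiM _))
  obtain ⟨N, hN⟩ : ∃ N, n (M (φ i)) = N + m :=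
    ⟨n (M (φ i)) - m, (Nat.sub_add_cancel (hmM.trans (hn _))).symm⟩
  have hδ := hδ0 (M (φ i))
  have hdet : ∀ v w : Fin (N + m) → ι, slope E.rr v = slope E.rr w →
      ⌊trans E.rr (E.tg g) v / δ (M (φ i))⌋ = ⌊trans E.rr (E.tg g) w / δ (M (φ i))⌋ →
      |trans E.rr (E.tg g') v - trans E.rr (E.tg g') w| ≤ E.amin ^ m := by
    intro v w hs h
    have hd0 := E.mem_small hδ hs h
    rw [E.trans_tg, E.trans_tg, ← dotE_sub]
    set d := trans E.rP E.c v - trans E.rP E.c w
    have hd : d ∈ E.Small g (n (M (φ i))) (δ (M (φ i))) := by rw [hN]; exact hd0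
    have hu0d : |dotE E.θ d u'| ≤
        |(u0 y)⁻¹| * (1 / (((φ i : ℕ) : ℝ) + 1) + k * E.rowSize * ‖u (φ i) - u0‖) := by
      have e : dotE E.θ d u' = (u0 y)⁻¹ * dotE E.θ d u0 := by
        simp only [u', dotE, Pi.smul_apply, smul_eq_mul, mul_sum]
        exact sum_congr rfl fun b _ => by ring
      rw [e, abs_mul]
      refine mul_le_mul_of_nonneg_left ?_ (abs_nonneg _)
      have e2 : dotE E.θ d u0 =
          dotE E.θ d (u (φ i)) - ∑ b, ev E.θ (d b) * (u (φ i) - u0) b := by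
        simp only [dotE, Pi.sub_apply, mul_sub, sum_sub_distrib]; ring
      rw [e2]
      refine (abs_sub _ _).trans (add_le_add (hu (φ i) d hd) ?_)
      refine (abs_sum_le_sum_abs _ _).trans ((sum_le_sum fun b _ => ?_).trans (le_of_eq (show
        ∑ _b : Fin k, E.rowSize * ‖u (φ i) - u0‖ = k * E.rowSize * ‖u (φ i) - u0‖ by
          simp; ring)))
      rw [abs_mul]
      exact mul_le_mul (E.ev_row_le (Or.inl hd.1) b)
        (le_trans (le_of_eq (Real.norm_eq_abs _).symm) (norm_le_pi_norm _ b)) (abs_nonneg _)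
        (le_trans zero_le_one E.one_le_rowSize)
    rw [hz, dotE_comb, sum_insert hyS, hBy]
    refine le_trans ?_ hi
    rw [add_comm (∑ x ∈ S, _)]
    refine (abs_add_le _ _).trans (add_le_add ?_ ((abs_sum_le_sum_abs _ _).trans ?_))
    · rw [abs_mul, mul_assoc]; exact mul_le_mul_of_nonneg_left hu0d (abs_nonneg _)
    · refine sum_le_sum fun x hx => ?_
      rw [abs_mul, hBx d x hx]
      refine mul_le_mul_of_nonneg_left ((abs_sub _ _).trans (add_le_add (hsmall _ d hd x hx) ?_))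
        (abs_nonneg _)
      rw [abs_mul, mul_assoc]
      exact mul_le_mul_of_nonneg_left hu0d (abs_nonneg _)
  have hp := peel_coarse (E.goodSys g) (E.goodSys g') m N hδ hdet
  have hf := hfail (M (φ i)) m N hm1 hmM hN
  rw [hN] at hf
  have hA := hC m
  have h4 : D * lyap E.p E.rr + 4 * ε ≤ D' * lyap E.p E.rr := hD.trans hD'
  have h5 := mul_le_mul_of_nonneg_left h4 (Nat.cast_nonneg (α := ℝ) m)
  have h6 : |C| + |CC| ≤ ε * m := by
    have h7 : (|C| + |CC|) / ε ≤ m := by linarith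
    rw [div_le_iff₀ hε] at h7; linarith
  have h8 := le_abs_self C
  have h9 := le_abs_self CC
  have h10 : 0 ≤ ε * m := by positivity
  simp only [CC] at h6 h9
  linarith

end Env

end

end Vale.Agent.P114.Mv
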