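import Vale.Agent.P114.Mv.Digits

/-! # P114, several variables: the whole reveals a share of the digits of its first block -/

namespace Vale.Agent.P114.Mv

noncomputable section

open scoped Classical
open Finset
open Vale.Agent.P114.Trans (pre pre_eq)

variable {ι : Type} [Fintype ι]

/-- Given a class of the first block fixing its slope, and any information on the whole fixing
its first digits, the first digits of the first block keep only part of their entropy. -/
theorem share (L δ : ℝ) (hL : 0 < L) (hLι : Real.log (Fintype.card ι) ≤ L) (hδ : 0 < δ) :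
    ∃ κ : ℝ, 0 < κ ∧ κ ≤ 1 ∧ ∀ {A : Type} [CommRing A] [IsDomain A], Sep A →
      ∀ (p : ι → ℝ), (∀ i, 0 ≤ p i) → ∑ i, p i = 1 → ∀ (u : ι → A) (e : ι → ℕ), (∀ i, 0 < e i) →
      ∀ (ψ : ι → PowerSeries A) (m N L1 : ℕ), L1 ≤ N → ∀ {γ ζ : Type} (cl : (Fin m → ι) → γ)
        (Z : (Fin m → ι) × (Fin N → ι) → ζ),
        (∀ v w, cl v = cl w → slope (mon u e) v = slope (mon u e) w) →
        (∀ v v1, Z v = Z v1 → cl v.1 = cl v1.1 →
          pre (dig u e ψ (joinEquiv ι N m v)) L1 = pre (dig u e ψ (joinEquiv ι N m v1)) L1) →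
        cent (prodW (wt (n := m) p) (wt (n := N) p)) (fun v => pre (dig u e ψ v.1) L1)
            (fun v => (Z v, cl v.1)) ≤
          (1 - κ) * cent (wt (n := m) p) (fun w => pre (dig u e ψ w) L1) cl + κ * δ * L1 := by
  obtain ⟨κ, hκ, hκ1, hd⟩ := digits_gain_cond' L δ hL hδ
  refine ⟨κ, hκ, hκ1, fun {A} _ _ hA p hp hp1 u e he ψ m N L1 hL1 {γ ζ} cl Z hcl hZ => ?_⟩
  set P := wt (n := m) p
  set Q := wt (n := N) p
  have hP : 0 ≤ P := wt_nonneg hp
  have hQ : 0 ≤ Q := wt_nonneg hp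
  let rep : γ → PowerSeries A := fun g =>
    if h : ∃ v, cl v = g then slope (mon u e) h.choose else 0
  have hrep : ∀ v, rep (cl v) = slope (mon u e) v := fun v => by
    have h : ∃ w, cl w = cl v := ⟨v, rfl⟩
    simp only [rep, dif_pos h]
    exact hcl _ _ h.choose_spec
  let y : γ → (Fin N → ι) → ℕ → A := fun g w i =>
    PowerSeries.coeff i (rep g * trans (mon u e) ψ w)
  have hy : ∀ g, ∀ i < L1, cent Q (fun w => y g w i) (fun w => pre (y g w) i) ≤ L := by
    intro g i hi
    obtain ⟨U, E, hUE⟩ : ∃ (U : A) (E : ℕ),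
        rep g = PowerSeries.C U * PowerSeries.X ^ E := by
      simp only [rep]
      split_ifs with h
      · exact ⟨_, _, slope_mon u e h.choose⟩
      · exact ⟨0, 0, by simp⟩
    simp only [y, hUE]
    exact tail_digit (fun a => hp a) hp1 u e he ψ U E (lt_of_lt_of_le hi hL1) hL.le hLι
  have hmain := hd hA P Q cl (fun v => dig u e ψ v) y L1 hP (sum_wt hp1 m) hQ (sum_wt hp1 N) hy
  refine le_trans (cent_anti_right (prodW_nonneg hP hQ) fun v v1 h => ?_) hmain
  simp only [Prod.mk.injEq] at h ⊢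
  obtain ⟨h1, h2⟩ := h
  refine ⟨pre_eq.2 fun i hi => ?_, h2⟩
  have h3 := pre_eq.1 (hZ v v1 h1 h2) i hi
  simp only [y, hrep]
  rw [← dig_join u e ψ v.1 v.2 i, ← dig_join u e ψ v1.1 v1.2 i]
  exact h3

end

end Vale.Agent.P114.Mv
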