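import Vale.Agent.P114.Mv.Transverse
import Mathlib.Analysis.SpecialFunctions.Pow.Real
import Mathlib.Analysis.SpecialFunctions.Pow.NNReal
import Mathlib.Data.Fintype.BigOperators
import Mathlib.Topology.MetricSpace.Bounded

/-! # P114, several parameters: covering the sublevel sets of polynomials of bounded size -/

namespace Vale.Agent.P114.Mv

noncomputable section

open scoped Classical ENNReal
open Finset MvPolynomial Filter Topology

variable {s : ℕ}

/-- A set on which a function is small and one partial derivative is not small is thin. -/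
theorem stratum_cover {d ζ M : ℝ} (hs : 0 < s) (hd : 0 < d) (hζ : 0 < ζ) (hζ1 : ζ < 1)
    (hM : 0 ≤ M) : ∃ C : ℝ, 0 ≤ C ∧ ∀ (P : MP s) (b : ℝ), b ≤ 1 →
      ∀ (L : List (Fin s)) (e : Fin s),
      (∀ x y : Fin s → ℝ, (∀ i, 0 ≤ x i ∧ x i ≤ b) → (∀ i, 0 ≤ y i ∧ y i ≤ b) →
        |ev y (Dw L P) - ev x (Dw L P) - ∑ i, (y i - x i) * ev x (Dw (i :: L) P)| ≤
          M * ‖y - x‖ ^ 2) →
      (∀ (y : Fin s → ℝ) (i : Fin s), (∀ i, 0 ≤ y i ∧ y i ≤ b) → |ev y (Dw (i :: L) P)| ≤ M) →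
      ∀ u : ℝ, 0 < u → u ≤ 1 → ∃ T : Finset (Set (Fin s → ℝ)),
        {x | (∀ i, 0 ≤ x i ∧ x i ≤ b) ∧ |ev x (Dw L P)| ≤ u ∧ u ^ ζ < |ev x (Dw (e :: L) P)|} ⊆
          ⋃ t ∈ T, t ∧
        (∀ t ∈ T, Metric.ediam t ≤ ENNReal.ofReal (C * u ^ (1 - ζ))) ∧
        ∑ t ∈ T, Metric.ediam t ^ d ≤
          ENNReal.ofReal (C * u ^ (d - ((s : ℝ) - 1) - ζ * (1 + d))) := by
  set C1 := 2 + ((s : ℝ) + 3) * M
  set C2 := 2 * C1 + 1
  have hC1 : 2 ≤ C1 := le_add_of_nonneg_right (by positivity)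
  have hC2 : 1 ≤ C2 := by linarith
  refine ⟨C2 + 2 ^ s * (2 * (M + 1)) * C2 ^ d, by positivity,
    fun P b hb1 L e hT hbd u hu hu1 => ?_⟩
  set v := u ^ ζ
  have hv : 0 < v := Real.rpow_pos_of_pos hu _
  have hv1 : v ≤ 1 := Real.rpow_le_one hu.le hu1 hζ.le
  set w := v / (2 * (M + 1))
  have hw : 0 < w := by positivity
  set side : Fin s → ℝ := fun i => if i = e then w else u
  have hside : ∀ i, 0 < side i := fun i => by simp only [side]; split <;> assumption
  set Nc : Fin s → ℕ := fun i => ⌊1 / side i⌋₊ + 1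
  set S := {x : Fin s → ℝ | (∀ i, 0 ≤ x i ∧ x i ≤ b) ∧ |ev x (Dw L P)| ≤ u ∧
    v < |ev x (Dw (e :: L) P)|}
  set piece : (∀ i, Fin (Nc i)) → Set (Fin s → ℝ) := fun q =>
    {x | x ∈ S ∧ ∀ i, ⌊x i / side i⌋₊ = q i}
  have hdiam : ∀ q, Metric.ediam (piece q) ≤ ENNReal.ofReal (C2 * u ^ (1 - ζ)) := by
    intro q
    refine Metric.ediam_le fun x hx y hy => ?_
    rw [edist_dist]
    refine ENNReal.ofReal_le_ofReal ?_
    obtain ⟨⟨hxb, hxu, -⟩, hxq⟩ := hx
    obtain ⟨⟨hyb, hyu, hyv⟩, hyq⟩ := hy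
    have hnear : ∀ i, |x i - y i| ≤ side i := by
      intro i
      have h1 := Nat.floor_le (div_nonneg (hxb i).1 (hside i).le)
      have h2 := Nat.lt_floor_add_one (x i / side i)
      have h3 := Nat.floor_le (div_nonneg (hyb i).1 (hside i).le)
      have h4 := Nat.lt_floor_add_one (y i / side i)
      rw [hxq i] at h1 h2
      rw [hyq i] at h3 h4
      rw [le_div_iff₀ (hside i)] at h1 h3
      rw [div_lt_iff₀ (hside i)] at h2 h4
      rw [abs_le]
      constructor <;> linarith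
    have hΔe : |x e - y e| ≤ w := by simpa [side] using hnear e
    have hoth : ∀ i, i ≠ e → |x i - y i| ≤ u := fun i hi => by simpa [side, hi] using hnear i
    have hnorm : ‖x - y‖ ≤ u + |x e - y e| := by
      refine (pi_norm_le_iff_of_nonneg (by positivity)).2 fun i => ?_
      rw [Real.norm_eq_abs, Pi.sub_apply]
      rcases eq_or_ne i e with rfl | hi
      · linarith
      · linarith [hoth i hi, abs_nonneg (x e - y e)]
    have hsq : ‖x - y‖ ^ 2 ≤ 3 * u + w * |x e - y e| := by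
      have h1 := pow_le_pow_left₀ (norm_nonneg _) hnorm 2
      have h2 : |x e - y e| ≤ 1 := by
        rw [abs_le]
        constructor <;> linarith [(hxb e).1, (hxb e).2, (hyb e).1, (hyb e).2]
      nlinarith [mul_le_mul_of_nonneg_right hΔe (abs_nonneg (x e - y e)),
        mul_le_mul_of_nonneg_left h2 hu.le, mul_le_mul_of_nonneg_left hu1 hu.le]
    set rest := ∑ i ∈ univ.erase e, (x i - y i) * ev y (Dw (i :: L) P)
    have hrest : |rest| ≤ (s : ℝ) * M * u := by
      refine (abs_sum_le_sum_abs _ _).trans ((sum_le_card_nsmul _ _ (u * M)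
        fun i hi => ?_).trans ?_)
      · rw [abs_mul]
        exact mul_le_mul (hoth i (ne_of_mem_erase hi)) (hbd y i hyb) (abs_nonneg _) hu.le
      · rw [nsmul_eq_mul, mul_assoc (s : ℝ), mul_comm M u]
        refine mul_le_mul_of_nonneg_right ?_ (by positivity)
        exact_mod_cast (card_le_univ _).trans_eq (Fintype.card_fin s)
    have hTy := hT y x hyb hxb
    rw [← add_sum_erase univ _ (mem_univ e)] at hTy
    set lead := (x e - y e) * ev y (Dw (e :: L) P)
    have hlead : v * |x e - y e| ≤ |lead| := by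
      simp only [lead]
      rw [abs_mul, mul_comm]
      exact mul_le_mul_of_nonneg_left hyv.le (abs_nonneg _)
    have hMw : M * w ≤ v / 2 := by
      simp only [w]
      rw [← mul_div_assoc, div_le_div_iff₀ (by positivity) two_pos]
      nlinarith
    have hsum : |lead| ≤ M * ‖x - y‖ ^ 2 + u + u + |rest| := by
      have h1 := abs_le.1 hTy
      have h2 := abs_le.1 hxu
      have h3 := abs_le.1 hyu
      rw [abs_le]
      constructor <;> linarith [le_abs_self rest, neg_abs_le rest]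
    have h4 : v / 2 * |x e - y e| ≤ (2 + ((s : ℝ) + 3) * M) * u := by
      have h5 := mul_le_mul_of_nonneg_left hsq hM
      have h6 := mul_le_mul_of_nonneg_right hMw (abs_nonneg (x e - y e))
      linarith
    have hgoal : ∀ z, z ≤ C2 * (u / v) → z ≤ C2 * u ^ (1 - ζ) := fun z hz => by
      rwa [Real.rpow_sub hu, Real.rpow_one]
    refine hgoal _ ((dist_pi_le_iff (by positivity)).2 fun i => ?_)
    rw [Real.dist_eq]
    rcases eq_or_ne i e with rfl | hi
    · rw [← mul_div_assoc, le_div_iff₀ hv]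
      have e1 : C2 * u = 2 * ((2 + ((s : ℝ) + 3) * M) * u) + u := by simp only [C2, C1]; ring
      linarith
    · refine (hoth i hi).trans ?_
      calc u = 1 * (u / 1) := by ring
        _ ≤ C2 * (u / v) := by gcongr
  refine ⟨univ.image piece, fun x hx => ?_, fun t ht => ?_, ?_⟩
  · simp only [Set.mem_iUnion, mem_image, mem_univ, true_and, exists_prop]
    refine ⟨piece fun i => ⟨⌊x i / side i⌋₊, ?_⟩, ⟨_, rfl⟩, hx, fun i => rfl⟩
    refine Nat.lt_succ_of_le (Nat.floor_mono ?_)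
    exact div_le_div_of_nonneg_right (((hx.1 i).2).trans hb1) (hside i).le
  · obtain ⟨q, -, rfl⟩ := mem_image.1 ht
    refine (hdiam q).trans (ENNReal.ofReal_le_ofReal ?_)
    gcongr
    exact le_add_of_nonneg_right (by positivity)
  · refine (sum_image_le_of_nonneg fun _ _ => bot_le).trans ?_
    refine (sum_le_card_nsmul _ _ _ fun q _ => ENNReal.rpow_le_rpow (hdiam q) hd.le).trans ?_
    rw [nsmul_eq_mul, ENNReal.ofReal_rpow_of_nonneg (by positivity) hd.le, ← ENNReal.ofReal_natCast,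
      ← ENNReal.ofReal_mul (Nat.cast_nonneg _)]
    refine ENNReal.ofReal_le_ofReal ?_
    have hN : ∀ i, (Nc i : ℝ) ≤ 2 / side i := fun i => by
      have h1 : (⌊1 / side i⌋₊ : ℝ) ≤ 1 / side i := Nat.floor_le (by have := hside i; positivity)
      have h2 : side i ≤ 1 := by
        simp only [side]
        split
        · simp only [w]; rw [div_le_one (by positivity)]; linarith
        · exact hu1
      have h3 : 1 ≤ 1 / side i := (one_le_div (hside i)).2 h2
      simp only [Nc]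
      push_cast
      rw [show 2 / side i = 2 * (1 / side i) by ring]
      linarith
    have hcard : ((univ : Finset (∀ i, Fin (Nc i))).card : ℝ) ≤
        2 ^ s * (2 * (M + 1)) * (u ^ (-((s : ℝ) - 1)) * u ^ (-ζ)) := by
      rw [card_univ, Fintype.card_pi]
      simp only [Fintype.card_fin, Nat.cast_prod]
      refine (prod_le_prod (fun i _ => Nat.cast_nonneg _) fun i _ => hN i).trans (le_of_eq ?_)
      rw [prod_div_distrib, prod_const, card_univ, Fintype.card_fin,
        ← mul_prod_erase univ side (mem_univ e)]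
      have e1 : ∏ i ∈ univ.erase e, side i = u ^ ((s : ℝ) - 1) := by
        rw [prod_congr rfl (g := fun _ => u) fun i hi => by simp [side, ne_of_mem_erase hi],
          prod_const, card_erase_of_mem (mem_univ e), card_univ, Fintype.card_fin, ← Real.rpow_natCast,
          Nat.cast_sub hs, Nat.cast_one]
      rw [e1, show side e = v / (2 * (M + 1)) by simp [side, w], Real.rpow_neg hu.le,
        Real.rpow_neg hu.le]
      field_simp
      rfl
    refine (mul_le_mul_of_nonneg_right hcard (by positivity)).trans ?_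
    rw [Real.mul_rpow (by positivity) (by positivity), ← Real.rpow_mul hu.le]
    calc _ = 2 ^ s * (2 * (M + 1)) * C2 ^ d *
          (u ^ (-((s : ℝ) - 1)) * u ^ (-ζ) * u ^ ((1 - ζ) * d)) := by ring
      _ = 2 ^ s * (2 * (M + 1)) * C2 ^ d * u ^ (d - ((s : ℝ) - 1) - ζ * (1 + d)) := by
          rw [← Real.rpow_add hu, ← Real.rpow_add hu]
          congr 2
          ring
      _ ≤ _ := by
          gcongr
          exact le_add_of_nonneg_left (by linarith)

/-- The sublevel sets of polynomials of bounded size with a low coefficient are thin. -/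
theorem sublevel_cover (hs : 0 < s) {b R d : ℝ} (hb : 0 ≤ b) (hb1 : b ≤ 1) (hbR : b < R)
    (hd : (s : ℝ) - 1 < d) (H : ℝ) (l : ℕ) :
    ∃ C γ δ₀ : ℝ, 0 ≤ C ∧ 0 < γ ∧ 0 < δ₀ ∧ δ₀ ≤ 1 ∧ ∀ P : MP s, wnorm R P ≤ H →
      (∃ ν, tdeg ν < l ∧ coeff ν P ≠ 0) → ∀ δ : ℝ, 0 < δ → δ ≤ δ₀ →
        ∃ T : Finset (Set (Fin s → ℝ)),
          {x | (∀ i, 0 ≤ x i ∧ x i ≤ b) ∧ |ev x P| ≤ δ} ⊆ ⋃ t ∈ T, t ∧
          (∀ t ∈ T, Metric.ediam t ≤ ENNReal.ofReal (C * δ ^ γ)) ∧
          ∑ t ∈ T, Metric.ediam t ^ d ≤ ENNReal.ofReal (C * δ ^ γ) := by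
  obtain ⟨j, c, hc, htrans⟩ := uniform_transversal (s := s) hb hbR H l
  obtain ⟨K1, hK1, hbound⟩ := deriv_bound (s := s) hb hbR j
  obtain ⟨K2, hK2, htay⟩ := deriv_taylor (s := s) hb hbR j
  set M := (K1 + K2) * max H 0
  have hM : 0 ≤ M := by positivity
  have hs1 : (1 : ℝ) ≤ s := by exact_mod_cast hs
  have hd0 : 0 < d := by linarith
  set gap := d - ((s : ℝ) - 1) with hgapd
  have hgap : 0 < gap := by linarith
  set ζ := min (1 / 2) (gap / (2 * (1 + d)))
  have hζ : 0 < ζ := lt_min (by norm_num) (by positivity)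
  have hζh : ζ ≤ 1 / 2 := min_le_left _ _
  have hζ1 : ζ < 1 := by linarith
  have hγ : gap / 2 ≤ d - ((s : ℝ) - 1) - ζ * (1 + d) := by
    have h1 : ζ ≤ gap / (2 * (1 + d)) := min_le_right _ _
    rw [le_div_iff₀ (by positivity)] at h1
    linarith
  obtain ⟨Cs, hCs, hstr⟩ := stratum_cover (s := s) (d := d) hs hd0 hζ hζ1 hM
  set γ0 := min (gap / 2) (1 / 2)
  have hγ0 : 0 < γ0 := lt_min (by linarith) (by norm_num)
  set γ := γ0 * ζ ^ j
  set δ₀ := min 1 ((c / 2) ^ (1 / ζ ^ j))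
  set C := Cs * ((Fintype.card ((Σ i : Fin j, Fin (i : ℕ) → Fin s) × Fin s) : ℝ) + 1)
  refine ⟨C, γ, δ₀, by positivity, by positivity,
    lt_min one_pos (Real.rpow_pos_of_pos (by positivity) _), min_le_left _ _,
    fun P hP hlow δ hδ hδ0 => ?_⟩
  have hδ1 : δ ≤ 1 := hδ0.trans (min_le_left _ _)
  set μ : ℕ → ℝ := fun i => δ ^ ζ ^ i with hμd
  have hμ0 : ∀ i, 0 < μ i := fun i => Real.rpow_pos_of_pos hδ _
  have hμ1 : ∀ i, μ i ≤ 1 := fun i => Real.rpow_le_one hδ.le hδ1 (by positivity)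
  have hμs : ∀ i, μ (i + 1) = μ i ^ ζ := fun i => by
    simp only [μ]; rw [pow_succ, Real.rpow_mul hδ.le]
  have hμj : ∀ i ≤ j, μ i < c := fun i hi => by
    have h1 : δ ≤ (c / 2) ^ (1 / ζ ^ j) := hδ0.trans (min_le_right _ _)
    have h2 : μ j ≤ c / 2 := by
      simp only [μ]
      refine (Real.rpow_le_rpow hδ.le h1 (by positivity)).trans (le_of_eq ?_)
      rw [← Real.rpow_mul (by positivity), div_mul_cancel₀ _ (by positivity), Real.rpow_one]
    have h3 : μ i ≤ μ j :=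
      Real.rpow_le_rpow_of_exponent_ge hδ hδ1 (pow_le_pow_of_le_one hζ.le hζ1.le hi)
    linarith
  have habs : ∀ x : Fin s → ℝ, (∀ i, 0 ≤ x i ∧ x i ≤ b) → ∀ i, |x i| ≤ b := fun x hx i => by
    rw [abs_of_nonneg (hx i).1]; exact (hx i).2
  have hKP : ∀ K : ℝ, 0 ≤ K → K ≤ K1 + K2 → K * wnorm R P ≤ M := fun K hK hKle =>
    (mul_le_mul_of_nonneg_left (hP.trans (le_max_left _ _)) hK).trans
      (mul_le_mul_of_nonneg_right hKle (le_max_right _ _))
  have hT0 : ∀ q : (Σ i : Fin j, Fin (i : ℕ) → Fin s) × Fin s,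
      ∃ T : Finset (Set (Fin s → ℝ)),
      {x | (∀ i, 0 ≤ x i ∧ x i ≤ b) ∧ |ev x (Dw (List.ofFn q.1.2) P)| ≤ μ q.1.1 ∧
          μ q.1.1 ^ ζ < |ev x (Dw (q.2 :: List.ofFn q.1.2) P)|} ⊆ ⋃ t ∈ T, t ∧
      (∀ t ∈ T, Metric.ediam t ≤ ENNReal.ofReal (Cs * δ ^ γ)) ∧
      ∑ t ∈ T, Metric.ediam t ^ d ≤ ENNReal.ofReal (Cs * δ ^ γ) := by
    intro q
    have hlen : (List.ofFn q.1.2).length < j := by rw [List.length_ofFn]; exact q.1.1.2
    obtain ⟨T, hc1, hc2, hc3⟩ := hstr P b hb1 (List.ofFn q.1.2) q.2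
      (fun x y hx hy => (htay P _ hlen.le x y (habs x hx) (habs y hy)).trans
        (mul_le_mul_of_nonneg_right (hKP K2 hK2 (by linarith)) (sq_nonneg _)))
      (fun y i hy => (hbound P (i :: _) (by simp only [List.length_cons]; omega) y (habs y hy)).trans
        (hKP K1 hK1 (by linarith)))
      (μ q.1.1) (hμ0 _) (hμ1 _)
    have hle : ∀ a : ℝ, γ0 ≤ a → μ q.1.1 ^ a ≤ δ ^ γ := fun a ha => by
      refine (Real.rpow_le_rpow_of_exponent_ge (hμ0 _) (hμ1 _) ha).trans ?_
      simp only [μ, γ]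
      rw [← Real.rpow_mul hδ.le, mul_comm γ0]
      exact Real.rpow_le_rpow_of_exponent_ge hδ hδ1
        (mul_le_mul_of_nonneg_right (pow_le_pow_of_le_one hζ.le hζ1.le q.1.1.2.le) hγ0.le)
    exact ⟨T, hc1,
      fun t ht => (hc2 t ht).trans (ENNReal.ofReal_le_ofReal (mul_le_mul_of_nonneg_left
        (hle _ ((min_le_right _ _).trans (by linarith))) hCs)),
      hc3.trans (ENNReal.ofReal_le_ofReal (mul_le_mul_of_nonneg_left
        (hle _ ((min_le_left _ _).trans hγ)) hCs))⟩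
  choose T hT1 hT2 hT3 using hT0
  refine ⟨(univ.sigma T).image fun v => v.2, fun x hx => ?_, fun t ht => ?_, ?_⟩
  · obtain ⟨hxb, hxδ⟩ := hx
    obtain ⟨L0, hL0, hcL⟩ := htrans P hP hlow x (habs x hxb)
    have hbig : μ L0.length < |ev x (Dw L0 P)| := lt_of_lt_of_le (hμj _ hL0) hcL
    have hex : ∃ i, ∃ L : List (Fin s), L.length = i ∧ μ i < |ev x (Dw L P)| := ⟨_, L0, rfl, hbig⟩
    obtain ⟨L, hLi, hLv⟩ := Nat.find_spec hex
    have hij : L.length ≤ j := by
      rw [hLi]; exact le_trans (Nat.find_min' hex ⟨L0, rfl, hbig⟩) hL0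
    cases L with
    | nil =>
      rw [← hLi] at hLv
      simp only [List.length_nil, Dw, hμd, pow_zero, Real.rpow_one] at hLv
      linarith
    | cons e L' =>
      have hL' : L'.length < j := by simp only [List.length_cons] at hij; omega
      have hmin : |ev x (Dw L' P)| ≤ μ L'.length :=
        not_lt.1 fun h => Nat.find_min hex (show L'.length < Nat.find hex by
          rw [← hLi]; simp) ⟨L', rfl, h⟩
      rw [← hLi, List.length_cons, hμs] at hLv
      obtain ⟨t, ht, hxt⟩ := Set.mem_iUnion₂.1 (hT1 (⟨⟨L'.length, hL'⟩, L'.get⟩, e)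
        ⟨hxb, by simpa using hmin, by simpa using hLv⟩)
      exact Set.mem_iUnion₂.2 ⟨t, mem_image.2 ⟨⟨_, t⟩, mem_sigma.2 ⟨mem_univ _, ht⟩, rfl⟩, hxt⟩
  · obtain ⟨⟨q, t⟩, hq, rfl⟩ := mem_image.1 ht
    have htq := (mem_sigma.1 hq).2
    refine (hT2 q t htq).trans (ENNReal.ofReal_le_ofReal ?_)
    exact mul_le_mul_of_nonneg_right (le_mul_of_one_le_right hCs (le_add_of_nonneg_left (Nat.cast_nonneg _))) (by positivity)
  · refine (sum_image_le_of_nonneg fun _ _ => bot_le).trans ?_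
    rw [sum_sigma]
    refine (sum_le_card_nsmul _ _ _ fun q _ => hT3 q).trans ?_
    rw [nsmul_eq_mul, ← ENNReal.ofReal_natCast, ← ENNReal.ofReal_mul (Nat.cast_nonneg _), card_univ]
    refine ENNReal.ofReal_le_ofReal ?_
    simp only [C]
    have := mul_nonneg hCs (Real.rpow_nonneg hδ.le γ)
    linarith

end

end Vale.Agent.P114.Mv
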