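import Vale.Agent.P114.Mv.Basic
import Mathlib.Algebra.MvPolynomial.PDeriv
import Mathlib.Data.Finsupp.Encodable
import Mathlib.Algebra.MvPolynomial.Funext
import Mathlib.Algebra.Polynomial.Taylor
import Mathlib.Algebra.Order.Antidiag.Finsupp
import Mathlib.Analysis.Normed.Group.Constructions
import Mathlib.Analysis.Normed.Group.Tannery
import Mathlib.Analysis.SpecificLimits.Normed

/-! # P114, several parameters: uniform transversality of bounded integer polynomials -/

namespace Vale.Agent.P114.Mv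

noncomputable section

open scoped Classical
open Finset MvPolynomial Filter Topology

variable {s : ℕ}

/-- The derivative along a list of axes. -/
def Dw : List (Fin s) → MP s → MP s
  | [], P => P
  | i :: L, P => pderiv i (Dw L P)

theorem exists_wnorm_Dw {R : ℝ} (hR : 0 < R) : ∀ (j : ℕ) {r : ℝ}, 0 < r → r < R →
    ∃ K : ℝ, 0 ≤ K ∧ ∀ (P : MP s) (L : List (Fin s)), L.length ≤ j →
      wnorm r (Dw L P) ≤ K * wnorm R P := by
  intro j
  induction j with
  | zero =>
    intro r hr hrR
    refine ⟨1, zero_le_one, fun P L hL => ?_⟩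
    rw [List.length_eq_zero_iff.1 (Nat.le_zero.1 hL), one_mul, Dw, wnorm, wnorm]
    exact sum_le_sum fun ν _ => mul_le_mul_of_nonneg_left (pow_le_pow_left₀ hr.le hrR.le _) (abs_nonneg _)
  | succ j ih =>
    intro r hr hrR
    obtain ⟨K, hK, hb⟩ := ih (r := (r + R) / 2) (by linarith) (by linarith)
    set r' := (r + R) / 2
    have hr' : 0 < r' := by simp only [r']; linarith
    have hq1 : r / r' < 1 := by rw [div_lt_one hr']; simp only [r']; linarith
    set q := r / r'
    have hq0 : 0 ≤ q := by positivity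
    set K1 := 1 / (r * (1 - q))
    have hK1 : 0 ≤ K1 := by
      have : 0 ≤ 1 - q := by linarith
      positivity
    have hpd : ∀ (i : Fin s) (Q : MP s), wnorm r (pderiv i Q) ≤ K1 * wnorm r' Q := fun i Q => by
      conv_lhs => rw [as_sum Q, map_sum]
      refine (wnorm_sum_le hr.le _ _).trans ?_
      rw [wnorm, mul_sum]
      refine sum_le_sum fun ν _ => ?_
      rw [pderiv_monomial]
      refine (wnorm_monomial_le hr.le _ _).trans ?_
      rw [Int.cast_mul, Int.cast_natCast, abs_mul, Nat.abs_cast]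
      rcases Nat.eq_zero_or_pos (ν i) with h0 | h0
      · rw [h0, Nat.cast_zero, mul_zero, zero_mul]
        positivity
      · have hsum : ν - Finsupp.single i 1 + Finsupp.single i 1 = ν :=
          Finsupp.ext fun b => by
            rcases eq_or_ne b i with rfl | hb
            · simp; omega
            · simp [hb.symm]
        have hdeg : tdeg (ν - Finsupp.single i 1) + 1 = tdeg ν := by
          conv_rhs => rw [← hsum]
          simp [tdeg, sum_add_distrib, Finsupp.single_apply]
        have hn : ν i ≤ tdeg ν := single_le_sum (fun b _ => Nat.zero_le (ν b)) (mem_univ i)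
        have hgeo : (ν i : ℝ) * q ^ tdeg ν * (1 - q) ≤ 1 := by
          have h1 : (ν i : ℝ) * q ^ tdeg ν ≤ ∑ k ∈ range (tdeg ν), q ^ k := by
            refine le_trans ?_ (sum_le_sum (f := fun _ => q ^ tdeg ν) fun k hk =>
              pow_le_pow_of_le_one hq0 hq1.le (mem_range.1 hk).le)
            rw [sum_const, card_range, nsmul_eq_mul]
            exact mul_le_mul_of_nonneg_right (Nat.cast_le.2 hn) (pow_nonneg hq0 _)
          have h2 := geom_sum_mul_neg q (tdeg ν)
          have h3 := mul_le_mul_of_nonneg_right h1 (sub_nonneg.2 hq1.le)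
          nlinarith [pow_nonneg hq0 (tdeg ν)]
        have hkey : (ν i : ℝ) * r ^ tdeg (ν - Finsupp.single i 1) ≤ K1 * r' ^ tdeg ν := by
          have e : r ^ tdeg ν = q ^ tdeg ν * r' ^ tdeg ν := by
            rw [← mul_pow, div_mul_cancel₀ _ hr'.ne']
          rw [← hdeg, pow_succ] at e
          have hz : 0 < r * (1 - q) := mul_pos hr (sub_pos.2 hq1)
          rw [div_mul_eq_mul_div, one_mul, le_div_iff₀ hz]
          calc (ν i : ℝ) * r ^ tdeg (ν - Finsupp.single i 1) * (r * (1 - q))
              = (ν i : ℝ) * (r ^ tdeg (ν - Finsupp.single i 1) * r) * (1 - q) := by ring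
            _ = (ν i : ℝ) * q ^ tdeg ν * (1 - q) * r' ^ tdeg ν := by rw [e, hdeg]; ring
            _ ≤ 1 * r' ^ tdeg ν := mul_le_mul_of_nonneg_right hgeo (by positivity)
            _ = _ := one_mul _
        rw [mul_assoc]
        exact (mul_le_mul_of_nonneg_left hkey (abs_nonneg _)).trans (le_of_eq (by ring))
    refine ⟨max 1 (K1 * K), le_max_of_le_left zero_le_one, fun P L hL => ?_⟩
    rcases L with _ | ⟨i, L⟩
    · refine le_trans ?_ (le_mul_of_one_le_left (wnorm_nonneg hR.le _) (le_max_left _ _))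
      rw [Dw, wnorm, wnorm]
      exact sum_le_sum fun ν _ =>
        mul_le_mul_of_nonneg_left (pow_le_pow_left₀ hr.le hrR.le _) (abs_nonneg _)
    · rw [Dw]
      refine (hpd i _).trans (le_trans ?_ (mul_le_mul_of_nonneg_right (le_max_right _ _)
        (wnorm_nonneg hR.le _)))
      rw [mul_assoc]
      exact mul_le_mul_of_nonneg_left (hb P L (by simpa using hL)) hK1

/-- The weighted size of a real polynomial in one variable. -/
def pn (ρ : ℝ) (q : Polynomial ℝ) : ℝ := ∑ k ∈ q.support, |q.coeff k| * ρ ^ k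

theorem pn_eq_sum {ρ : ℝ} {q : Polynomial ℝ} {S : Finset ℕ} (h : q.support ⊆ S) :
    pn ρ q = ∑ k ∈ S, |q.coeff k| * ρ ^ k :=
  sum_subset h fun k _ hk => by simp [Polynomial.notMem_support_iff.1 hk]

theorem pn_nonneg {ρ : ℝ} (hρ : 0 ≤ ρ) (q : Polynomial ℝ) : 0 ≤ pn ρ q :=
  sum_nonneg fun _ _ => mul_nonneg (abs_nonneg _) (pow_nonneg hρ _)

theorem pn_monomial (ρ : ℝ) (n : ℕ) (a : ℝ) : pn ρ (Polynomial.monomial n a) = |a| * ρ ^ n := by
  rw [pn_eq_sum (S := {n}) (Polynomial.support_monomial_subset n a), sum_singleton,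
    Polynomial.coeff_monomial, if_pos rfl]

theorem pn_add_le {ρ : ℝ} (hρ : 0 ≤ ρ) (p q : Polynomial ℝ) : pn ρ (p + q) ≤ pn ρ p + pn ρ q := by
  rw [pn_eq_sum (q := p + q) (S := p.support ∪ q.support) Polynomial.support_add,
    pn_eq_sum (q := p) (S := p.support ∪ q.support) subset_union_left,
    pn_eq_sum (q := q) (S := p.support ∪ q.support) subset_union_right, ← sum_add_distrib]
  refine sum_le_sum fun k _ => ?_
  rw [← add_mul, Polynomial.coeff_add]
  exact mul_le_mul_of_nonneg_right (abs_add_le _ _) (pow_nonneg hρ _)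

theorem pn_sum_le {ρ : ℝ} (hρ : 0 ≤ ρ) {β : Type*} (S : Finset β) (f : β → Polynomial ℝ) :
    pn ρ (∑ i ∈ S, f i) ≤ ∑ i ∈ S, pn ρ (f i) := by
  induction S using Finset.induction_on with
  | empty => simp [pn]
  | insert i S hi ih =>
    rw [sum_insert hi, sum_insert hi]
    exact (pn_add_le hρ _ _).trans (by linarith)

theorem pn_mul_le {ρ : ℝ} (hρ : 0 ≤ ρ) (p q : Polynomial ℝ) : pn ρ (p * q) ≤ pn ρ p * pn ρ q := by
  conv_lhs => rw [Polynomial.as_sum_support p, Polynomial.as_sum_support q, sum_mul_sum]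
  refine (pn_sum_le hρ _ _).trans ((sum_le_sum fun m _ => pn_sum_le hρ _ _).trans (le_of_eq ?_))
  rw [pn, pn, sum_mul_sum]
  refine sum_congr rfl fun m _ => sum_congr rfl fun n _ => ?_
  rw [Polynomial.monomial_mul_monomial, pn_monomial, abs_mul, pow_add]
  ring

theorem abs_coeff_le_pn {ρ : ℝ} (hρ : 0 ≤ ρ) (q : Polynomial ℝ) (k : ℕ) :
    |q.coeff k| * ρ ^ k ≤ pn ρ q := by
  by_cases h : k ∈ q.support
  · exact single_le_sum (f := fun n => |q.coeff n| * ρ ^ n)
      (fun n _ => mul_nonneg (abs_nonneg _) (pow_nonneg hρ _)) h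
  · simpa [Polynomial.notMem_support_iff.1 h] using pn_nonneg hρ q

/-- The restriction to the line through `x` in the direction `v`. -/
def line (x v : Fin s → ℝ) : MP s →+* Polynomial ℝ :=
  (aeval fun i => Polynomial.C (x i) + Polynomial.C (v i) * Polynomial.X).toRingHom

theorem line_C (x v : Fin s → ℝ) (a : ℤ) : line x v (C a) = Polynomial.C (a : ℝ) := by
  simp [line]

theorem line_X (x v : Fin s → ℝ) (i : Fin s) :
    line x v (X i) = Polynomial.C (x i) + Polynomial.C (v i) * Polynomial.X := by simp [line]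

theorem eval_line (x v : Fin s → ℝ) (t : ℝ) (P : MP s) :
    (line x v P).eval t = ev (fun i => x i + t * v i) P := by
  induction P using MvPolynomial.induction_on with
  | C a => simp [ev]
  | add p q hp hq => simp [hp, hq]
  | mul_X p i hp =>
    simp only [map_mul, Polynomial.eval_mul, hp, line_X, Polynomial.eval_add, Polynomial.eval_C,
      Polynomial.eval_X]
    rw [show ev (fun i => x i + t * v i) (X i) = x i + t * v i by simp [ev]]
    ring

theorem derivative_line (x v : Fin s → ℝ) (P : MP s) :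
    (line x v P).derivative = ∑ i, Polynomial.C (v i) * line x v (pderiv i P) := by
  induction P using MvPolynomial.induction_on with
  | C a => simp
  | add p q hp hq => simp [hp, hq, mul_add, sum_add_distrib]
  | mul_X p j hp =>
    have e : ∀ i, Polynomial.C (v i) * line x v (pderiv i (p * X j))
        = Polynomial.C (v i) * line x v (pderiv i p) * line x v (X j)
          + if i = j then Polynomial.C (v i) * line x v p else 0 := fun i => by
      rw [pderiv_mul, map_add, map_mul, map_mul]
      rcases eq_or_ne i j with rfl | hij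
      · rw [if_pos rfl, pderiv_X_self, map_one]
        ring
      · rw [if_neg hij, pderiv_X_of_ne hij.symm, map_zero]
        ring
    rw [sum_congr rfl fun i _ => e i, sum_add_distrib, sum_ite_eq', if_pos (mem_univ j), ← sum_mul,
      map_mul, Polynomial.derivative_mul, hp]
    simp only [line_X, map_add, Polynomial.derivative_mul, Polynomial.derivative_C,
      Polynomial.derivative_X, zero_mul, zero_add, mul_one]
    ring

theorem coeff_zero_line (x v : Fin s → ℝ) (P : MP s) : (line x v P).coeff 0 = ev x P := by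
  simp [Polynomial.coeff_zero_eq_eval_zero, eval_line]

theorem pn_line {x v : Fin s → ℝ} {ρ r : ℝ} (hρ : 0 ≤ ρ)
    (h : ∀ i, |x i| + ρ * |v i| ≤ r) (P : MP s) : pn ρ (line x v P) ≤ wnorm r P := by
  have hpow : ∀ i (n : ℕ),
      pn ρ ((Polynomial.C (x i) + Polynomial.C (v i) * Polynomial.X) ^ n) ≤ r ^ n := by
    intro i n
    induction n with
    | zero =>
      rw [pow_zero, pow_zero, ← Polynomial.C_1, ← Polynomial.monomial_zero_left, pn_monomial]
      simp
    | succ n ih =>
      rw [pow_succ, pow_succ]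
      refine (pn_mul_le hρ _ _).trans (mul_le_mul ih ?_ (pn_nonneg hρ _) ((pn_nonneg hρ _).trans ih))
      refine (pn_add_le hρ _ _).trans ?_
      rw [← Polynomial.monomial_zero_left, Polynomial.C_mul_X_eq_monomial, pn_monomial, pn_monomial,
        pow_zero, pow_one, mul_one, mul_comm |v i|]
      exact h i
  have hprod : ∀ (S : Finset (Fin s)) (ν : Fin s →₀ ℕ),
      pn ρ (∏ i ∈ S, (Polynomial.C (x i) + Polynomial.C (v i) * Polynomial.X) ^ ν i)
        ≤ r ^ ∑ i ∈ S, ν i := by
    intro S ν
    induction S using Finset.induction_on with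
    | empty =>
      rw [prod_empty, sum_empty, pow_zero, ← Polynomial.C_1, ← Polynomial.monomial_zero_left,
        pn_monomial]
      simp
    | insert i S hi ih =>
      rw [prod_insert hi, sum_insert hi, pow_add]
      exact (pn_mul_le hρ _ _).trans (mul_le_mul (hpow i _) ih (pn_nonneg hρ _)
        ((pn_nonneg hρ _).trans (hpow i _)))
  conv_lhs => rw [as_sum P, map_sum]
  refine (pn_sum_le hρ _ _).trans ?_
  rw [wnorm]
  refine sum_le_sum fun ν _ => ?_
  rw [monomial_eq, map_mul, line_C, Finsupp.prod_fintype _ _ (fun i => pow_zero _), map_prod]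
  simp only [map_pow, line_X]
  refine (pn_mul_le hρ _ _).trans ?_
  rw [← Polynomial.monomial_zero_left, pn_monomial, pow_zero, mul_one]
  exact mul_le_mul_of_nonneg_left (hprod univ ν) (abs_nonneg _)

theorem taylor_line (x v : Fin s → ℝ) (h : ℝ) (P : MP s) :
    Polynomial.taylor h (line x v P) = line (fun i => x i + h * v i) v P := by
  induction P using MvPolynomial.induction_on with
  | C a => rw [line_C, line_C, Polynomial.taylor_C]
  | add p q hp hq => simp [hp, hq]
  | mul_X p i hp =>
    simp only [map_mul, Polynomial.taylor_mul, hp, line_X, map_add, Polynomial.taylor_C,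
      Polynomial.taylor_X]
    ring

theorem iterate_line {x v : Fin s → ℝ} {P : MP s} {j : ℕ} {ε V : ℝ} (hV : ∑ i, |v i| ≤ V)
    (h : ∀ L : List (Fin s), L.length ≤ j → |ev x (Dw L P)| ≤ ε) :
    ∀ (k : ℕ) (L : List (Fin s)), k + L.length ≤ j →
      |(Polynomial.derivative^[k] (line x v (Dw L P))).coeff 0| ≤ V ^ k * ε := by
  intro k
  induction k with
  | zero => intro L hL; simpa [coeff_zero_line] using h L (by omega)
  | succ k ih =>
    intro L hL
    rw [Function.iterate_succ_apply, derivative_line, Polynomial.iterate_derivative_sum,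
      Polynomial.finsetSum_coeff]
    simp only [Polynomial.iterate_derivative_C_mul, Polynomial.coeff_C_mul]
    have hε : 0 ≤ ε := (abs_nonneg _).trans (h [] (by simp))
    have hV0 : 0 ≤ V := (sum_nonneg fun _ _ => abs_nonneg _).trans hV
    refine (abs_sum_le_sum_abs _ _).trans ((sum_le_sum (g := fun i => |v i| * (V ^ k * ε))
      fun i _ => ?_).trans ?_)
    · rw [abs_mul]
      exact mul_le_mul_of_nonneg_left (ih (i :: L) (by simp only [List.length_cons]; omega))
        (abs_nonneg _)
    · rw [← sum_mul, pow_succ, mul_comm (V ^ k) V, mul_assoc]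
      exact mul_le_mul_of_nonneg_right hV (by positivity)

/-- Recentring bounded coefficient sequences tending to zero coordinatewise. -/
theorem tendsto_taylor {ρ B h : ℝ} (hρ : 0 < ρ) (hh : 0 < h) (hhρ : 4 * h ≤ ρ)
    (q : ℕ → Polynomial ℝ) (hB : ∀ m n, |(q m).coeff n| * ρ ^ n ≤ B)
    (h0 : ∀ n, Tendsto (fun m => (q m).coeff n) atTop (𝓝 0)) (k : ℕ) :
    Tendsto (fun m => (Polynomial.taylor h (q m)).coeff k) atTop (𝓝 0) := by
  set f : ℕ → ℕ → ℝ := fun m n => ((n.choose k : ℕ) : ℝ) * (q m).coeff n * h ^ (n - k)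
  have heq : ∀ m, (Polynomial.taylor h (q m)).coeff k = ∑' n, f m n := fun m => by
    rw [Polynomial.taylor_coeff, Polynomial.hasseDeriv_apply, Polynomial.eval_sum,
      Polynomial.sum_def, tsum_eq_sum (s := (q m).support)]
    · exact sum_congr rfl fun n _ => by simp [f]
    · intro n hn
      simp [f, Polynomial.notMem_support_iff.1 hn]
  simp only [heq]
  have hlim := tendsto_tsum_of_dominated_convergence (f := f) (g := fun _ => (0 : ℝ))
    (bound := fun n => B / h ^ k * (1 / 2 : ℝ) ^ n) (𝓕 := atTop)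
    (Summable.mul_left _ (summable_geometric_of_lt_one (by norm_num) (by norm_num)))
    (fun n => by
      have := ((h0 n).const_mul ((n.choose k : ℕ) : ℝ)).mul_const (h ^ (n - k))
      simpa using this)
    (Eventually.of_forall fun m n => by
      have hB0 : 0 ≤ B := le_trans (by positivity) (hB m n)
      rw [Real.norm_eq_abs, abs_mul, abs_mul, Nat.abs_cast, abs_of_pos (pow_pos hh (n - k))]
      rcases lt_or_ge n k with hnk | hnk
      · rw [Nat.choose_eq_zero_of_lt hnk, Nat.cast_zero, zero_mul, zero_mul]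
        positivity
      · have hc : ((n.choose k : ℕ) : ℝ) ≤ 2 ^ n := by exact_mod_cast Nat.choose_le_two_pow n k
        have h2 : (2 : ℝ) ^ n * h ^ n ≤ (1 / 2 : ℝ) ^ n * ρ ^ n := by
          rw [← mul_pow, ← mul_pow]
          exact pow_le_pow_left₀ (by positivity) (by linarith) n
        rw [div_mul_eq_mul_div, le_div_iff₀ (pow_pos hh k)]
        calc ((n.choose k : ℕ) : ℝ) * |(q m).coeff n| * h ^ (n - k) * h ^ k
            = ((n.choose k : ℕ) : ℝ) * |(q m).coeff n| * h ^ n := by
              rw [mul_assoc, ← pow_add, Nat.sub_add_cancel hnk]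
          _ ≤ 2 ^ n * |(q m).coeff n| * h ^ n := by gcongr
          _ = |(q m).coeff n| * (2 ^ n * h ^ n) := by ring
          _ ≤ |(q m).coeff n| * ((1 / 2 : ℝ) ^ n * ρ ^ n) :=
              mul_le_mul_of_nonneg_left h2 (abs_nonneg _)
          _ = |(q m).coeff n| * ρ ^ n * (1 / 2 : ℝ) ^ n := by ring
          _ ≤ B * (1 / 2 : ℝ) ^ n := mul_le_mul_of_nonneg_right (hB m n) (by positivity))
  simpa using hlim

/-- Bounded polynomials with all derivatives tending to zero at moving centres tend to zero. -/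
theorem tendsto_ev {b R H : ℝ} (hb : 0 ≤ b) (hbR : b < R) (P : ℕ → MP s)
    (hP : ∀ m, wnorm R (P m) ≤ H) (θ : ℕ → Fin s → ℝ) (hθ : ∀ m i, |θ m i| ≤ b)
    (hsmall : ∀ m (L : List (Fin s)), L.length ≤ m → |ev (θ m) (Dw L (P m))| ≤ 1 / ((m : ℝ) + 1))
    {y : Fin s → ℝ} (hy : ∀ i, |y i| ≤ b) : Tendsto (fun m => ev y (P m)) atTop (𝓝 0) := by
  set v : ℕ → Fin s → ℝ := fun m i => y i - θ m i
  have hv : ∀ m i, |v m i| ≤ 2 * b := fun m i => (abs_sub _ _).trans (by linarith [hy i, hθ m i])
  set ρ := (R - b) / (2 * b + 1)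
  have hρ : 0 < ρ := div_pos (sub_pos.2 hbR) (by linarith)
  have hρb : ρ * (2 * b) ≤ R - b := by
    have e : ρ * (2 * b + 1) = R - b := div_mul_cancel₀ _ (by linarith)
    linarith
  obtain ⟨N, hN⟩ := exists_nat_gt (4 / ρ)
  have hN0 : 0 < (N : ℝ) := lt_trans (by positivity) hN
  have hh : 4 * (1 / (N : ℝ)) ≤ ρ := by
    rw [div_lt_iff₀ hρ] at hN
    rw [mul_one_div, div_le_iff₀ hN0]
    linarith
  set q : ℕ → Polynomial ℝ := fun m => line (θ m) (v m) (P m)
  have hbd : ∀ z : ℝ, 0 ≤ z → z ≤ 1 → ∀ m n, |(Polynomial.taylor z (q m)).coeff n| * ρ ^ n ≤ H := by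
    intro z hz0 hz1 m n
    refine (abs_coeff_le_pn hρ.le _ n).trans ?_
    rw [taylor_line]
    refine (pn_line hρ.le (fun i => ?_) _).trans (hP m)
    have h1 : |θ m i + z * v m i| ≤ b := by
      rw [show θ m i + z * v m i = (1 - z) * θ m i + z * y i by simp only [v]; ring]
      refine (abs_add_le _ _).trans ?_
      rw [abs_mul, abs_mul, abs_of_nonneg hz0, abs_of_nonneg (sub_nonneg.2 hz1)]
      nlinarith [hθ m i, hy i]
    have h2 := mul_le_mul_of_nonneg_left (hv m i) hρ.le
    linarith
  have key : ∀ i : ℕ, i ≤ N → ∀ k,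
      Tendsto (fun m => (Polynomial.taylor ((i : ℝ) / N) (q m)).coeff k) atTop (𝓝 0) := by
    intro i
    induction i with
    | zero =>
      intro _ k
      simp only [Nat.cast_zero, zero_div, Polynomial.taylor_zero]
      have hz : Tendsto (fun m : ℕ => (2 * b * s) ^ k * (1 / ((m : ℝ) + 1))) atTop (𝓝 0) := by
        simpa using tendsto_one_div_add_atTop_nhds_zero_nat.const_mul ((2 * b * s) ^ k)
      refine squeeze_zero_norm' ?_ hz
      filter_upwards [eventually_ge_atTop k] with m hm
      have h1 := iterate_line (v := v m) (V := 2 * b * s) ((sum_le_sum fun i _ => hv m i).trans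
        (by simp [mul_comm])) (hsmall m) k [] (by simpa using hm)
      rw [Dw, Polynomial.coeff_iterate_derivative, zero_add, Nat.descFactorial_self, nsmul_eq_mul,
        abs_mul, Nat.abs_cast] at h1
      exact le_trans (le_mul_of_one_le_left (abs_nonneg _)
        (by exact_mod_cast Nat.factorial_pos k)) h1
    | succ i ih =>
      intro hi k
      have hi1 : (i : ℝ) / N ≤ 1 := (div_le_one hN0).2 (by exact_mod_cast (by omega : i ≤ N))
      refine (tendsto_taylor hρ (one_div_pos.2 hN0) hh _
        (hbd _ (by positivity) hi1) (ih (by omega)) k).congr fun m => ?_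
      rw [Polynomial.taylor_taylor]
      congr 3
      push_cast
      ring
  refine (key N le_rfl 0).congr fun m => ?_
  rw [Polynomial.taylor_coeff_zero, div_self hN0.ne', eval_line,
    show (fun i => θ m i + 1 * v m i) = y from funext fun i => by simp [v]]

/-- Derivatives are bounded by the weighted size. -/
theorem deriv_bound {b R : ℝ} (hb : 0 ≤ b) (hbR : b < R) (j : ℕ) :
    ∃ K : ℝ, 0 ≤ K ∧ ∀ (P : MP s) (L : List (Fin s)), L.length ≤ j →
      ∀ x : Fin s → ℝ, (∀ i, |x i| ≤ b) → |ev x (Dw L P)| ≤ K * wnorm R P := by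
  obtain ⟨K, hK, hw⟩ := exists_wnorm_Dw (s := s) (show 0 < R by linarith) j
    (r := (b + R) / 2) (by linarith) (by linarith)
  refine ⟨K, hK, fun P L hL x hx => le_trans ?_ (hw P L hL)⟩
  have h := abs_ev_le (b := b) (R := (b + R) / 2) hb (by linarith) (by linarith) hx (Dw L P) 0
    (by simp)
  simpa using h

/-- First order expansion of the derivatives, with a uniform quadratic error. -/
theorem deriv_taylor {b R : ℝ} (hb : 0 ≤ b) (hbR : b < R) (j : ℕ) :
    ∃ K : ℝ, 0 ≤ K ∧ ∀ (P : MP s) (L : List (Fin s)), L.length ≤ j →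
      ∀ x y : Fin s → ℝ, (∀ i, |x i| ≤ b) → (∀ i, |y i| ≤ b) →
        |ev y (Dw L P) - ev x (Dw L P) - ∑ i, (y i - x i) * ev x (Dw (i :: L) P)|
          ≤ K * wnorm R P * ‖y - x‖ ^ 2 := by
  obtain ⟨K, hK, hw⟩ := exists_wnorm_Dw (s := s) (show 0 < R by linarith) (j + 1)
    (r := (b + R) / 2) (by linarith) (by linarith)
  set r := (b + R) / 2
  have hd : 0 < r - b := by simp only [r]; linarith
  refine ⟨K * (2 + 2 * b * s + 1) / (r - b) ^ 2, by positivity, fun P L hL x y hx hy => ?_⟩
  set W := wnorm R P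
  have hW : 0 ≤ W := wnorm_nonneg (by linarith) P
  have hKW : 0 ≤ K * W := mul_nonneg hK hW
  set τ := ‖y - x‖
  have hτi : ∀ i, |y i - x i| ≤ τ := fun i => by
    simpa [Real.norm_eq_abs] using norm_le_pi_norm (y - x) i
  have hgoal : K * (2 + 2 * b * s + 1) / (r - b) ^ 2 * W * τ ^ 2
      = K * W * (2 + 2 * b * s + 1) * (τ / (r - b)) ^ 2 := by rw [div_pow]; ring
  rw [hgoal]
  rcases le_or_gt τ (r - b) with hτ | hτ
  · rcases eq_or_lt_of_le (norm_nonneg (y - x)) with h0 | h0
    · have : y = x := sub_eq_zero.1 (norm_eq_zero.1 h0.symm)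
      subst this
      simp only [sub_self, zero_mul, sum_const_zero, abs_zero]
      positivity
    set ρ := (r - b) / τ
    have hρ : 0 < ρ := div_pos hd h0
    have hρ1 : 1 ≤ ρ := (one_le_div h0).2 hτ
    set g := Dw L P
    set q := line x (fun i => y i - x i) g
    have hq1 : q.eval 1 = ev y g := by
      rw [eval_line, show (fun i => x i + 1 * (y i - x i)) = y from funext fun i => by ring]
    have hc1 : q.coeff 1 = ∑ i, (y i - x i) * ev x (Dw (i :: L) P) := by
      have h := Polynomial.coeff_derivative q 0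
      rw [derivative_line, Polynomial.finsetSum_coeff] at h
      simp only [Polynomial.coeff_C_mul, coeff_zero_line] at h
      simpa [Dw] using h.symm
    have hsum : ev y g = ∑ k ∈ range q.natDegree, q.coeff (k + 2) + q.coeff 1 + q.coeff 0 := by
      rw [← hq1, Polynomial.eval_eq_sum_range' (n := q.natDegree + 2) (by omega), sum_range_succ',
        sum_range_succ']
      simp
    rw [hsum, coeff_zero_line, hc1, add_sub_cancel_right, add_sub_cancel_right]
    have h1 : ρ ^ 2 * ∑ k ∈ range q.natDegree, |q.coeff (k + 2)| ≤ K * W := by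
      refine le_trans ?_
        ((pn_line (x := x) (v := fun i => y i - x i) hρ.le (r := r) (fun i => ?_) g).trans
          (hw P L (by omega)))
      · change _ ≤ pn ρ q
        rw [pn_eq_sum (S := range (q.natDegree + 1 + 1)) (fun k hk => mem_range.2
          ((Polynomial.le_natDegree_of_mem_supp k hk).trans_lt (by omega))),
          sum_range_succ' _ (q.natDegree + 1), sum_range_succ' _ q.natDegree, mul_sum]
        refine le_trans (sum_le_sum fun k _ => ?_) (le_trans (le_add_of_nonneg_right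
          (by positivity)) (le_add_of_nonneg_right (by positivity)))
        rw [mul_comm, show k + 1 + 1 = k + 2 from rfl]
        exact mul_le_mul_of_nonneg_left (pow_le_pow_right₀ hρ1 (by omega)) (abs_nonneg _)
      · have e : ρ * τ = r - b := div_mul_cancel₀ _ h0.ne'
        have := mul_le_mul_of_nonneg_left (hτi i) hρ.le
        linarith [hx i]
    refine (abs_sum_le_sum_abs _ _).trans ?_
    have h2 : τ / (r - b) = ρ⁻¹ := (inv_div _ _).symm
    rw [h2, inv_pow, ← div_eq_mul_inv, le_div_iff₀ (pow_pos hρ 2), mul_comm]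
    refine h1.trans (le_mul_of_one_le_right hKW ?_)
    have : 0 ≤ 2 * b * (s : ℝ) := by positivity
    linarith
  · have hg : ∀ z : Fin s → ℝ, (∀ i, |z i| ≤ b) → ∀ L' : List (Fin s), L'.length ≤ j + 1 →
        |ev z (Dw L' P)| ≤ K * W := fun z hz L' hL' => by
      have h := abs_ev_le (b := b) (R := r) hb (by linarith) (by linarith) hz (Dw L' P) 0 (by simp)
      simp only [pow_zero, one_mul] at h
      exact h.trans (hw P L' hL')
    have h1 : |∑ i, (y i - x i) * ev x (Dw (i :: L) P)| ≤ K * W * (2 * b * s) := by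
      refine (abs_sum_le_sum_abs _ _).trans ((sum_le_sum (g := fun _ => 2 * b * (K * W))
        fun i _ => ?_).trans (le_of_eq ?_))
      · rw [abs_mul]
        exact mul_le_mul ((abs_sub _ _).trans (by linarith [hx i, hy i]))
          (hg x hx _ (by simpa using hL)) (abs_nonneg _) (by linarith)
      · simp only [sum_const, card_univ, Fintype.card_fin, nsmul_eq_mul]
        ring
    refine (abs_sub _ _).trans ?_
    have h2 := (abs_sub (ev y (Dw L P)) (ev x (Dw L P))).trans
      (add_le_add (hg y hy L (by omega)) (hg x hx L (by omega)))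
    have h3 : 1 ≤ (τ / (r - b)) ^ 2 := one_le_pow₀ ((one_le_div hd).2 hτ.le)
    have h4 := le_mul_of_one_le_right (show 0 ≤ K * W * (2 + 2 * b * s + 1) by positivity) h3
    linarith

/-- Some derivative of bounded order is bounded below when a low coefficient is nonzero. -/
theorem uniform_transversal {b R : ℝ} (hb : 0 ≤ b) (hbR : b < R) (H : ℝ) (l : ℕ) :
    ∃ j : ℕ, ∃ c : ℝ, 0 < c ∧ ∀ P : MP s, wnorm R P ≤ H →
      (∃ ν, tdeg ν < l ∧ coeff ν P ≠ 0) → ∀ θ : Fin s → ℝ, (∀ i, |θ i| ≤ b) →
        ∃ L : List (Fin s), L.length ≤ j ∧ c ≤ |ev θ (Dw L P)| := by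
  set b₁ := (b + R) / 2
  have hb1 : 0 < b₁ := by simp only [b₁]; linarith
  have hb1R : b₁ < R := by simp only [b₁]; linarith
  have hR : 0 < R := by linarith
  by_contra hne
  push Not at hne
  choose P hP hν θ hθ hsmall using fun m : ℕ => hne m (1 / ((m : ℝ) + 1)) (by positivity)
  have hθ1 : ∀ m i, |θ m i| ≤ b₁ := fun m i => (hθ m i).trans (by simp only [b₁]; linarith)
  have hev : ∀ y : Fin s → ℝ, (∀ i, |y i| ≤ b₁) → Tendsto (fun m => ev y (P m)) atTop (𝓝 0) :=
    fun y hy => tendsto_ev hb1.le hb1R P hP θ hθ1 (fun m L hL => (hsmall m L hL).le) hy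
  obtain ⟨φ, hφ, g, hg⟩ := exists_stable_subseq (fun m ν => coeff ν (P m))
    (fun ν => H / R ^ tdeg ν) fun m ν =>
      (le_div_iff₀ (pow_pos hR _)).2 ((abs_coeff_mul_le hR.le _ ν).trans (hP m))
  let T : ℕ → Finset (Fin s →₀ ℕ) := fun n =>
    (range n).biUnion fun e => finsuppAntidiag univ e
  have hT : ∀ (n : ℕ) (ν : Fin s →₀ ℕ), ν ∈ T n ↔ tdeg ν < n := fun n ν => by
    simp only [T, Finset.mem_biUnion, Finset.mem_range, mem_finsuppAntidiag, subset_univ, and_true]
    exact ⟨fun ⟨e, he, h⟩ => by rw [tdeg, h]; exact he, fun h => ⟨_, h, rfl⟩⟩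
  have hev2 : ∀ n, ∀ᶠ m in atTop, ∀ ν ∈ T n, coeff ν (P (φ m)) = g ν := fun n =>
    (eventually_all_finset (T n)).2 fun ν _ => hg ν
  have hex : ∃ d, ∃ ν, tdeg ν = d ∧ g ν ≠ 0 := by
    obtain ⟨m, hm⟩ := (hev2 l).exists
    obtain ⟨ν, hνl, hν0⟩ := hν (φ m)
    exact ⟨_, ν, rfl, fun h => hν0 ((hm ν ((hT l ν).2 hνl)).trans h)⟩
  set d := Nat.find hex
  obtain ⟨ν₀, hν₀, hg₀⟩ := Nat.find_spec hex
  have hlow : ∀ ν, tdeg ν < d → g ν = 0 := fun ν hlt => by
    by_contra h
    exact Nat.find_min hex hlt ⟨ν, rfl, h⟩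
  set hp : MP s := ∑ ν ∈ T (d + 1), monomial ν (g ν)
  have hcoef : ∀ ν, coeff ν hp = if tdeg ν < d + 1 then g ν else 0 := fun ν => by
    simp only [hp, coeff_sum, coeff_monomial, sum_ite_eq', hT]
  have hhom : ∀ (t : ℝ) (u : Fin s → ℝ), ev (fun i => t * u i) hp = t ^ d * ev u hp := fun t u => by
    simp only [ev_eq_sum, mul_sum]
    refine sum_congr rfl fun ν hν => ?_
    have hne0 := mem_support_iff.1 hν
    rw [hcoef] at hne0
    have hd : tdeg ν = d := by
      by_cases h1 : tdeg ν < d + 1
      · rw [if_pos h1] at hne0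
        by_contra h2
        exact hne0 (hlow ν (by omega))
      · rw [if_neg h1] at hne0
        exact absurd rfl hne0
    simp only [mul_pow, prod_mul_distrib, prod_pow_eq_pow_sum]
    rw [show ∑ i, ν i = d from hd]
    ring
  set C0 := (b₁ / R) ^ (d + 1) * (H + wnorm R hp)
  have hbound : ∀ u : Fin s → ℝ, (∀ i, |u i| ≤ b₁) → ∀ t : ℝ, 0 < t → t ≤ 1 →
      |ev u hp| ≤ t * C0 := by
    intro u hu t ht ht1
    have hy : ∀ i, |t * u i| ≤ t * b₁ := fun i => by
      rw [abs_mul, abs_of_pos ht]
      exact mul_le_mul_of_nonneg_left (hu i) ht.le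
    have htb : t * b₁ ≤ b₁ := mul_le_of_le_one_left hb1.le ht1
    have hlim : Tendsto (fun m => |ev (fun i => t * u i) (P (φ m)) - t ^ d * ev u hp|) atTop
        (𝓝 |0 - t ^ d * ev u hp|) :=
      (((hev _ fun i => (hy i).trans htb).comp hφ.tendsto_atTop).sub_const _).abs
    have hle : ∀ᶠ m in atTop, |ev (fun i => t * u i) (P (φ m)) - t ^ d * ev u hp|
        ≤ t ^ d * (t * C0) := by
      filter_upwards [hev2 (d + 1)] with m hm
      rw [← hhom, ← map_sub]
      refine (abs_ev_le (b := t * b₁) (R := R) (by positivity) (by linarith) hR hy _ (d + 1)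
        fun ν hν => ?_).trans ?_
      · rw [coeff_sub, hcoef, if_pos hν, hm ν ((hT _ ν).2 hν), sub_self]
      · have h1 : wnorm R (P (φ m) - hp) ≤ H + wnorm R hp := by
          rw [sub_eq_add_neg]
          exact (wnorm_add_le hR.le _ _).trans
            (by rw [wnorm_neg]; linarith [hP (φ m)])
        refine (mul_le_mul_of_nonneg_left h1 (by positivity)).trans (le_of_eq ?_)
        simp only [C0]
        rw [mul_div_assoc, mul_pow, pow_succ t]
        ring
    have h2 := le_of_tendsto hlim hle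
    rw [zero_sub, abs_neg, abs_mul, abs_of_pos (pow_pos ht d)] at h2
    exact le_of_mul_le_mul_left h2 (pow_pos ht d)
  have hzero : ∀ u : Fin s → ℝ, (∀ i, |u i| ≤ b₁) → ev u hp = 0 := fun u hu => by
    have h1 : Tendsto (fun n : ℕ => 1 / ((n : ℝ) + 1) * C0) atTop (𝓝 0) := by
      simpa using tendsto_one_div_add_atTop_nhds_zero_nat.mul_const C0
    refine abs_eq_zero.1 (le_antisymm (ge_of_tendsto h1 (Eventually.of_forall fun n => ?_))
      (abs_nonneg _))
    exact hbound u hu _ (by positivity) (by rw [div_le_one (by positivity)]; linarith)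
  have hmap : MvPolynomial.map (Int.castRingHom ℝ) hp = 0 :=
    funext_set (fun _ => Set.Icc 0 b₁) (fun _ => Set.Icc_infinite hb1) fun u hu => by
      rw [map_zero, eval_map, ← hzero u fun i => by
        rw [Set.mem_univ_pi] at hu
        rw [abs_of_nonneg (hu i).1]
        exact (hu i).2]
      simp [ev, aeval_def]
  have h3 := congrArg (coeff ν₀) hmap
  rw [coeff_map, coeff_zero, hcoef, if_pos (by omega), eq_intCast, Int.cast_eq_zero] at h3
  exact hg₀ h3

end

end Vale.Agent.P114.Mv
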